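import Vale.Agent.P092.H232.Join

/-!
P092 (helper796), Team P, block [P-CONC]: concurrent lines commute (abstract form of step (3) of
post 6568, general quadrangle, no group).

`X` = points, `Z` = lines (or dually), `In` closed incidence without triangles.  `b`, `c` are the
calculi of two different points `b`, `c` of the line `l`, `l'` is the calculus of a second line
through `b`.  From `c u * b g * l' f * c h = 0` for opposite supports of `u`, `h` it follows that
`l` and `l'` commute.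
-/

set_option linter.all false

namespace Vale.Agent.P092.H796

open Set Topology
open Vale.Agent.P092.H218 (loc loc_op mul_ap)
open Vale.Agent.P092.H232 (split_fun two_ind Nin split_inc)

section conc

variable {X Z K : Type*} [TopologicalSpace X] [CompactSpace X] [T2Space X]
  [TopologicalSpace Z] [CompactSpace Z] [T2Space Z]
  [NormedAddCommGroup K] [InnerProductSpace ℂ K] [CompleteSpace K]

/-- A commuting and exactly incident pair of calculi. -/
structure PL (In : X → Z → Prop) (b : C(X, ℂ) →⋆ₐ[ℂ] (K →L[ℂ] K))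
    (l : C(Z, ℂ) →⋆ₐ[ℂ] (K →L[ℂ] K)) : Prop where
  com : ∀ f g, Commute (b f) (l g)
  inc : ∀ f g, Nin In f g → b f * l g = 0

/-- No element of `Z` is incident with an element of the support of `u` and with an element of the
support of `h`. -/
def Opp (In : X → Z → Prop) (u h : C(X, ℂ)) : Prop :=
  ∀ x ∈ tsupport ⇑u, ∀ x' ∈ tsupport ⇑h, ∀ z, In x z → ¬ In x' z

/-- No triangles (and two different elements of `Z` meet at most once). -/
def NoTri (In : X → Z → Prop) : Prop :=
  ∀ x y x' z₁ z₂ z₀, z₁ ≠ z₂ → y ≠ x → y ≠ x' → In x z₁ → In y z₁ → In y z₂ → In x' z₂ →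
    In x z₀ → ¬ In x' z₀

lemma isClosed_col {In : X → Z → Prop} (hI : IsClosed {q : X × Z | In q.1 q.2}) :
    IsClosed {q : X × X | ∃ z, In q.1 z ∧ In q.2 z} := by
  have h : {q : X × X | ∃ z, In q.1 z ∧ In q.2 z} =
      Prod.fst '' {q : (X × X) × Z | In q.1.1 q.2 ∧ In q.1.2 q.2} := by
    ext q
    constructor
    · rintro ⟨z, h1, h2⟩
      exact ⟨(q, z), ⟨h1, h2⟩, rfl⟩
    · rintro ⟨⟨q', z⟩, ⟨h1, h2⟩, rfl⟩
      exact ⟨z, h1, h2⟩
  rw [h]
  have h1 : IsClosed {q : (X × X) × Z | In q.1.1 q.2} :=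
    hI.preimage (f := fun q : (X × X) × Z => (q.1.1, q.2)) (by fun_prop)
  have h2 : IsClosed {q : (X × X) × Z | In q.1.2 q.2} :=
    hI.preimage (f := fun q : (X × X) × Z => (q.1.2, q.2)) (by fun_prop)
  exact ((h1.inter h2).isCompact.image continuous_fst).isClosed

lemma tsupport_star' (v : C(X, ℂ)) : tsupport ⇑(star v) = tsupport ⇑v := by
  unfold tsupport
  congr 1
  ext x; simp [Function.mem_support]

section

variable {In : X → Z → Prop} (hI : IsClosed {q : X × Z | In q.1 q.2}) (tri : NoTri In)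
  {b c : C(X, ℂ) →⋆ₐ[ℂ] (K →L[ℂ] K)} {l : C(Z, ℂ) →⋆ₐ[ℂ] (K →L[ℂ] K)} {L : K →L[ℂ] K}
  (hbl : PL In b l) (hbL : ∀ g, Commute (b g) L) (hcl : PL In c l)

include hI tri hbl hbL hcl in
/-- The word at three collinear-or-equal positions. -/
lemma word_pt {a a' : C(Z, ℂ)} (haa : Disjoint (tsupport ⇑a) (tsupport ⇑a')) {x x' y : X} {z₀ : Z}
    (hx : In x z₀) (hx' : In x' z₀) (hyx : y ≠ x) (hyx' : y ≠ x') :
    ∃ W O V : Set X, IsOpen W ∧ y ∈ W ∧ IsOpen O ∧ x ∈ O ∧ IsOpen V ∧ x' ∈ V ∧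
      ∀ g u h : C(X, ℂ), tsupport ⇑g ⊆ W → tsupport ⇑u ⊆ O → tsupport ⇑h ⊆ V →
        c u * b g * (l a * L * l a') * c h = 0 := by
  by_cases hA : ∀ z ∈ tsupport ⇑a, In x z → In y z → False
  · obtain ⟨a₁, a₂, ha, O, W, hO, hxO, hW, hyW, h1, h2⟩ := split_inc hI hI a hA
    refine ⟨W, O, univ, hW, hyW, hO, hxO, isOpen_univ, mem_univ _, fun g u h hg hu _ => ?_⟩
    have e1 : c u * l a₁ = 0 := hcl.inc _ _ (h1 _ hu)
    have e2 : b g * l a₂ = 0 := hbl.inc _ _ (h2 _ hg)
    have e3 : c u * b g * l a = 0 := by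
      rw [ha, map_add, mul_add, mul_assoc, mul_assoc, e2, (hbl.com g a₁).eq, ← mul_assoc, e1,
        zero_mul, mul_zero, add_zero]
    rw [mul_assoc (l a), ← mul_assoc _ (l a), e3, zero_mul, zero_mul]
  · push Not at hA
    obtain ⟨z₁, hz₁, hxz₁, hyz₁, -⟩ := hA
    have hB : ∀ z ∈ tsupport ⇑a', In x' z → In y z → False := by
      intro z₂ hz₂ hxz₂ hyz₂
      refine tri x y x' z₁ z₂ z₀ ?_ hyx hyx' hxz₁ hyz₁ hyz₂ hxz₂ hx hx'
      rintro rfl
      exact disjoint_left.1 haa hz₁ hz₂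
    obtain ⟨a₁, a₂, ha, V, W, hV, hxV, hW, hyW, h1, h2⟩ := split_inc hI hI a' hB
    refine ⟨W, univ, V, hW, hyW, isOpen_univ, mem_univ _, hV, hxV, fun g u h hg _ hh => ?_⟩
    have e1 : l a₁ * c h = 0 := by
      rw [← (hcl.com h a₁).eq]; exact hcl.inc _ _ (h1 _ hh)
    have e2 : b g * l a₂ = 0 := hbl.inc _ _ (h2 _ hg)
    have e3 : b g * (l a * L * l a₂) = 0 := by
      rw [mul_assoc (l a), ← mul_assoc, (hbl.com g a).eq, mul_assoc (l a), ← mul_assoc (b g),
        (hbL g).eq, mul_assoc L, e2, mul_zero, mul_zero]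
    have e4 : (l a * L * l a₁) * c h = 0 := by
      rw [mul_assoc, e1, mul_zero]
    rw [ha, map_add, mul_add, mul_add, mul_assoc (c u) (b g) (l a * L * l a₂), e3, mul_zero,
      add_zero, mul_assoc _ _ (c h), e4, mul_zero]

include hI tri hbl hbL hcl in
/-- The same with a compact set of middle points. -/
lemma word_cpt {a a' : C(Z, ℂ)} (haa : Disjoint (tsupport ⇑a) (tsupport ⇑a')) {x x' : X} {z₀ : Z}
    (hx : In x z₀) (hx' : In x' z₀) {S : Set X} (hS : IsCompact S) (h1 : x ∉ S) (h2 : x' ∉ S) :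
    ∃ W O V : Set X, IsOpen W ∧ S ⊆ W ∧ IsOpen O ∧ x ∈ O ∧ IsOpen V ∧ x' ∈ V ∧
      ∀ g u h : C(X, ℂ), tsupport ⇑g ⊆ W → tsupport ⇑u ⊆ O → tsupport ⇑h ⊆ V →
        c u * b g * (l a * L * l a') * c h = 0 := by
  have key : ∀ T ⊆ S, ∃ W O V : Set X, IsOpen W ∧ T ⊆ W ∧ IsOpen O ∧ x ∈ O ∧ IsOpen V ∧ x' ∈ V ∧
      ∀ g u h : C(X, ℂ), tsupport ⇑g ⊆ W → tsupport ⇑u ⊆ O → tsupport ⇑h ⊆ V →
        c u * b g * (l a * L * l a') * c h = 0 := by
    intro T hT
    refine (hS.induction_on (p := fun T => ∃ W O V : Set X, IsOpen W ∧ T ⊆ W ∧ IsOpen O ∧ x ∈ O ∧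
      IsOpen V ∧ x' ∈ V ∧ ∀ g u h : C(X, ℂ), tsupport ⇑g ⊆ W → tsupport ⇑u ⊆ O →
        tsupport ⇑h ⊆ V → c u * b g * (l a * L * l a') * c h = 0) ?_ ?_ ?_ ?_).imp
        fun W ⟨O, V, hW, hSW, h⟩ => ⟨O, V, hW, hT.trans hSW, h⟩
    · refine ⟨∅, univ, univ, isOpen_empty, subset_rfl, isOpen_univ, mem_univ _, isOpen_univ,
        mem_univ _, fun g u h hg _ _ => ?_⟩
      have h0 : g = 0 := by
        ext x
        by_contra hx
        exact (hg (subset_tsupport _ hx)).elim
      rw [h0, map_zero, mul_zero, zero_mul, zero_mul]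
    · rintro S T hST ⟨W, O, V, hW, hT, h⟩
      exact ⟨W, O, V, hW, hST.trans hT, h⟩
    · rintro S T ⟨W, O, V, hW, hS, hO, hxO, hV, hxV, h⟩ ⟨W', O', V', hW', hT, hO', hxO', hV', hxV',
        h'⟩
      refine ⟨W ∪ W', O ∩ O', V ∩ V', hW.union hW', union_subset_union hS hT, hO.inter hO',
        ⟨hxO, hxO'⟩, hV.inter hV', ⟨hxV, hxV'⟩, fun g u v hg hu hv => ?_⟩
      obtain ⟨g₁, g₂, rfl, e1, e2, -, -⟩ := split_fun g hW hW' hg
      rw [map_add, mul_add, add_mul, add_mul, h _ _ _ e1 (hu.trans inter_subset_left)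
        (hv.trans inter_subset_left), h' _ _ _ e2 (hu.trans inter_subset_right)
        (hv.trans inter_subset_right), add_zero]
    · intro y hy
      obtain ⟨W, O, V, hW, hyW, h⟩ := word_pt hI tri hbl hbL hcl haa hx hx' (y := y)
        (fun e => h1 (e ▸ hy)) (fun e => h2 (e ▸ hy))
      exact ⟨W, mem_nhdsWithin_of_mem_nhds (hW.mem_nhds hyW), W, O, V, hW, subset_rfl, h⟩
  exact key S subset_rfl

include hI tri hbl hbL hcl in
/-- The word vanishes when the middle support is disjoint from the outer ones; `key` is only used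
for the function `g` at hand. -/
lemma word_zero {a a' : C(Z, ℂ)} (haa : Disjoint (tsupport ⇑a) (tsupport ⇑a')) (g : C(X, ℂ))
    (key : ∀ u h : C(X, ℂ), Opp In u h → c u * b g * (l a * L * l a') * c h = 0) (u h : C(X, ℂ))
    (hgu : Disjoint (tsupport ⇑g) (tsupport ⇑u)) (hgh : Disjoint (tsupport ⇑g) (tsupport ⇑h)) :
    c u * b g * (l a * L * l a') * c h = 0 := by
  refine two_ind (A := K →L[ℂ] K) (S₁ := tsupport ⇑u) (S₂ := tsupport ⇑h)
    (fun u' h' => c u' * b g * (l a * L * l a') * c h')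
    (fun u' u'' h' => by simp only [map_add, add_mul])
    (fun u' h' h'' => by simp only [mul_add, map_add, add_mul])
    (isClosed_tsupport _).isCompact (isClosed_tsupport _).isCompact
    (fun x hx x' hx' => ?_) u h subset_rfl subset_rfl
  by_cases hc : ∃ z, In x z ∧ In x' z
  · obtain ⟨z₀, h1, h2⟩ := hc
    obtain ⟨W, O, V, hW, hSW, hO, hxO, hV, hxV, H⟩ := word_cpt hI tri hbl hbL hcl haa h1 h2
      (isClosed_tsupport ⇑g).isCompact (disjoint_right.1 hgu hx) (disjoint_right.1 hgh hx')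
    exact ⟨O, V, hO, hxO, hV, hxV, fun u' h' hu' hh' => H g u' h' hSW hu' hh'⟩
  · have ho := (isClosed_col hI).isOpen_compl
    obtain ⟨O, V, hO, hV, hxO, hxV, hOV⟩ := isOpen_prod_iff.1 ho x x' hc
    refine ⟨O, V, hO, hxO, hV, hxV, fun u' h' hu' hh' => key u' h' ?_⟩
    intro p hp p' hp' z hz hz'
    exact hOV (mk_mem_prod (hu' hp) (hh' hp')) ⟨z, hz, hz'⟩

include hI tri hbl hbL hcl in
/-- The sandwiched operator vanishes. -/
lemma sandwich_zero (agr : ∀ ζ, (∀ φ, b φ ζ = c φ ζ) → ζ = 0)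
    {a a' : C(Z, ℂ)} (haa : Disjoint (tsupport ⇑a) (tsupport ⇑a'))
    (key : ∀ u g h : C(X, ℂ), Opp In u h → c u * b g * (l a * L * l a') * c h = 0) :
    l a * L * l a' = 0 := by
  set T := l a * L * l a' with hT
  have hbT : ∀ g, Commute (b g) T := fun g =>
    ((hbl.com g a).mul_right (hbL g)).mul_right (hbl.com g a')
  -- first use of the agreement space
  have h1 : ∀ g h : C(X, ℂ), Disjoint (tsupport ⇑g) (tsupport ⇑h) → b g * T * c h = 0 := by
    intro g h hgh
    ext ξ
    refine agr _ fun φ => ?_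
    have := loc c b (1 : K →L[ℂ] K) ((b g * T * c h) ξ) (fun u g₁ hu => ?_) φ
    · simpa using this
    · have h2 : c u * b (g₁ * g) * T * c h = 0 := by
        refine word_zero hI tri hbl hbL hcl haa (g₁ * g) (fun u h => key u _ h) u h ?_ ?_
        · exact disjoint_left.2 fun x hx hx' =>
            disjoint_left.1 hu hx' (Vale.Agent.P092.H232.tsupport_mul_l _ _ hx)
        · exact disjoint_left.2 fun x hx hx' =>
            disjoint_left.1 hgh (Vale.Agent.P092.H232.tsupport_mul_r _ _ hx) hx'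
      have h3 : c u * (b g₁ * (b g * T * c h)) = 0 := by
        rw [map_mul] at h2
        simp only [mul_assoc] at h2 ⊢
        exact h2
      have := congrArg (fun S : K →L[ℂ] K => S ξ) h3
      simpa [mul_ap] using this
  -- second use
  have hst : star T = 0 := by
    ext ξ
    refine agr _ fun φ => ?_
    have := loc c b (1 : K →L[ℂ] K) (star T ξ) (fun h g hgh => ?_) φ
    · simpa using this
    · have h2 : b (star g) * T * c (star h) = 0 := h1 _ _ (by
        rw [tsupport_star', tsupport_star']; exact hgh.symm)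
      rw [(hbT _).eq, mul_assoc] at h2
      have h3 := congrArg star h2
      simp only [star_mul, map_star, star_star, star_zero] at h3
      have := congrArg (fun S : K →L[ℂ] K => S ξ) h3
      simpa [mul_ap] using this
  have := congrArg star hst
  rwa [star_star, star_zero] at this

end

/-- **CONCURRENT LINES COMMUTE** (general quadrangle; `key` = KEY_a with the letter of `b`). -/
theorem conc {In : X → Z → Prop} (hI : IsClosed {q : X × Z | In q.1 q.2}) (tri : NoTri In)
    {b c : C(X, ℂ) →⋆ₐ[ℂ] (K →L[ℂ] K)} {l l' : C(Z, ℂ) →⋆ₐ[ℂ] (K →L[ℂ] K)}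
    (hbl : PL In b l) (hbl' : ∀ g f, Commute (b g) (l' f)) (hcl : PL In c l)
    (agr : ∀ ζ, (∀ φ, b φ ζ = c φ ζ) → ζ = 0)
    (key : ∀ (u g : C(X, ℂ)) (f : C(Z, ℂ)) (h : C(X, ℂ)), Opp In u h →
      c u * b g * l' f * c h = 0) (f a : C(Z, ℂ)) : Commute (l' f) (l a) := by
  have h0 : ∀ a a' : C(Z, ℂ), Disjoint (tsupport ⇑a) (tsupport ⇑a') → l a * l' f * l a' = 0 := by
    intro a a' haa
    refine sandwich_zero hI tri hbl (fun g => hbl' g f) hcl agr haa (fun u g h huh => ?_)
    have e1 : c u * b g * (l a * l' f * l a') * c h = l a * (c u * b g * l' f * c h) * l a' := by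
      have e2 : c u * b g * l a = l a * (c u * b g) := ((hcl.com u a).mul_left (hbl.com g a)).eq
      have e3 : l a' * c h = c h * l a' := ((hcl.com h a').symm).eq
      calc c u * b g * (l a * l' f * l a') * c h
          = (c u * b g * l a) * l' f * (l a' * c h) := by simp only [mul_assoc]
        _ = _ := by rw [e2, e3]; simp only [mul_assoc]
    rw [e1, key u g f h huh, mul_zero, zero_mul]
  exact loc_op l l (l' f) (fun a a' haa => by
    have := h0 a a' haa
    rw [mul_assoc] at this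
    exact this) a

/-! ### Totally disconnected spaces: the letter of `b` is not needed -/

/-- The locally constant functions. -/
noncomputable def lcs (X : Type*) [TopologicalSpace X] [CompactSpace X] :
    StarSubalgebra ℂ C(X, ℂ) where
  carrier := {g | IsLocallyConstant ⇑g}
  mul_mem' := fun {f g} hf hg => by
    have hf' : IsLocallyConstant ⇑f := hf
    have hg' : IsLocallyConstant ⇑g := hg
    exact hf'.comp₂ hg' (· * ·)
  add_mem' := fun {f g} hf hg => by
    have hf' : IsLocallyConstant ⇑f := hf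
    have hg' : IsLocallyConstant ⇑g := hg
    exact hf'.comp₂ hg' (· + ·)
  algebraMap_mem' := fun r => IsLocallyConstant.const r
  star_mem' := fun {f} hf => by
    have hf' : IsLocallyConstant ⇑f := hf
    exact hf'.comp star

theorem lc_dense [TotallyDisconnectedSpace X] {P : C(X, ℂ) → Prop} (hP : IsClosed {g | P g})
    (h : ∀ g : C(X, ℂ), IsLocallyConstant ⇑g → P g) (g : C(X, ℂ)) : P g := by
  have h1 : (lcs X).topologicalClosure = ⊤ := by
    refine ContinuousMap.starSubalgebra_topologicalClosure_eq_top_of_separatesPoints _ ?_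
    intro x y hxy
    obtain ⟨U, hU, hx, hy⟩ := exists_isClopen_of_totally_separated hxy
    refine ⟨_, ⟨⟨LocallyConstant.charFn ℂ hU, (LocallyConstant.charFn ℂ hU).continuous⟩,
      (LocallyConstant.charFn ℂ hU).isLocallyConstant, rfl⟩, ?_⟩
    have e1 : LocallyConstant.charFn ℂ hU x = 1 := (LocallyConstant.charFn_eq_one ℂ x hU).2 hx
    have e2 : LocallyConstant.charFn ℂ hU y = 0 := (LocallyConstant.charFn_eq_zero ℂ y hU).2 hy
    simp only [ContinuousMap.coe_mk]
    rw [e1, e2]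
    exact one_ne_zero
  have h2 : g ∈ closure ((lcs X : Set C(X, ℂ))) := by
    have : g ∈ (lcs X).topologicalClosure := by rw [h1]; trivial
    exact this
  exact hP.closure_subset_iff.2 (fun f hf => h f hf) h2

lemma NoTri.uniq {In : X → Z → Prop} (tri : NoTri In) {z z' : Z} (hz : z ≠ z') {x y : X}
    (h1 : In x z) (h2 : In y z) (h3 : In x z') (h4 : In y z') : y = x := by
  by_contra h
  exact tri x y x z z' z hz h h h1 h2 h4 h3 h1 h1

lemma exists_const {In : X → Z → Prop} (tri : NoTri In) {g : C(X, ℂ)}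
    (hg : IsLocallyConstant ⇑g) {z z' : Z} (hz : z ≠ z') :
    ∃ κ : ℂ, ∀ y ∈ tsupport ⇑(g - κ • (1 : C(X, ℂ))), In y z → In y z' → False := by
  by_cases hc : ∃ y, In y z ∧ In y z'
  · obtain ⟨y₀, h1, h2⟩ := hc
    refine ⟨g y₀, fun y hy h3 h4 => ?_⟩
    rw [tri.uniq hz h1 h3 h2 h4] at hy
    have hcl : IsClosed {x | g x ≠ g y₀} := (hg.isOpen_fiber (g y₀)).isClosed_compl
    have hsub : tsupport ⇑(g - g y₀ • (1 : C(X, ℂ))) ⊆ {x | g x ≠ g y₀} := by
      refine closure_minimal (fun x hx hx' => hx ?_) hcl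
      have : g x = g y₀ := hx'
      simp [this]
    exact hsub hy rfl
  · refine ⟨0, fun y _ h1 h2 => hc ⟨y, h1, h2⟩⟩

/-- In the totally disconnected case the letter of `b` is free. -/
lemma key_td [TotallyDisconnectedSpace X] {In : X → Z → Prop}
    (hI : IsClosed {q : X × Z | In q.1 q.2}) (tri : NoTri In)
    {b c : C(X, ℂ) →⋆ₐ[ℂ] (K →L[ℂ] K)} {l : C(Z, ℂ) →⋆ₐ[ℂ] (K →L[ℂ] K)} {L : K →L[ℂ] K}
    (hbl : PL In b l) (hbL : ∀ g, Commute (b g) L) (hcl : PL In c l) {a a' : C(Z, ℂ)}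
    (haa : Disjoint (tsupport ⇑a) (tsupport ⇑a')) {u h : C(X, ℂ)} (key : c u * L * c h = 0)
    (g : C(X, ℂ)) : c u * b g * (l a * L * l a') * c h = 0 := by
  refine lc_dense (P := fun g => c u * b g * (l a * L * l a') * c h = 0) ?_ ?_ g
  · refine isClosed_eq ?_ continuous_const
    have hb : Continuous fun g : C(X, ℂ) => b g :=
      AddMonoidHomClass.continuous_of_bound b 1 fun f => by
        rw [one_mul]; exact NonUnitalStarAlgHom.norm_apply_le b f
    fun_prop
  · intro g hg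
    have hI' : IsClosed {q : Z × X | In q.2 q.1} :=
      hI.preimage (f := fun q : Z × X => (q.2, q.1)) (by fun_prop)
    refine two_ind (A := K →L[ℂ] K) (S₁ := tsupport ⇑a) (S₂ := tsupport ⇑a')
      (fun a a' => c u * b g * (l a * L * l a') * c h)
      (fun u' u'' h' => by simp only [map_add, add_mul, mul_add])
      (fun u' h' h'' => by simp only [mul_add, map_add, add_mul])
      (isClosed_tsupport _).isCompact (isClosed_tsupport _).isCompact
      (fun z hz z' hz' => ?_) a a' subset_rfl subset_rfl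
    obtain ⟨κ, hκ⟩ := exists_const tri hg (z := z) (z' := z')
      (fun e => disjoint_left.1 haa hz (e ▸ hz'))
    obtain ⟨g₁, g₂, hgg, O, V, hO, hzO, hV, hzV, h1, h2⟩ := split_inc (I₁ := fun z x => In x z)
      (I₂ := fun z x => In x z) hI' hI' (x := z) (y := z') _ hκ
    refine ⟨O, V, hO, hzO, hV, hzV, fun a a' ha ha' => ?_⟩
    have e1 : b g₁ * l a = 0 := hbl.inc _ _ fun x hx z hz => h1 a ha z hz x hx
    have e2 : b g₂ * l a' = 0 := hbl.inc _ _ fun x hx z hz => h2 a' ha' z hz x hx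
    have e3 : b g = b g₁ + b g₂ + κ • 1 := by
      have : g = g₁ + g₂ + κ • (1 : C(X, ℂ)) := by rw [← hgg]; ring
      rw [this, map_add, map_add, map_smul, map_one]
    have e4 : b g₁ * (l a * L * l a') = 0 := by
      rw [mul_assoc (l a), ← mul_assoc, e1, zero_mul]
    have e5 : b g₂ * (l a * L * l a') = 0 := by
      rw [mul_assoc (l a), ← mul_assoc, (hbl.com g₂ a).eq, mul_assoc (l a), ← mul_assoc (b g₂),
        (hbL g₂).eq, mul_assoc L, e2, mul_zero, mul_zero]
    have e6 : c u * (l a * L * l a') * c h = 0 := by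
      have i1 : c u * l a = l a * c u := (hcl.com u a).eq
      have i2 : l a' * c h = c h * l a' := ((hcl.com h a').symm).eq
      calc c u * (l a * L * l a') * c h = (c u * l a) * L * (l a' * c h) := by
            simp only [mul_assoc]
        _ = l a * (c u * L * c h) * l a' := by rw [i1, i2]; simp only [mul_assoc]
        _ = 0 := by rw [key, mul_zero, zero_mul]
    change c u * b g * (l a * L * l a') * c h = 0
    rw [mul_assoc (c u), e3, add_mul, add_mul, e4, e5, zero_add, zero_add, smul_mul_assoc, one_mul,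
      mul_smul_comm, smul_mul_assoc, e6, smul_zero]

/-- **CONCURRENT LINES COMMUTE**, totally disconnected `X`: `key` without the letter of `b`. -/
theorem conc_td [TotallyDisconnectedSpace X] {In : X → Z → Prop}
    (hI : IsClosed {q : X × Z | In q.1 q.2}) (tri : NoTri In)
    {b c : C(X, ℂ) →⋆ₐ[ℂ] (K →L[ℂ] K)} {l l' : C(Z, ℂ) →⋆ₐ[ℂ] (K →L[ℂ] K)}
    (hbl : PL In b l) (hbl' : ∀ g f, Commute (b g) (l' f)) (hcl : PL In c l)
    (agr : ∀ ζ, (∀ φ, b φ ζ = c φ ζ) → ζ = 0)
    (key : ∀ (u : C(X, ℂ)) (f : C(Z, ℂ)) (h : C(X, ℂ)), Opp In u h → c u * l' f * c h = 0)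
    (f a : C(Z, ℂ)) : Commute (l' f) (l a) := by
  have h0 : ∀ a a' : C(Z, ℂ), Disjoint (tsupport ⇑a) (tsupport ⇑a') → l a * l' f * l a' = 0 :=
    fun a a' haa => sandwich_zero hI tri hbl (fun g => hbl' g f) hcl agr haa fun u g h huh =>
      key_td hI tri hbl (fun g => hbl' g f) hcl haa (key u f h huh) g
  exact loc_op l l (l' f) (fun a a' haa => by
    have := h0 a a' haa
    rw [mul_assoc] at this
    exact this) a

end conc

end Vale.Agent.P092.H796
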