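import Vale.Agent.P092.H796.Res
import Vale.Agent.P092.H631.P0Core

/-!
P092 (helper796), Team P, stage 2, row [P2-II]: **adjacent maximal singular subspaces commute**.

`res_comm`: rank `r = j + 2`; input = flags of dimensions `r - 1`, `r`, commutation of the
`(r-1)`-spaces inside one maximal space, nowhere agreement, and a zero-one law for pairs;
output = everything in the residue of a `(r-2)`-space commutes.
`zo_pair`: the zero-one law for one pair from the picture.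
-/

set_option linter.all false

open TopologicalSpace Topology Module Set Filter
open scoped Matrix

namespace Vale.Agent.P092.H796

open Vale.Agent.P092.H303 (FormGroup)
open Vale.Agent.P092.H370.Po
open Vale.Agent.P092.H714.Cl
open Vale.Agent.P092.H232 (Nin)
open Vale.Agent.P092.RC (Cm Moore)

section zo

variable {G Γ K : Type} [Group G] [TopologicalSpace G] [Group Γ] [NormedAddCommGroup K]
  [InnerProductSpace ℂ K] [CompleteSpace K] {π : G →* (K →L[ℂ] K)} {lam : Γ →* (K →L[ℂ] K)}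
  {W : Set (K →L[ℂ] K)} {Y : Type*} [TopologicalSpace Y] {R : Y → Y → Prop}

/-- the space on which the values of two calculi are in relation `R` -/
def RS (R : Y → Y → Prop) (b b' : C(Y, ℂ) → (K →L[ℂ] K)) : Submodule ℂ K where
  carrier := {ζ | ∀ f f' : C(Y, ℂ), Nin R f f' → b f (b' f' ζ) = 0}
  add_mem' {x y} hx hy f f' h := by rw [map_add, map_add, hx f f' h, hy f f' h, add_zero]
  zero_mem' f f' _ := by rw [map_zero, map_zero]
  smul_mem' c x hx f f' h := by rw [map_smul, map_smul, hx f f' h, smul_zero]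

theorem RS_closed (b b' : C(Y, ℂ) → (K →L[ℂ] K)) : IsClosed (RS R b b' : Set K) := by
  have e : (RS R b b' : Set K) = ⋂ (f : C(Y, ℂ)) (f' : C(Y, ℂ)) (_ : Nin R f f'),
      {ζ | b f (b' f' ζ) = 0} := by
    ext ζ
    simp only [Set.mem_iInter, Set.mem_setOf_eq]
    rfl
  rw [e]
  exact isClosed_iInter fun f => isClosed_iInter fun f' => isClosed_iInter fun _ =>
    isClosed_eq ((b f).continuous.comp (b' f').continuous) continuous_const

/-- **zero-one law** for a pair: the values of `b`, `b'` are everywhere or nowhere in relation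
`R`. -/
theorem zo_pair (hp : H631.P0.Bas π lam W) {S : Set G} (hS : Moore S)
    (hinv : ∀ g ∈ S, g⁻¹ ∈ S) {b b' : C(Y, ℂ) → (K →L[ℂ] K)} (cm : ∀ f, Cm W (b f))
    (cm' : ∀ f, Cm W (b' f)) (t : Γ → C(Y, ℂ) → C(Y, ℂ))
    (cov : ∀ γ f, lam γ * b f * lam γ⁻¹ = b (t γ f))
    (cov' : ∀ γ f, lam γ * b' f * lam γ⁻¹ = b' (t γ f))
    (hN : ∀ γ f f', Nin R f f' → Nin R (t γ f) (t γ f'))
    (hπ : ∀ g ∈ S, ∀ f, b f * π g = π g * b f) (hπ' : ∀ g ∈ S, ∀ f, b' f * π g = π g * b' f) :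
    (∀ f f', Nin R f f' → b f * b' f' = 0) ∨
      ∀ ζ, (∀ f f', Nin R f f' → b f (b' f' ζ) = 0) → ζ = 0 := by
  have swap : ∀ {A B : K →L[ℂ] K}, A * B = B * A → ∀ ζ, A (B ζ) = B (A ζ) := fun h ζ =>
    congrArg (fun S : K →L[ℂ] K => S ζ) h
  have h01 : RS R b b' = ⊥ ∨ RS R b b' = ⊤ := by
    refine hp.zo hS (RS_closed _ _) ?_ ?_ ?_
    · intro w hw ζ hζ f f' hf
      rw [swap (cm' f' w hw), swap (cm f w hw), hζ f f' hf, map_zero]
    · intro γ ζ hζ f f' hf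
      have l1 : lam γ * lam γ⁻¹ = 1 := by rw [← map_mul, mul_inv_cancel, map_one]
      have key : ∀ {c : C(Y, ℂ) → (K →L[ℂ] K)}, (∀ γ f, lam γ * c f * lam γ⁻¹ = c (t γ f)) →
          ∀ f, c f * lam γ = lam γ * c (t γ⁻¹ f) := by
        intro c hc f
        have h1 := hc γ⁻¹ f
        rw [inv_inv] at h1
        rw [← h1, mul_assoc (lam γ⁻¹), ← mul_assoc (lam γ), l1, one_mul]
      have k1 : b' f' (lam γ ζ) = lam γ (b' (t γ⁻¹ f') ζ) :=
        congrArg (fun S : K →L[ℂ] K => S ζ) (key cov' f')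
      have k2 : ∀ η, b f (lam γ η) = lam γ (b (t γ⁻¹ f) η) := fun η =>
        congrArg (fun S : K →L[ℂ] K => S η) (key cov f)
      rw [k1, k2, hζ _ _ (hN _ _ _ hf), map_zero]
    · intro g hg ζ hζ
      refine ⟨fun f f' hf => ?_, fun f f' hf => ?_⟩
      · rw [swap (hπ' g hg f'), swap (hπ g hg f), hζ f f' hf, map_zero]
      · rw [swap (hπ' _ (hinv g hg) f'), swap (hπ _ (hinv g hg) f), hζ f f' hf, map_zero]
  rcases h01 with h | h
  · right
    intro ζ hζ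
    have : ζ ∈ RS R b b' := hζ
    rw [h] at this
    exact (Submodule.mem_bot ℂ).1 this
  · left
    intro f f' hf
    ext ζ
    have : ζ ∈ RS R b b' := by rw [h]; trivial
    exact this f f' hf

end zo

section res

variable {n : Type} [Fintype n] [DecidableEq n] {k : Type} [Field k]
  {σ : k →+* k} {ε : k} {J : Matrix n n k} {j : ℕ}
  {n' : Type} [Fintype n'] [DecidableEq n'] {k' : Type} [NontriviallyNormedField k']
  [ProperSpace k'] {σ' : k' →+* k'} {ε' : k'} {J' : Matrix n' n' k'} [Fact (Continuous σ')]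
  {K : Type*} [NormedAddCommGroup K] [InnerProductSpace ℂ K] [CompleteSpace K]

/-- the relation: contained in a common maximal singular space -/
abbrev CM (σ' : k' →+* k') (J' : Matrix n' n' k') (i : ℕ) (x y : SGr σ' J' i) : Prop :=
  H677.Col (fun (x : SGr σ' J' i) (y : SGr σ' J' (i + 1)) => Inc x y) x y

/-- **[P2-II]** the residue of a singular `(r-2)`-space commutes. -/
theorem res_comm (hF : Frm σ ε J) (hW : WI σ J (j + 1 + 1)) (hF' : Frm σ' ε' J')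
    (hW' : WI σ' J' (j + 1 + 1)) (hc : Fintype.card n' = 2 * (j + 1 + 1))
    {e : SGr σ J (j + 1) → (C(SGr σ' J' (j + 1), ℂ) →⋆ₐ[ℂ] (K →L[ℂ] K))}
    {F : SGr σ J (j + 1 + 1) → (C(SGr σ' J' (j + 1 + 1), ℂ) →⋆ₐ[ℂ] (K →L[ℂ] K))}
    (pl : ∀ B N, Inc B N → PL (fun (x : SGr σ' J' (j + 1)) (y : SGr σ' J' (j + 1 + 1)) => Inc x y)
      (e B) (F N))
    (cp : ∀ (N : SGr σ J (j + 1 + 1)) (B B' : SGr σ J (j + 1)), Inc B N → Inc B' N →
      ∀ f g, Commute (e B f) (e B' g))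
    (ae : ∀ (A : SGr σ J j) (B B' : SGr σ J (j + 1)), Inc A B → Inc A B' → B ≠ B' →
      ∀ ξ, (∀ φ, e B φ ξ = e B' φ ξ) → ξ = 0)
    (af : ∀ (B : SGr σ J (j + 1)) (N N' : SGr σ J (j + 1 + 1)), Inc B N → Inc B N' → N ≠ N' →
      ∀ ξ, (∀ φ, F N φ ξ = F N' φ ξ) → ξ = 0)
    (di : ∀ (A : SGr σ J j) (B B' : SGr σ J (j + 1)), Inc A B → Inc A B' → ¬ Col B B' →
      (∀ f f', Nin (CM σ' J' (j + 1)) f f' → e B f * e B' f' = 0) ∨
      ∀ ζ, (∀ f f', Nin (CM σ' J' (j + 1)) f f' → e B f (e B' f' ζ) = 0) → ζ = 0)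
    (A : SGr σ J j) :
    (∀ B B' : SGr σ J (j + 1), Inc A B → Inc A B' → ∀ f g, Commute (e B f) (e B' g)) ∧
    (∀ N N' : SGr σ J (j + 1 + 1), Inc A N → Inc A N' → ∀ f g, Commute (F N f) (F N' g)) ∧
    ∀ (B : SGr σ J (j + 1)) (N : SGr σ J (j + 1 + 1)), Inc A B → Inc A N →
      ∀ f g, Commute (e B f) (F N g) := by
  obtain ⟨h1, h2, h3⟩ := gq_one_p (In := RI A) (e := fun B => e B.1) (F := fun N => F N.1)
    (gq_res hF hW A) (three_res hF A) (tq_top hF' hW') inc_closed (pgeo_top hF' hW' hc)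
    (fun B N h => pl B.1 N.1 h)
    (fun B B' hne => ae A B.1 B'.1 B.2 B'.2 fun h => hne (Subtype.ext h))
    (fun B N N' h h' hne => af B.1 N.1 N'.1 h h' fun h => hne (Subtype.ext h))
    (fun N B B' h h' f g => cp N.1 B'.1 B.1 h' h f g)
    (fun B B' hop => by
      refine di A B.1 B'.1 B.2 B'.2 fun hcol => ?_
      by_cases hne : B.1 = B'.1
      · obtain ⟨N, hN⟩ := (gq_res hF hW A).ln2 B
        obtain ⟨N', -, h4, -⟩ := hN
        refine hop N h4 ?_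
        change Inc B'.1 N.1
        rw [← hne]
        exact h4
      · obtain ⟨z, h4, h5⟩ := H702.PG.join_of_col hF hne B.2 B'.2 hcol
        exact hop ⟨z, B.2.trans h4⟩ h4 h5)
  exact ⟨fun B B' h h' => h1 ⟨B, h⟩ ⟨B', h'⟩, fun N N' h h' => h2 ⟨N, h⟩ ⟨N', h'⟩,
    fun B N h h' => h3 ⟨B, h⟩ ⟨N, h'⟩⟩

/-- **two adjacent maximal singular spaces commute** (field `top.com` of `H831.PolF`) -/
theorem top_comm (hF : Frm σ ε J) (hW : WI σ J (j + 1 + 1)) (hF' : Frm σ' ε' J')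
    (hW' : WI σ' J' (j + 1 + 1)) (hc : Fintype.card n' = 2 * (j + 1 + 1))
    {e : SGr σ J (j + 1) → (C(SGr σ' J' (j + 1), ℂ) →⋆ₐ[ℂ] (K →L[ℂ] K))}
    {F : SGr σ J (j + 1 + 1) → (C(SGr σ' J' (j + 1 + 1), ℂ) →⋆ₐ[ℂ] (K →L[ℂ] K))}
    (pl : ∀ B N, Inc B N → PL (fun (x : SGr σ' J' (j + 1)) (y : SGr σ' J' (j + 1 + 1)) => Inc x y)
      (e B) (F N))
    (cp : ∀ (N : SGr σ J (j + 1 + 1)) (B B' : SGr σ J (j + 1)), Inc B N → Inc B' N →
      ∀ f g, Commute (e B f) (e B' g))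
    (ae : ∀ (A : SGr σ J j) (B B' : SGr σ J (j + 1)), Inc A B → Inc A B' → B ≠ B' →
      ∀ ξ, (∀ φ, e B φ ξ = e B' φ ξ) → ξ = 0)
    (af : ∀ (B : SGr σ J (j + 1)) (N N' : SGr σ J (j + 1 + 1)), Inc B N → Inc B N' → N ≠ N' →
      ∀ ξ, (∀ φ, F N φ ξ = F N' φ ξ) → ξ = 0)
    (di : ∀ (A : SGr σ J j) (B B' : SGr σ J (j + 1)), Inc A B → Inc A B' → ¬ Col B B' →
      (∀ f f', Nin (CM σ' J' (j + 1)) f f' → e B f * e B' f' = 0) ∨
      ∀ ζ, (∀ f f', Nin (CM σ' J' (j + 1)) f f' → e B f (e B' f' ζ) = 0) → ζ = 0)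
    {B : SGr σ J (j + 1)} {N N' : SGr σ J (j + 1 + 1)} (h1 : Inc B N) (h2 : Inc B N') (f g) :
    Commute (F N f) (F N' g) := by
  obtain ⟨A, hA⟩ := exists_inc_le (Nat.le_succ j) B
  exact (res_comm hF hW hF' hW' hc pl cp ae af di A).2.1 N N' (hA.trans h1) (hA.trans h2) f g

end res

end Vale.Agent.P092.H796
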