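import Vale.Agent.P092.H796.Wd4

/-!
P092 (helper796), Team P: **ONE KEY IS ENOUGH, EVERY FORM, EVERY WITT INDEX `r ≥ 2`**, conclusion.

`all_comm`: if `PolH` (flags commute and are incident, points of a line commute, nowhere
agreement) and the zero-one laws `ZP`, `ZT` hold, then all calculi commute.
-/

set_option linter.all false

open TopologicalSpace Topology Module Set Filter
open scoped Matrix

namespace Vale.Agent.P092.H796

open Vale.Agent.P092.H303 (FormGroup)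
open Vale.Agent.P092.H370.Po
open Vale.Agent.P092.H714.Cl
open Vale.Agent.P092.H218 (mul_ap loc_op)
open Vale.Agent.P092.H232 (Nin split_inc two_ind tsupport_mul_l tsupport_mul_r)
open Vale.Agent.P092.H702.PG (sup_eq ort_join eq_of_col_max)
open Vale.Agent.P092.H702.Pol (Adj exists_two polS polT)
open Vale.Agent.P092.H100.Gr (Gr)
open Vale.Agent.P092.H677 (sm ev_sm ev_sub ind1 ind2 ind5 nin_ev)
open Vale.Agent.P092.H831 (ts_star tot_vec tot_right join_comm comm_self')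

section abs

variable {X Z K : Type*} [TopologicalSpace X] [CompactSpace X] [T2Space X]
  [TopologicalSpace Z] [CompactSpace Z] [T2Space Z]
  [NormedAddCommGroup K] [InnerProductSpace ℂ K] [CompleteSpace K]

/-- The geometry of the target, without regularity. -/
structure PGeo0 (Pp : X → X → Prop) (Pl : X → X → X → Prop) : Prop where
  cP : IsClosed {q : X × X | Pp q.1 q.2}
  cPl : IsClosed {q : X × X × X | Pl q.1 q.2.1 q.2.2}
  sym : ∀ x y, Pp x y → Pp y x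
  two : ∀ x₁ x₂ x x', x₁ ≠ x₂ → x ≠ x' → Pl x₁ x₂ x → Pl x₁ x₂ x' → Pp x x' → Pp x₁ x₂
  iso : ∀ x₁ x₂ x, x₁ ≠ x₂ → Pl x₁ x₂ x → Pp x₁ x₂ → Pp x x₁ ∧ Pp x x₂

variable {Pp : X → X → Prop} {Pl : X → X → X → Prop}
  {β β₀ β₁ : C(X, ℂ) →⋆ₐ[ℂ] (K →L[ℂ] K)} {μ : C(Z, ℂ) →⋆ₐ[ℂ] (K →L[ℂ] K)}

/-- Values which are not collinear. -/
theorem hyp_zero0 (G : PGeo0 Pp Pl) (h01 : PL Pp β₀ β₁)
    (agr : ∀ ξ, (∀ f, β₀ f ξ = β₁ f ξ) → ξ = 0)
    (s0 : ∀ (f₁ f₂ f' : C(X, ℂ)) (h : C(Z, ℂ)), Disjoint (tsupport ⇑f₁) (tsupport ⇑f₂) →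
      (∀ x₁ ∈ tsupport ⇑f₁, ∀ x₂ ∈ tsupport ⇑f₂, ∀ x ∈ tsupport ⇑f', ¬ Pl x₁ x₂ x) →
      β f₁ * μ h * β f₂ * β₀ f' = 0)
    (s1 : ∀ (f₁ f₂ f' : C(X, ℂ)) (h : C(Z, ℂ)), Disjoint (tsupport ⇑f₁) (tsupport ⇑f₂) →
      (∀ x₁ ∈ tsupport ⇑f₁, ∀ x₂ ∈ tsupport ⇑f₂, ∀ x ∈ tsupport ⇑f', ¬ Pl x₁ x₂ x) →
      β f₁ * μ h * β f₂ * β₁ f' = 0) {f₁ f₂ : C(X, ℂ)} (h : C(Z, ℂ))
    (hd : Disjoint (tsupport ⇑f₁) (tsupport ⇑f₂)) (hn : Nin Pp f₁ f₂) :
    β f₁ * μ h * β f₂ = 0 := by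
  refine tot_right β₀ β₁ agr _ fun a b hab => ?_
  refine ind5 (fun f₁ f₂ a b h => β f₁ * μ h * β f₂ * β₀ a * β₁ b) ?_ ?_ ?_ ?_ ?_ ?_
  · intros; simp only [map_add, add_mul, mul_add]
  · intros; simp only [map_add, add_mul, mul_add]
  · intros; simp only [map_add, add_mul, mul_add]
  · intros; simp only [map_add, add_mul, mul_add]
  · intros; simp only [map_add, add_mul, mul_add]
  intro x₁ hx₁ x₂ hx₂ x hx x' hx' l hl
  have hxx : x₁ ≠ x₂ := fun e => disjoint_left.1 hd hx₁ (e ▸ hx₂)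
  have hzz : x ≠ x' := fun e => disjoint_left.1 hab hx (e ▸ hx')
  have t1 : Tendsto (fun p : C(X, ℂ) × C(X, ℂ) × C(X, ℂ) × C(X, ℂ) × C(Z, ℂ) => p.1)
    (sm {x₁} ×ˢ sm {x₂} ×ˢ sm {x} ×ˢ sm {x'} ×ˢ sm {l}) (sm {x₁}) := tendsto_fst
  have t2 : Tendsto (fun p : C(X, ℂ) × C(X, ℂ) × C(X, ℂ) × C(X, ℂ) × C(Z, ℂ) => p.2.1)
    (sm {x₁} ×ˢ sm {x₂} ×ˢ sm {x} ×ˢ sm {x'} ×ˢ sm {l}) (sm {x₂}) :=
    tendsto_fst.comp tendsto_snd
  have t3 : Tendsto (fun p : C(X, ℂ) × C(X, ℂ) × C(X, ℂ) × C(X, ℂ) × C(Z, ℂ) => p.2.2.1)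
    (sm {x₁} ×ˢ sm {x₂} ×ˢ sm {x} ×ˢ sm {x'} ×ˢ sm {l}) (sm {x}) :=
    tendsto_fst.comp (tendsto_snd.comp tendsto_snd)
  have t4 : Tendsto (fun p : C(X, ℂ) × C(X, ℂ) × C(X, ℂ) × C(X, ℂ) × C(Z, ℂ) => p.2.2.2.1)
    (sm {x₁} ×ˢ sm {x₂} ×ˢ sm {x} ×ˢ sm {x'} ×ˢ sm {l}) (sm {x'}) :=
    tendsto_fst.comp (tendsto_snd.comp (tendsto_snd.comp tendsto_snd))
  by_cases k1 : Pl x₁ x₂ x
  swap
  · filter_upwards [(t1.prodMk (t2.prodMk t3)).eventually (nin3_ev G.cPl k1),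
      (t1.prodMk t2).eventually (dis_ev hxx)] with p hp hq
    obtain ⟨f₁, f₂, a, b, h⟩ := p
    change β f₁ * μ h * β f₂ * β₀ a * β₁ b = 0
    rw [s0 f₁ f₂ a h hq hp, zero_mul]
  by_cases k2 : Pl x₁ x₂ x'
  swap
  · filter_upwards [(t1.prodMk (t2.prodMk t4)).eventually (nin3_ev G.cPl k2),
      (t1.prodMk t2).eventually (dis_ev hxx)] with p hp hq
    obtain ⟨f₁, f₂, a, b, h⟩ := p
    change β f₁ * μ h * β f₂ * β₀ a * β₁ b = 0
    rw [mul_assoc _ (β₀ a), (h01.com a b).eq, ← mul_assoc, s1 f₁ f₂ b h hq hp, zero_mul]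
  by_cases k3 : Pp x x'
  swap
  · filter_upwards [(t3.prodMk t4).eventually (nin_ev G.cP k3)] with p hp
    obtain ⟨f₁, f₂, a, b, h⟩ := p
    change β f₁ * μ h * β f₂ * β₀ a * β₁ b = 0
    rw [mul_assoc _ (β₀ a), h01.inc _ _ hp, mul_zero]
  exact (hn x₁ hx₁ x₂ hx₂ (G.two x₁ x₂ x x' hxx hzz k1 k2 k3)).elim

/-- The end of the proof. -/
theorem opp_end (G : PGeo0 Pp Pl) (h01 : PL Pp β₀ β₁)
    (a01 : ∀ ξ, (∀ f, β₀ f ξ = β₁ f ξ) → ξ = 0)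
    (s0 : ∀ (f₁ f₂ f' : C(X, ℂ)) (h : C(Z, ℂ)), Disjoint (tsupport ⇑f₁) (tsupport ⇑f₂) →
      (∀ x₁ ∈ tsupport ⇑f₁, ∀ x₂ ∈ tsupport ⇑f₂, ∀ x ∈ tsupport ⇑f', ¬ Pl x₁ x₂ x) →
      β f₁ * μ h * β f₂ * β₀ f' = 0)
    (s1 : ∀ (f₁ f₂ f' : C(X, ℂ)) (h : C(Z, ℂ)), Disjoint (tsupport ⇑f₁) (tsupport ⇑f₂) →
      (∀ x₁ ∈ tsupport ⇑f₁, ∀ x₂ ∈ tsupport ⇑f₂, ∀ x ∈ tsupport ⇑f', ¬ Pl x₁ x₂ x) →
      β f₁ * μ h * β f₂ * β₁ f' = 0)
    (np : ∀ ζ, (∀ f' f : C(X, ℂ), Nin Pp f' f → β₀ f' (β f ζ) = 0) → ζ = 0)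
    (f : C(X, ℂ)) (h : C(Z, ℂ)) : Commute (β f) (μ h) := by
  have z0 : ∀ (f₁ f₂ : C(X, ℂ)) (h : C(Z, ℂ)), Disjoint (tsupport ⇑f₁) (tsupport ⇑f₂) →
      Nin Pp f₁ f₂ → β f₁ * μ h * β f₂ = 0 := fun f₁ f₂ h hd hn =>
    hyp_zero0 G h01 a01 s0 s1 h hd hn
  have z1 : ∀ (f₁ f₂ : C(X, ℂ)) (h : C(Z, ℂ)), Disjoint (tsupport ⇑f₁) (tsupport ⇑f₂) →
      β f₁ * μ h * β f₂ = 0 := by
    intro f₁ f₂ h hd
    ext ξ
    refine np _ fun f' f hf => ?_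
    have main : ∀ f₁ : C(X, ℂ), Disjoint (tsupport ⇑f₁) (tsupport ⇑f₂) → Nin Pp f' f₁ →
        β₀ f' * (β f₁ * μ h * β f₂) = 0 := by
      intro f₁ hd hf
      have h5 : β₀ f' * (β f₁ * μ h * β f₂) * β₀ 1 = 0 := by
        refine ind5 (fun f₁ f₂ f' (h : C(Z, ℂ)) (d : C(X, ℂ)) =>
          β₀ f' * (β f₁ * μ h * β f₂) * β₀ d) ?_ ?_ ?_ ?_ ?_ ?_
        · intros; simp only [map_add, add_mul, mul_add]
        · intros; simp only [map_add, add_mul, mul_add]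
        · intros; simp only [map_add, add_mul, mul_add]
        · intros; simp only [map_add, add_mul, mul_add]
        · intros; simp only [map_add, add_mul, mul_add]
        intro x₁ hx₁ x₂ hx₂ x hx l hl y hy
        have hxx : x₁ ≠ x₂ := fun e => disjoint_left.1 hd hx₁ (e ▸ hx₂)
        have t1 : Tendsto (fun p : C(X, ℂ) × C(X, ℂ) × C(X, ℂ) × C(Z, ℂ) × C(X, ℂ) => p.1)
          (sm {x₁} ×ˢ sm {x₂} ×ˢ sm {x} ×ˢ sm {l} ×ˢ sm {y}) (sm {x₁}) := tendsto_fst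
        have t2 : Tendsto (fun p : C(X, ℂ) × C(X, ℂ) × C(X, ℂ) × C(Z, ℂ) × C(X, ℂ) => p.2.1)
          (sm {x₁} ×ˢ sm {x₂} ×ˢ sm {x} ×ˢ sm {l} ×ˢ sm {y}) (sm {x₂}) :=
          tendsto_fst.comp tendsto_snd
        have t3 : Tendsto (fun p : C(X, ℂ) × C(X, ℂ) × C(X, ℂ) × C(Z, ℂ) × C(X, ℂ) => p.2.2.1)
          (sm {x₁} ×ˢ sm {x₂} ×ˢ sm {x} ×ˢ sm {l} ×ˢ sm {y}) (sm {x}) :=
          tendsto_fst.comp (tendsto_snd.comp tendsto_snd)
        by_cases k1 : Pp x₁ x₂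
        swap
        · filter_upwards [(t1.prodMk t2).eventually (nin_ev G.cP k1),
            (t1.prodMk t2).eventually (dis_ev hxx)] with p hp hq
          obtain ⟨f₁, f₂, f', h, d⟩ := p
          change β₀ f' * (β f₁ * μ h * β f₂) * β₀ d = 0
          rw [z0 f₁ f₂ h hq hp, mul_zero, zero_mul]
        by_cases k2 : Pl x₂ x₁ x
        swap
        · filter_upwards [(t2.prodMk (t1.prodMk t3)).eventually (nin3_ev G.cPl k2),
            (t1.prodMk t2).eventually (dis_ev hxx)] with p hp hq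
          obtain ⟨f₁, f₂, f', h, d⟩ := p
          have e := s0 (star f₂) (star f₁) (star f') (star h) (by
            rw [ts_star, ts_star]; exact hq.symm) (by
            rw [ts_star, ts_star, ts_star]; exact hp)
          have e' := congrArg star e
          simp only [star_mul, map_star, star_star, star_zero] at e'
          change β₀ f' * (β f₁ * μ h * β f₂) * β₀ d = 0
          rw [mul_assoc (β f₁), e', zero_mul]
        exact (hf x hx x₁ hx₁ (G.iso x₂ x₁ x hxx.symm k2 (G.sym _ _ k1)).2).elim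
      rwa [map_one, mul_one] at h5
    have e1 : β₀ f' * (β (f * f₁) * μ h * β f₂) = 0 := by
      refine main (f * f₁) ?_ ?_
      · exact disjoint_left.2 fun x hx hx' => disjoint_left.1 hd (tsupport_mul_r _ _ hx) hx'
      · exact fun x hx y hy => hf x hx y (tsupport_mul_l _ _ hy)
    have e2 := congrArg (fun S : K →L[ℂ] K => S ξ) e1
    rw [map_mul] at e2
    exact e2
  have := loc_op β β (μ h) (fun f₁ f₂ hd => by
    have := z1 f₁ f₂ h hd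
    rw [mul_assoc] at this
    exact this) f
  exact this.symm

end abs

variable {n n' : Type} [Fintype n] [DecidableEq n] [Fintype n'] [DecidableEq n']
  {k : Type} [Field k] {σ : k →+* k} {ε : k} {J : Matrix n n k}
  {k' : Type} [NontriviallyNormedField k'] [ProperSpace k'] {σ' : k' →+* k'}
  [Fact (Continuous σ')] {ε' : k'} {J' : Matrix n' n' k'}
  {K : Type} [NormedAddCommGroup K] [InnerProductSpace ℂ K] [CompleteSpace K] {r : ℕ}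
  {G : ∀ j, SGr σ J j → (C(SGr σ' J' j, ℂ) →⋆ₐ[ℂ] (K →L[ℂ] K))}

/-- the span geometry of the points of any form -/
theorem pgeo0_pts (hF' : Frm σ' ε' J') :
    PGeo0 (fun x y : SGr σ' J' 1 => Col x y) (PlS (J := J')) where
  cP := col_closed Fact.out
  cPl := PlS_closed
  sym x y h := Ort.symm hF' h
  two x₁ x₂ x x' h1 h2 h3 h4 h5 := pls_two hF' h1 h2 h3 h4 h5
  iso x₁ x₂ x h1 h2 h3 := pls_iso hF' h1 h2 h3

/-- **a point and a maximal space commute** -/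
theorem opp_max (hF : Frm σ ε J) (hW : WI σ J r) (hF' : Frm σ' ε' J') (hW' : WI σ' J' r)
    (hr : 2 ≤ r) (hcard : Fintype.card n' ≤ Fintype.card n) (hH : PolH r G) (zp : ZP (G 1))
    (zt : ZT (G 1)) (b : SGr σ J 1) (M : SGr σ J r) (f h) :
    Commute (G 1 b f) (G r M h) := by
  have hσ : Continuous σ' := Fact.out
  rcases subsingleton_or_nontrivial K with hK | hK
  · change G 1 b f * G r M h = G r M h * G 1 b f
    ext ζ
    exact Subsingleton.elim _ _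
  by_cases hb : Inc b M
  · exact of_pts_loc hH r (by omega) le_rfl M (fun p hp u => comm_pts hF hr hH
      (fun x hx y hy => M.sing x (hb hx) y (hp hy)) f u) h
  have np : ∀ b b' : SGr σ J 1, ¬ Col b b' → NP (G 1 b) (G 1 b') := fun b b' hbb =>
    np_of hσ hF hW hF' hW' hr hH hbb (zp b b' hbb)
  obtain ⟨b₀, b₁, h01, h0, h1, n0, n1⟩ := exists_two_opp hF hr hW hb
  have hcol : Col b₀ b₁ := fun x hx y hy => M.sing x (h0 hx) y (h1 hy)
  obtain ⟨z, h2, h3⟩ := H702.PG.join_of_col (j := 0)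
    (a := SGr.mk' (σ := σ) (J := J) ⊥ sing_bot (finrank_bot k (n → k))) hF h01 bot_le bot_le hcol
  exact opp_end (pgeo0_pts hF') (μ := G r M)
    ⟨fun f g => comm_pts hF hr hH hcol f g, ep_col hσ hF hW hF' hH le_rfl le_rfl hcol⟩
    (hH.col 1 le_rfl (by omega) b₀ b₁ z h01 h2 h3).agr
    (fun f₁ f₂ f' h hd hn => span_wd hσ hF hW hF' hr hcard hH np zt n0 h0 h hd hn)
    (fun f₁ f₂ f' h hd hn => span_wd hσ hF hW hF' hr hcard hH np zt n1 h1 h hd hn)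
    (np b₀ b n0) f h

/-- the fields of `H831.PolF` -/
theorem polF_of (hF : Frm σ ε J) (hW : WI σ J r) (hF' : Frm σ' ε' J') (hW' : WI σ' J' r)
    (hr : 2 ≤ r) (hcard : Fintype.card n' ≤ Fintype.card n) (hH : PolH r G) (zp : ZP (G 1))
    (zt : ZT (G 1)) :
    H831.PolF r (fun j => Inc (i := j) (j := j + 1)) (fun j => Inc (i := j) (j := j + 1))
      Adj G where
  flg := hH.flg
  col := hH.col
  top B B' hne hA := ⟨fun u v => (of_pts_loc hH r (by omega) le_rfl B (fun p _ f =>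
    (opp_max hF hW hF' hW' hr hcard hH zp zt p B' f v).symm) u).symm, hH.top B B' hne hA⟩

/-- **ALL CALCULI COMMUTE**, every form, every Witt index `r ≥ 2`. -/
theorem all_comm (hF : Frm σ ε J) (hW : WI σ J r) (hF' : Frm σ' ε' J') (hW' : WI σ' J' r)
    (hr : 2 ≤ r) (hcard : Fintype.card n' ≤ Fintype.card n) (hH : PolH r G) (zp : ZP (G 1))
    (zt : ZT (G 1)) : ∀ i j, 1 ≤ i → i ≤ r → 1 ≤ j → j ≤ r → ∀ (X : SGr σ J i) (X' : SGr σ J j)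
      f f', Commute (G i X f) (G j X' f') :=
  (polF_of hF hW hF' hW' hr hcard hH zp zt).all (polT Fact.out hF' hW') (polS hF hW) (by omega)

/-- non perpendicular points have nowhere perpendicular values -/
theorem all_np (hF : Frm σ ε J) (hW : WI σ J r) (hF' : Frm σ' ε' J') (hW' : WI σ' J' r)
    (hr : 2 ≤ r) (hH : PolH r G) (zp : ZP (G 1)) (b b' : SGr σ J 1) (h : ¬ Col b b') :
    NP (G 1 b) (G 1 b') := np_of Fact.out hF hW hF' hW' hr hH h (zp b b' h)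

end Vale.Agent.P092.H796
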