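import Mathlib

/-!
P092 (helper796): bounded approximation (Kaplansky density) for fields of operators, where the limit acts
on the trace vector as a scalar function.
-/

set_option linter.all false

open scoped InnerProductSpace ENNReal
open Filter Topology MeasureTheory ContinuousLinearMap

namespace Vale.Agent.P092.H796

section pt

variable {K : Type*} [NormedAddCommGroup K] [InnerProductSpace ℂ K] [CompleteSpace K]

theorem norm_sq_of_sa {A : K →L[ℂ] K} (hA : IsSelfAdjoint A) (ξ : K) :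
    ‖A ξ‖ ^ 2 = (⟪ξ, (A * A) ξ⟫_ℂ).re := by
  have h1 : ⟪A ξ, A ξ⟫_ℂ = ⟪ξ, (A * A) ξ⟫_ℂ := by
    have h2 : adjoint A = A := by rw [← star_eq_adjoint]; exact hA
    rw [← adjoint_inner_right, h2]
    rfl
  rw [← h1, inner_self_eq_norm_sq_to_K]
  norm_cast

/-- The pointwise estimate: a Lipschitz function of `X` on a vector on which the limit is a
scalar. -/
theorem pt_est {X : K →L[ℂ] K} (hX : IsSelfAdjoint X) {g : ℝ → ℝ} (hg : Continuous g)
    (hlip : ∀ t s, |g t - g s| ≤ |t - s|) (s : ℝ) (ξ : K) :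
    ‖cfc g X ξ - (g s : ℂ) • ξ‖ ≤ ‖X ξ - (s : ℂ) • ξ‖ := by
  have h1 : ∀ (h : ℝ → ℝ), Continuous h → ∀ c : ℝ, cfc (fun t => h t - c) X ξ =
      cfc h X ξ - (c : ℂ) • ξ := by
    intro h hh c
    rw [cfc_sub h (fun _ => c) X, cfc_const c X]
    rw [ContinuousLinearMap.sub_apply, Algebra.algebraMap_eq_smul_one]
    congr 1
  have h2 : cfc (fun t => g t - g s) X ξ = cfc g X ξ - (g s : ℂ) • ξ := h1 g hg (g s)
  have h3 : cfc (fun t : ℝ => t - s) X ξ = X ξ - (s : ℂ) • ξ := by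
    have := h1 (fun t => t) continuous_id s
    rw [this]
    congr 2
    exact cfc_id' ℝ X
  rw [← h2, ← h3]
  refine abs_le_of_sq_le_sq' ?_ (norm_nonneg _) |>.2
  rw [norm_sq_of_sa (cfc_predicate _ _) ξ, norm_sq_of_sa (cfc_predicate _ _) ξ]
  rw [← cfc_mul (fun t => g t - g s) (fun t => g t - g s) X (by fun_prop) (by fun_prop),
    ← cfc_mul (fun t : ℝ => t - s) (fun t : ℝ => t - s) X (by fun_prop) (by fun_prop)]
  have h4 : cfc (fun t => (g t - g s) * (g t - g s)) X ≤ cfc (fun t : ℝ => (t - s) * (t - s)) X := by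
    refine cfc_mono (fun t _ => ?_) (by fun_prop) (by fun_prop)
    have := hlip t s
    have h5 := mul_self_le_mul_self (abs_nonneg _) this
    rwa [abs_mul_abs_self, abs_mul_abs_self] at h5
  have h5 := (ContinuousLinearMap.le_def _ _).1 h4
  have h6 := h5.inner_nonneg_right ξ
  rw [ContinuousLinearMap.sub_apply, inner_sub_right] at h6
  have h7 := (RCLike.le_iff_re_im.1 h6).1
  simp only [map_zero, map_sub] at h7
  exact sub_nonneg.1 h7

/-- `t ↦ max (-1) (min 1 t)` -/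
noncomputable def clamp (t : ℝ) : ℝ := max (-1) (min 1 t)

/-- `clamp t / t` -/
noncomputable def clampq (t : ℝ) : ℝ := 1 / max 1 |t|

theorem clamp_eq (t : ℝ) : clamp t = clampq t * t := by
  unfold clamp clampq
  rcases le_total |t| 1 with h | h
  · rw [max_eq_left h, div_one, one_mul, min_eq_right (abs_le.1 h).2, max_eq_right (abs_le.1 h).1]
  · rw [max_eq_right h]
    rcases le_total 0 t with h0 | h0
    · rw [abs_of_nonneg h0] at h ⊢
      rw [min_eq_left h, max_eq_right (by norm_num)]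
      field_simp
    · rw [abs_of_nonpos h0] at h ⊢
      have ht : t ≠ 0 := by intro h; subst h; norm_num at h
      rw [min_eq_right (by linarith), max_eq_left (by linarith)]
      field_simp

theorem continuous_clamp : Continuous clamp := by unfold clamp; fun_prop

theorem continuous_clampq : Continuous clampq := by
  unfold clampq
  refine continuous_const.div (by fun_prop) fun t => ?_
  have : (1 : ℝ) ≤ max 1 |t| := le_max_left _ _
  positivity

theorem abs_clamp_le (t : ℝ) : |clamp t| ≤ 1 := by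
  unfold clamp
  rw [abs_le]
  exact ⟨le_max_left _ _, max_le (by norm_num) (min_le_left _ _)⟩

theorem clamp_lip (t s : ℝ) : |clamp t - clamp s| ≤ |t - s| := by
  unfold clamp
  refine (abs_max_sub_max_le_max (-1) (min 1 t) (-1) (min 1 s)).trans ?_
  refine max_le (by simp) ?_
  refine (abs_min_sub_min_le_max 1 t 1 s).trans ?_
  exact max_le (by simp) le_rfl

theorem clamp_of_abs_le {t : ℝ} (h : |t| ≤ 1) : clamp t = t := by
  unfold clamp
  rw [min_eq_right (abs_le.1 h).2, max_eq_right (abs_le.1 h).1]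

/-- the polynomial approximation of the clamp -/
theorem exists_poly (C : ℝ) {ε : ℝ} (hε : 0 < ε) :
    ∃ q : Polynomial ℝ, ∀ X : K →L[ℂ] K, IsSelfAdjoint X → ‖X‖ ≤ C →
      ‖Polynomial.aeval X (Polynomial.X * q)‖ ≤ 1 + ε * C ∧
      ∀ ξ, ‖Polynomial.aeval X (Polynomial.X * q) ξ - cfc clamp X ξ‖ ≤ ε * ‖X ξ‖ := by
  obtain ⟨q, hq⟩ := exists_polynomial_near_of_continuousOn (-C) C clampq
    continuous_clampq.continuousOn ε hε
  refine ⟨q, fun X hX hXC => ?_⟩
  have hsp : ∀ t ∈ spectrum ℝ X, |t| ≤ C := fun t ht => by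
    have := spectrum.norm_le_norm_mul_of_mem ht
    rw [Real.norm_eq_abs] at this
    refine this.trans ?_
    calc ‖X‖ * ‖(1 : K →L[ℂ] K)‖ ≤ ‖X‖ * 1 := by gcongr; exact norm_id_le
      _ ≤ C := by rw [mul_one]; exact hXC
  have e1 : Polynomial.aeval X (Polynomial.X * q) = cfc (fun t => t * q.eval t) X := by
    rw [← cfc_polynomial (Polynomial.X * q) X]
    refine cfc_congr fun t _ => ?_
    simp
  have hcl : cfc clamp X = cfc (fun t => t * clampq t) X := by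
    refine cfc_congr fun t _ => ?_
    rw [clamp_eq, mul_comm]
  have hC : 0 ≤ C := (norm_nonneg X).trans hXC
  refine ⟨?_, fun ξ => ?_⟩
  · rw [e1]
    refine norm_cfc_le (by positivity) fun t ht => ?_
    have h1 := hsp t ht
    have h2 := (hq t ⟨(abs_le.1 h1).1, (abs_le.1 h1).2⟩).le
    have h3 := abs_clamp_le t
    rw [clamp_eq] at h3
    rw [Real.norm_eq_abs]
    calc |t * q.eval t| = |clampq t * t + t * (q.eval t - clampq t)| := by ring_nf
      _ ≤ |clampq t * t| + |t| * |q.eval t - clampq t| := by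
        rw [← abs_mul]; exact abs_add_le _ _
      _ ≤ 1 + C * ε := by gcongr
      _ = 1 + ε * C := by ring
  · rw [e1, hcl]
    have e2 : cfc (fun t => t * q.eval t) X - cfc (fun t => t * clampq t) X =
        cfc (fun t => q.eval t - clampq t) X * X := by
      have h0 : ContinuousOn clampq (spectrum ℝ X) := continuous_clampq.continuousOn
      rw [← cfc_sub _ _ X (by fun_prop) (by fun_prop)]
      conv_rhs => rw [← cfc_id' ℝ X]
      rw [cfc_id' ℝ X]
      conv_rhs => enter [2]; rw [← cfc_id' ℝ X]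
      rw [← cfc_mul _ _ X (by fun_prop) (by fun_prop)]
      refine cfc_congr fun t _ => ?_
      ring
    have e3 : cfc (fun t => t * q.eval t) X ξ - cfc (fun t => t * clampq t) X ξ =
        cfc (fun t => q.eval t - clampq t) X (X ξ) := by
      have := congrArg (fun T : K →L[ℂ] K => T ξ) e2
      simpa using this
    rw [e3]
    refine (le_opNorm _ _).trans ?_
    gcongr
    refine norm_cfc_le hε.le fun t ht => ?_
    have h1 := hsp t ht
    exact (hq t ⟨(abs_le.1 h1).1, (abs_le.1 h1).2⟩).le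

end pt

section field

variable {G K : Type*} [MeasurableSpace G] [NormedAddCommGroup K] [InnerProductSpace ℂ K]
  [CompleteSpace K]

/-- A class of bounded square integrable fields of operators which is a `*`-algebra, with the trace
property `‖x* Ω‖ = ‖x Ω‖`. -/
structure FAlg (μ : Measure G) (Ω : K) (S : Set (G → K →L[ℂ] K)) : Prop where
  add : ∀ x ∈ S, ∀ y ∈ S, (fun g => x g + y g) ∈ S
  smul : ∀ (c : ℂ), ∀ x ∈ S, (fun g => c • x g) ∈ S
  mul : ∀ x ∈ S, ∀ y ∈ S, (fun g => x g * y g) ∈ S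
  star_mem : ∀ x ∈ S, (fun g => star (x g)) ∈ S
  bdd : ∀ x ∈ S, ∃ C, ∀ g, ‖x g‖ ≤ C
  l2 : ∀ x ∈ S, MemLp (fun g => x g Ω) 2 μ
  tr : ∀ x ∈ S, ∫ g, ‖star (x g) Ω‖ ^ 2 ∂μ = ∫ g, ‖x g Ω‖ ^ 2 ∂μ

variable {μ : Measure G} {Ω : K} {S : Set (G → K →L[ℂ] K)}

theorem FAlg.poly (h : FAlg μ Ω S) {x : G → K →L[ℂ] K} (hx : x ∈ S) (q : Polynomial ℝ) :
    (fun g => Polynomial.aeval (x g) (Polynomial.X * q)) ∈ S := by
  induction q using Polynomial.induction_on' with
  | add p q hp hq =>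
    have := h.add _ hp _ hq
    simpa [mul_add] using this
  | monomial n a =>
    have hpow : ∀ n : ℕ, (fun g => x g ^ (n + 1)) ∈ S := by
      intro n
      induction n with
      | zero => simpa using hx
      | succ n ih =>
        have := h.mul _ ih _ hx
        simpa [pow_succ] using this
    have h1 := h.smul (a : ℂ) _ (hpow n)
    convert h1 using 2 with g
    rw [map_mul, Polynomial.aeval_X, Polynomial.aeval_monomial, Algebra.algebraMap_eq_smul_one,
      smul_mul_assoc, one_mul, mul_smul_comm, pow_succ' (x g)]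
    exact (Complex.coe_smul a _).symm

theorem sq_integrable {f : G → K} (hf : MemLp f 2 μ) : Integrable (fun g => ‖f g‖ ^ 2) μ :=
  hf.integrable_norm_pow (by norm_num)

theorem FAlg.sub_l2 (h : FAlg μ Ω S) {f : G → ℝ} (hf : MemLp (fun g => (f g : ℂ) • Ω) 2 μ)
    {x : G → K →L[ℂ] K} (hx : x ∈ S) : MemLp (fun g => x g Ω - (f g : ℂ) • Ω) 2 μ :=
  (h.l2 x hx).sub hf

theorem FAlg.star_dist (h : FAlg μ Ω S) {f : G → ℝ} (hf : MemLp (fun g => (f g : ℂ) • Ω) 2 μ)
    {x : G → K →L[ℂ] K} (hx : x ∈ S) :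
    ∫ g, ‖star (x g) Ω - (f g : ℂ) • Ω‖ ^ 2 ∂μ = ∫ g, ‖x g Ω - (f g : ℂ) • Ω‖ ^ 2 ∂μ := by
  have e1 : ∀ g, ‖star (x g) Ω - (f g : ℂ) • Ω‖ ^ 2 =
      ‖x g Ω - (f g : ℂ) • Ω‖ ^ 2 + (‖star (x g) Ω‖ ^ 2 - ‖x g Ω‖ ^ 2) := by
    intro g
    rw [norm_sub_sq (𝕜 := ℂ), norm_sub_sq (𝕜 := ℂ)]
    have e2 : RCLike.re ⟪star (x g) Ω, (f g : ℂ) • Ω⟫_ℂ = RCLike.re ⟪x g Ω, (f g : ℂ) • Ω⟫_ℂ := by
      rw [inner_smul_right, inner_smul_right, star_eq_adjoint, adjoint_inner_left]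
      have e3 : (⟪Ω, x g Ω⟫_ℂ).re = (⟪x g Ω, Ω⟫_ℂ).re := by
        rw [← inner_conj_symm (x g Ω) Ω, Complex.conj_re]
      simp [e3]
    rw [e2]
    ring
  simp only [e1]
  have i1 := sq_integrable (h.sub_l2 hf hx)
  have i2 := sq_integrable (h.l2 x hx)
  have i3 := sq_integrable (h.l2 _ (h.star_mem x hx))
  have i4 : Integrable (fun g => ‖star (x g) Ω‖ ^ 2 - ‖x g Ω‖ ^ 2) μ := i3.sub i2
  rw [integral_add i1 i4, integral_sub i3 i2, h.tr x hx]
  ring

/-- **Bounded approximation.** -/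
theorem FAlg.appr (h : FAlg μ Ω S) {f : G → ℝ} (hf : MemLp (fun g => (f g : ℂ) • Ω) 2 μ)
    (hf1 : ∀ g, |f g| ≤ 1)
    (hd : ∀ ε > 0, ∃ x ∈ S, ∫ g, ‖x g Ω - (f g : ℂ) • Ω‖ ^ 2 ∂μ ≤ ε) {ε : ℝ} (hε : 0 < ε) :
    ∃ y ∈ S, (∀ g, IsSelfAdjoint (y g)) ∧ (∀ g, ‖y g‖ ≤ 2) ∧
      ∫ g, ‖y g Ω - (f g : ℂ) • Ω‖ ^ 2 ∂μ ≤ ε := by
  obtain ⟨x, hx, hxd⟩ := hd (ε / 4) (by positivity)
  obtain ⟨X, hX⟩ : ∃ X : G → K →L[ℂ] K, X = fun g => (1 / 2 : ℂ) • (x g + star (x g)) := ⟨_, rfl⟩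
  have hXS : X ∈ S := by
    rw [hX]
    exact h.smul _ _ (h.add _ hx _ (h.star_mem x hx))
  have hXsa : ∀ g, IsSelfAdjoint (X g) := by
    intro g
    rw [hX]
    simp only
    rw [IsSelfAdjoint, star_smul, star_add, star_star, add_comm (star (x g))]
    congr 1
    simp
  have hXd : ∫ g, ‖X g Ω - (f g : ℂ) • Ω‖ ^ 2 ∂μ ≤ ε / 4 := by
    have hb : ∀ g, ‖X g Ω - (f g : ℂ) • Ω‖ ^ 2 ≤ 1 / 2 * ‖x g Ω - (f g : ℂ) • Ω‖ ^ 2 +
        1 / 2 * ‖star (x g) Ω - (f g : ℂ) • Ω‖ ^ 2 := by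
      intro g
      have e1 : X g Ω - (f g : ℂ) • Ω = (1 / 2 : ℂ) • ((x g Ω - (f g : ℂ) • Ω) +
          (star (x g) Ω - (f g : ℂ) • Ω)) := by
        rw [hX]
        simp only [ContinuousLinearMap.smul_apply, ContinuousLinearMap.add_apply]
        module
      rw [e1, norm_smul]
      have h2 : ‖(1 / 2 : ℂ)‖ = 1 / 2 := by norm_num
      rw [h2]
      have h3 := norm_add_le (x g Ω - (f g : ℂ) • Ω) (star (x g) Ω - (f g : ℂ) • Ω)
      have h4 := norm_nonneg ((x g Ω - (f g : ℂ) • Ω) + (star (x g) Ω - (f g : ℂ) • Ω))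
      nlinarith [sq_nonneg (‖x g Ω - (f g : ℂ) • Ω‖ - ‖star (x g) Ω - (f g : ℂ) • Ω‖),
        norm_nonneg (x g Ω - (f g : ℂ) • Ω), norm_nonneg (star (x g) Ω - (f g : ℂ) • Ω)]
    have i1 := sq_integrable (h.sub_l2 hf hx)
    have i2 := sq_integrable (h.sub_l2 hf (h.star_mem x hx))
    refine (integral_mono_of_nonneg (Eventually.of_forall fun g => by positivity)
      ((i1.const_mul _).add (i2.const_mul _)) (Eventually.of_forall hb)).trans ?_
    simp only [Pi.add_apply]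
    rw [integral_add (i1.const_mul _) (i2.const_mul _), integral_const_mul, integral_const_mul,
      h.star_dist hf hx]
    linarith
  obtain ⟨C, hC⟩ := h.bdd X hXS
  have iX := sq_integrable (h.l2 X hXS)
  obtain ⟨I, hI⟩ : ∃ I : ℝ, I = ∫ g, ‖X g Ω‖ ^ 2 ∂μ := ⟨_, rfl⟩
  have hI0 : 0 ≤ I := by rw [hI]; exact integral_nonneg fun g => by positivity
  have hC1 : 0 < |C| + 1 := by positivity
  obtain ⟨δ, hδ0, hδC, hδI⟩ : ∃ δ : ℝ, 0 < δ ∧ δ * (|C| + 1) ≤ 1 ∧ 2 * δ ^ 2 * I ≤ ε / 2 := by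
    refine ⟨min 1 (min (1 / (|C| + 1)) (ε / (4 * (I + 1)))), by positivity, ?_, ?_⟩
    · calc _ ≤ 1 / (|C| + 1) * (|C| + 1) := by
            gcongr
            exact (min_le_right _ _).trans (min_le_left _ _)
        _ = 1 := by field_simp
    · set δ := min 1 (min (1 / (|C| + 1)) (ε / (4 * (I + 1)))) with hδ
      have h1 : δ ≤ 1 := min_le_left _ _
      have h2 : δ ≤ ε / (4 * (I + 1)) := (min_le_right _ _).trans (min_le_right _ _)
      have h0 : 0 < δ := by rw [hδ]; positivity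
      have h3 : δ ^ 2 ≤ ε / (4 * (I + 1)) := by nlinarith
      calc 2 * δ ^ 2 * I ≤ 2 * (ε / (4 * (I + 1))) * I := by gcongr
        _ ≤ 2 * (ε / (4 * (I + 1))) * (I + 1) := by gcongr; linarith
        _ = ε / 2 := by field_simp; ring
  obtain ⟨q, hq⟩ := exists_poly (K := K) (|C| + 1) hδ0
  have hXC : ∀ g, ‖X g‖ ≤ |C| + 1 := fun g => (hC g).trans (by linarith [le_abs_self C])
  refine ⟨_, h.poly hXS q, fun g => ?_, fun g => ?_, ?_⟩
  · rw [← cfc_polynomial (Polynomial.X * q) (X g) (hXsa g)]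
    exact cfc_predicate _ _
  · exact (hq (X g) (hXsa g) (hXC g)).1.trans (by linarith)
  · have hb : ∀ g, ‖Polynomial.aeval (X g) (Polynomial.X * q) Ω - (f g : ℂ) • Ω‖ ^ 2 ≤
        2 * δ ^ 2 * ‖X g Ω‖ ^ 2 + 2 * ‖X g Ω - (f g : ℂ) • Ω‖ ^ 2 := by
      intro g
      have h1 := (hq (X g) (hXsa g) (hXC g)).2 Ω
      have h2 := pt_est (hXsa g) continuous_clamp clamp_lip (f g) Ω
      rw [clamp_of_abs_le (hf1 g)] at h2
      have h3 : ‖Polynomial.aeval (X g) (Polynomial.X * q) Ω - (f g : ℂ) • Ω‖ ≤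
          δ * ‖X g Ω‖ + ‖X g Ω - (f g : ℂ) • Ω‖ := by
        calc _ ≤ ‖Polynomial.aeval (X g) (Polynomial.X * q) Ω - cfc clamp (X g) Ω‖ +
              ‖cfc clamp (X g) Ω - (f g : ℂ) • Ω‖ := norm_sub_le_norm_sub_add_norm_sub _ _ _
          _ ≤ _ := add_le_add h1 h2
      have h4 := pow_le_pow_left₀ (norm_nonneg _) h3 2
      nlinarith [sq_nonneg (δ * ‖X g Ω‖ - ‖X g Ω - (f g : ℂ) • Ω‖)]
    have i1 := sq_integrable (h.sub_l2 hf hXS)
    refine (integral_mono_of_nonneg (Eventually.of_forall fun g => by positivity)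
      ((iX.const_mul _).add (i1.const_mul _)) (Eventually.of_forall hb)).trans ?_
    simp only [Pi.add_apply]
    rw [integral_add (iX.const_mul _) (i1.const_mul _), integral_const_mul, integral_const_mul,
      ← hI]
    linarith

/-- the squares converge too -/
theorem sq_close {y : K →L[ℂ] K} (hy : ‖y‖ ≤ 2) {s : ℝ} (hs : |s| ≤ 1) (ξ : K) :
    ‖y (y ξ) - ((s ^ 2 : ℝ) : ℂ) • ξ‖ ≤ 3 * ‖y ξ - (s : ℂ) • ξ‖ := by
  have e1 : y (y ξ) - ((s ^ 2 : ℝ) : ℂ) • ξ =
      y (y ξ - (s : ℂ) • ξ) + (s : ℂ) • (y ξ - (s : ℂ) • ξ) := by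
    rw [map_sub, map_smul, smul_sub, smul_smul]
    push_cast
    rw [pow_two]
    abel
  rw [e1]
  refine (norm_add_le _ _).trans ?_
  have h1 : ‖y (y ξ - (s : ℂ) • ξ)‖ ≤ 2 * ‖y ξ - (s : ℂ) • ξ‖ :=
    (le_opNorm _ _).trans (by gcongr)
  have h2 : ‖(s : ℂ) • (y ξ - (s : ℂ) • ξ)‖ ≤ 1 * ‖y ξ - (s : ℂ) • ξ‖ := by
    rw [norm_smul, Complex.norm_real, Real.norm_eq_abs]
    gcongr
  linarith

end field

end Vale.Agent.P092.H796
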