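import Mathlib

/-!
P092 (helper796): the part of an isometric representation of a dense subgroup which is continuous
for the topology of the big group, and its continuous extension.
-/

set_option linter.all false

open scoped InnerProductSpace
open Filter Topology

namespace Vale.Agent.P092.H796

section alpha

variable {Λ E H : Type*} [Group Λ] [Group E] [TopologicalSpace E] [IsTopologicalGroup E]
  [NormedAddCommGroup H] [InnerProductSpace ℂ H]
  (i : Λ →* E) (A : Λ →* (H →L[ℂ] H))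

/-- The vectors whose orbit map is continuous (at `1`) for the topology induced by `i`. -/
def cvec (hA : ∀ u ξ, ‖A u ξ‖ = ‖ξ‖) : Submodule ℂ H where
  carrier := {ξ | Tendsto (fun u => A u ξ) (comap i (𝓝 1)) (𝓝 ξ)}
  add_mem' := fun {a b} ha hb => by
    have h := Tendsto.add (show Tendsto (fun u => A u a) (comap i (𝓝 1)) (𝓝 a) from ha)
      (show Tendsto (fun u => A u b) (comap i (𝓝 1)) (𝓝 b) from hb)
    simpa using h
  zero_mem' := by
    simp only [Set.mem_ofPred_eq, map_zero]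
    exact tendsto_const_nhds
  smul_mem' := fun c a ha => by
    have h := Tendsto.const_smul (show Tendsto (fun u => A u a) (comap i (𝓝 1)) (𝓝 a) from ha) c
    simpa using h

variable {i A} {hA : ∀ u ξ, ‖A u ξ‖ = ‖ξ‖}

theorem mem_cvec {ξ : H} :
    ξ ∈ cvec i A hA ↔ Tendsto (fun u => A u ξ) (comap i (𝓝 1)) (𝓝 ξ) := Iff.rfl

theorem mem_cvec' {ξ : H} :
    ξ ∈ cvec i A hA ↔ ∀ ε > 0, ∃ U ∈ 𝓝 (1 : E), ∀ u, i u ∈ U → ‖A u ξ - ξ‖ < ε := by
  rw [mem_cvec, Metric.tendsto_nhds]
  refine forall₂_congr fun ε _ => ?_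
  rw [eventually_comap]
  constructor
  · intro h
    exact ⟨_, h, fun u hu => by rw [← dist_eq_norm]; exact hu u rfl⟩
  · rintro ⟨U, hU, h⟩
    filter_upwards [hU] with x hx u hu
    rw [dist_eq_norm]
    exact h u (hu ▸ hx)

theorem isClosed_cvec : IsClosed (cvec i A hA : Set H) := by
  rw [← isSeqClosed_iff_isClosed]
  intro x ξ hx hxi
  change ξ ∈ cvec i A hA
  rw [mem_cvec']
  intro ε hε
  obtain ⟨n, hn⟩ := ((tendsto_iff_norm_sub_tendsto_zero.1 hxi).eventually
    (gt_mem_nhds (show 0 < ε / 3 by positivity))).exists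
  obtain ⟨U, hU, h⟩ := mem_cvec'.1 (hx n) (ε / 3) (by positivity)
  refine ⟨U, hU, fun u hu => ?_⟩
  have h1 := h u hu
  have e1 : A u ξ - ξ = (A u (x n) - x n) + (x n - ξ) - A u (x n - ξ) := by
    rw [map_sub]; abel
  rw [e1]
  have h2 := norm_sub_le ((A u (x n) - x n) + (x n - ξ)) (A u (x n - ξ))
  have h3 := norm_add_le (A u (x n) - x n) (x n - ξ)
  rw [hA] at h2
  linarith

instance [CompleteSpace H] : CompleteSpace (cvec i A hA) :=
  isClosed_cvec.completeSpace_coe

/-- operators which commute with the representation preserve the continuous vectors -/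
theorem map_cvec {T : H →L[ℂ] H} (hT : ∀ u ξ, T (A u ξ) = A u (T ξ)) {ξ : H}
    (h : ξ ∈ cvec i A hA) : T ξ ∈ cvec i A hA := by
  rw [mem_cvec] at h ⊢
  have h1 := (T.continuous.tendsto ξ).comp h
  refine h1.congr fun u => ?_
  rw [Function.comp_apply, hT]

/-- the translation of the comap filter -/
theorem tendsto_comap_conj (w : Λ) :
    Tendsto (fun u : Λ => w⁻¹ * u * w) (comap i (𝓝 1)) (comap i (𝓝 1)) := by
  rw [tendsto_comap_iff]
  have h1 : Tendsto (fun g : E => (i w)⁻¹ * g * i w) (𝓝 1) (𝓝 1) := by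
    have : Continuous fun g : E => (i w)⁻¹ * g * i w := by fun_prop
    have h2 := this.tendsto 1
    simpa using h2
  refine (h1.comp tendsto_comap).congr fun u => ?_
  simp

theorem tendsto_comap_mul (h : E) (w : Λ) :
    Tendsto (fun u : Λ => w * u) (comap i (𝓝 h)) (comap i (𝓝 (i w * h))) := by
  rw [tendsto_comap_iff]
  have h1 : Tendsto (fun g : E => i w * g) (𝓝 h) (𝓝 (i w * h)) := by
    have : Continuous fun g : E => i w * g := by fun_prop
    exact this.tendsto h
  refine (h1.comp tendsto_comap).congr fun u => ?_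
  simp

theorem A_cvec (w : Λ) {ξ : H} (h : ξ ∈ cvec i A hA) : A w ξ ∈ cvec i A hA := by
  rw [mem_cvec] at h ⊢
  have h1 := ((A w).continuous.tendsto ξ).comp (h.comp (tendsto_comap_conj w))
  refine h1.congr fun u => ?_
  simp only [Function.comp_apply]
  rw [← mul_apply_eq_comp, ← mul_apply_eq_comp, ← map_mul, ← map_mul]
  congr 2
  group

theorem neBot_comap (hd : DenseRange i) (h : E) : (comap i (𝓝 h)).NeBot := by
  rw [comap_neBot_iff]
  intro t ht
  obtain ⟨u, hu⟩ := hd.mem_nhds ht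
  exact ⟨u, hu⟩

theorem cauchy_orbit (hd : DenseRange i) {ξ : H} (hξ : ξ ∈ cvec i A hA) (h : E) :
    Cauchy (map (fun u => A u ξ) (comap i (𝓝 h))) := by
  have hn := neBot_comap hd h
  refine cauchy_map_iff.2 ⟨hn, ?_⟩
  rw [Metric.uniformity_basis_dist.tendsto_right_iff]
  intro ε hε
  obtain ⟨U, hU, hUξ⟩ := mem_cvec'.1 hξ ε hε
  have h1 : Tendsto (fun p : E × E => p.2⁻¹ * p.1) (𝓝 h ×ˢ 𝓝 h) (𝓝 1) := by
    have : Continuous fun p : E × E => p.2⁻¹ * p.1 := by fun_prop
    have h2 := this.tendsto (h, h)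
    rw [nhds_prod_eq] at h2
    simpa using h2
  have h3 : Tendsto (fun p : Λ × Λ => (i p.2)⁻¹ * i p.1) (comap i (𝓝 h) ×ˢ comap i (𝓝 h))
      (𝓝 1) := by
    have := h1.comp ((tendsto_comap (f := i) (x := 𝓝 h)).prodMap
      (tendsto_comap (f := i) (x := 𝓝 h)))
    exact this
  filter_upwards [h3 hU] with p hp
  have h4 := hUξ (p.2⁻¹ * p.1) (by simpa using hp)
  change dist (A p.1 ξ) (A p.2 ξ) < ε
  rw [dist_eq_norm]
  have e1 : A p.1 ξ - A p.2 ξ = A p.2 (A (p.2⁻¹ * p.1) ξ - ξ) := by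
    rw [map_sub, ← mul_apply_eq_comp, ← map_mul]
    congr 3
    group
  rw [e1, hA]
  exact h4

variable (i A) in
/-- the extension -/
noncomputable def ext (h : E) (ξ : H) : H := limUnder (comap i (𝓝 h)) (fun u => A u ξ)

section

variable [CompleteSpace H] (hd : DenseRange i)

include hA hd

theorem ext_spec {ξ : H} (hξ : ξ ∈ cvec i A hA) (h : E) :
    Tendsto (fun u => A u ξ) (comap i (𝓝 h)) (𝓝 (ext i A h ξ)) := by
  have := neBot_comap hd h
  obtain ⟨x, hx⟩ := cauchy_map_iff_exists_tendsto.1 (cauchy_orbit hd hξ h)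
  exact tendsto_nhds_limUnder ⟨x, hx⟩

theorem ext_unique {ξ : H} (hξ : ξ ∈ cvec i A hA) {h : E} {η : H}
    (hη : Tendsto (fun u => A u ξ) (comap i (𝓝 h)) (𝓝 η)) : ext i A h ξ = η := by
  have := neBot_comap hd h
  exact tendsto_nhds_unique (ext_spec hd hξ h) hη

theorem ext_mem {ξ : H} (hξ : ξ ∈ cvec i A hA) (h : E) : ext i A h ξ ∈ cvec i A hA := by
  have := neBot_comap hd h
  refine isClosed_cvec.mem_of_tendsto (ext_spec hd hξ h) (Eventually.of_forall fun u => ?_)
  exact A_cvec u hξ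

theorem norm_ext {ξ : H} (hξ : ξ ∈ cvec i A hA) (h : E) : ‖ext i A h ξ‖ = ‖ξ‖ := by
  have := neBot_comap hd h
  refine tendsto_nhds_unique (ext_spec hd hξ h).norm ?_
  simp only [hA]
  exact tendsto_const_nhds

/-- uniform form of the continuity: the extension is close to the identity near `1` -/
theorem norm_ext_sub_le {ξ : H} (hξ : ξ ∈ cvec i A hA) {ε : ℝ} (hε : 0 < ε) :
    ∃ U ∈ 𝓝 (1 : E), ∀ h ∈ U, ‖ext i A h ξ - ξ‖ ≤ ε := by
  obtain ⟨U, hU, hUξ⟩ := mem_cvec'.1 hξ ε hε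
  obtain ⟨V, hVU, hV, h1⟩ := mem_nhds_iff.1 hU
  refine ⟨V, hV.mem_nhds h1, fun h hh => ?_⟩
  have := neBot_comap hd h
  refine le_of_tendsto ((ext_spec hd hξ h).sub_const ξ).norm ?_
  filter_upwards [preimage_mem_comap (hV.mem_nhds hh)] with u hu
  exact (hUξ u (hVU hu)).le

theorem ext_sub {ξ η : H} (hξ : ξ ∈ cvec i A hA) (hη : η ∈ cvec i A hA) (h : E) :
    ext i A h (ξ - η) = ext i A h ξ - ext i A h η := by
  refine ext_unique hd ((cvec i A hA).sub_mem hξ hη) ?_
  simp only [map_sub]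
  exact (ext_spec hd hξ h).sub (ext_spec hd hη h)

theorem ext_add {ξ η : H} (hξ : ξ ∈ cvec i A hA) (hη : η ∈ cvec i A hA) (h : E) :
    ext i A h (ξ + η) = ext i A h ξ + ext i A h η := by
  refine ext_unique hd ((cvec i A hA).add_mem hξ hη) ?_
  simp only [map_add]
  exact (ext_spec hd hξ h).add (ext_spec hd hη h)

theorem ext_smul (c : ℂ) {ξ : H} (hξ : ξ ∈ cvec i A hA) (h : E) :
    ext i A h (c • ξ) = c • ext i A h ξ := by
  refine ext_unique hd ((cvec i A hA).smul_mem c hξ) ?_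
  simp only [map_smul]
  exact (ext_spec hd hξ h).const_smul c

theorem ext_comm {T : H →L[ℂ] H} (hT : ∀ u ξ, T (A u ξ) = A u (T ξ)) {ξ : H}
    (hξ : ξ ∈ cvec i A hA) (h : E) : ext i A h (T ξ) = T (ext i A h ξ) := by
  refine ext_unique hd (map_cvec hT hξ) ?_
  refine ((T.continuous.tendsto _).comp (ext_spec hd hξ h)).congr fun u => ?_
  rw [Function.comp_apply, hT]

theorem ext_mul_A (w : Λ) {ξ : H} (hξ : ξ ∈ cvec i A hA) (h : E) :
    ext i A (i w * h) ξ = A w (ext i A h ξ) := by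
  have := neBot_comap hd h
  have h1 := (ext_spec hd hξ (i w * h)).comp (tendsto_comap_mul h w)
  refine tendsto_nhds_unique h1 ?_
  refine (((A w).continuous.tendsto _).comp (ext_spec hd hξ h)).congr fun u => ?_
  simp only [Function.comp_apply, map_mul]
  rfl

theorem ext_one {ξ : H} (hξ : ξ ∈ cvec i A hA) : ext i A 1 ξ = ξ :=
  ext_unique hd hξ hξ

theorem ext_coe (w : Λ) {ξ : H} (hξ : ξ ∈ cvec i A hA) : ext i A (i w) ξ = A w ξ := by
  have h1 := ext_mul_A hd w hξ 1
  rw [mul_one, ext_one hd hξ] at h1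
  exact h1

/-- the extension is a strongly continuous function on `E` -/
theorem continuous_ext {ξ : H} (hξ : ξ ∈ cvec i A hA) : Continuous fun h => ext i A h ξ := by
  rw [continuous_iff_continuousAt]
  intro h
  rw [ContinuousAt, Metric.tendsto_nhds]
  intro ε hε
  have h1 := Metric.tendsto_nhds.1 (ext_spec hd hξ h) (ε / 2) (by positivity)
  rw [eventually_comap] at h1
  have h2 := eventually_eventually_nhds.2 h1
  filter_upwards [h2] with g hg
  have := neBot_comap hd g
  refine lt_of_le_of_lt (le_of_tendsto (f := fun u => dist (A u ξ) (ext i A h ξ))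
    ((ext_spec hd hξ g).dist tendsto_const_nhds) ?_) (half_lt_self hε)
  rw [eventually_comap]
  filter_upwards [hg] with x hx u hu
  exact (hx u hu).le

theorem ext_mul {ξ : H} (hξ : ξ ∈ cvec i A hA) (g h : E) :
    ext i A (g * h) ξ = ext i A g (ext i A h ξ) := by
  have hg := neBot_comap hd g
  have h1 : Tendsto (fun u : Λ => ext i A (i u * h) ξ) (comap i (𝓝 g)) (𝓝 (ext i A (g * h) ξ)) := by
    have h2 : Continuous fun x : E => ext i A (x * h) ξ :=
      (continuous_ext hd hξ).comp (by fun_prop)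
    exact (h2.tendsto g).comp tendsto_comap
  refine tendsto_nhds_unique h1 ((ext_spec hd (ext_mem hd hξ h) g).congr fun u => ?_)
  rw [ext_mul_A hd u hξ]

theorem inner_ext {ξ η : H} (hξ : ξ ∈ cvec i A hA) (hη : η ∈ cvec i A hA) (h : E) :
    ⟪ext i A h ξ, ext i A h η⟫_ℂ = ⟪ξ, η⟫_ℂ := by
  have := neBot_comap hd h
  have h1 := (ext_spec hd hξ h).inner (𝕜 := ℂ) (ext_spec hd hη h)
  refine tendsto_nhds_unique h1 ?_
  have h2 : ∀ u, ⟪A u ξ, A u η⟫_ℂ = ⟪ξ, η⟫_ℂ := fun u =>
    (LinearMap.norm_map_iff_inner_map_map (A u)).1 (hA u) ξ η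
  simp only [h2]
  exact tendsto_const_nhds

theorem inner_ext_left {ξ η : H} (hξ : ξ ∈ cvec i A hA) (hη : η ∈ cvec i A hA) (h : E) :
    ⟪ext i A h ξ, η⟫_ℂ = ⟪ξ, ext i A h⁻¹ η⟫_ℂ := by
  rw [← inner_ext hd hξ (ext_mem hd hη h⁻¹) h, ← ext_mul hd hη, mul_inv_cancel, ext_one hd hη]

end

section bundle

variable [CompleteSpace H]

/-- the extension as a representation on the closed subspace of continuous vectors -/
noncomputable def alpha (i : Λ →* E) (A : Λ →* (H →L[ℂ] H)) (hA : ∀ u ξ, ‖A u ξ‖ = ‖ξ‖)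
    (hd : DenseRange i) : E →* (cvec i A hA →L[ℂ] cvec i A hA) where
  toFun h := (LinearMap.mk (AddHom.mk (fun ξ : cvec i A hA => (⟨ext i A h ξ, ext_mem hd ξ.2 h⟩ :
      cvec i A hA)) (fun ξ η => Subtype.ext (ext_add hd ξ.2 η.2 h)))
      (fun c ξ => Subtype.ext (ext_smul hd c ξ.2 h))).mkContinuous 1 (fun ξ => by
        rw [one_mul]; exact (norm_ext hd ξ.2 h).le)
  map_one' := by
    refine ContinuousLinearMap.ext fun ξ => Subtype.ext ?_
    exact ext_one hd ξ.2
  map_mul' g h := by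
    refine ContinuousLinearMap.ext fun ξ => Subtype.ext ?_
    exact ext_mul hd ξ.2 g h

variable (hd : DenseRange i)

theorem alpha_coe (h : E) (ξ : cvec i A hA) : (alpha i A hA hd h ξ : H) = ext i A h ξ := rfl

theorem norm_alpha (h : E) (ξ : cvec i A hA) : ‖alpha i A hA hd h ξ‖ = ‖ξ‖ :=
  norm_ext hd ξ.2 h

theorem continuous_alpha (ξ : cvec i A hA) : Continuous fun h => alpha i A hA hd h ξ :=
  (continuous_ext hd ξ.2).subtype_mk _

end bundle

end alpha

end Vale.Agent.P092.H796
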