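import Vale.Agent.P092.H796.L1
import Vale.Agent.P092.H76.Com

/-!
P092 (helper796), block A-POS: the final form.
-/

set_option linter.all false

open scoped InnerProductSpace Topology ENNReal
open Filter ContinuousLinearMap MeasureTheory
open Vale.Agent.P092.H160
open Vale.Agent.P092.H156.Sm
open Vale.Agent.P092.H650
open Vale.Agent.P092.H325 (Pos iv PosOp kp iv_ae iv_eq)
open Vale.Agent.P092.H734 (SF OrIn TrIn)

namespace Vale.Agent.P092.H796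

section one

variable {Γ Λ G H K : Type} [Group Γ] [Countable Γ] [Group Λ]
  [NormedAddCommGroup K] [InnerProductSpace ℂ K] [CompleteSpace K]
  [Group G] [TopologicalSpace G] [IsTopologicalGroup G] [SecondCountableTopology G]
  [MeasurableSpace G] [BorelSpace G]
  [Group H] [TopologicalSpace H] [IsTopologicalGroup H]
  {ρ : Γ →* (K →L[ℂ] K)} {V : Λ →* (K →L[ℂ] K)} {ω : K} {ι : Γ →* G}
  {κ : Λ →* H} {μ : Measure G} [μ.IsMulLeftInvariant]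
  {a c : G → K →L[ℂ] K}

theorem ip_cc_aa (h : Frm ρ V ω) (hc : Smo ι κ ρ V ω μ c) (ha : Smo ι κ ρ V ω μ a) :
    ip ω μ (fun x => adjoint (c x) * c x) (fun x => a x * adjoint (a x)) =
      ((nsq ω μ (fun x => c x * a x)).toReal : ℂ) := by
  have fc := hc.toFd
  have fa := ha.toFd
  have fcc : Fd ι ρ (fun x => adjoint (c x) * (c x * a x)) := (fc.adj h.reg).mul (fc.mul fa)
  have lca : L2 ω μ (fun x => c x * a x) := L2.mul_left fc.continuous fa.continuous fc.bdd ha.l2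
  have lcc : L2 ω μ (fun x => adjoint (c x) * (c x * a x)) :=
    L2.mul_left (fc.adj h.reg).continuous (fc.mul fa).continuous (fc.adj h.reg).bdd lca
  have e2 := ip_adj (μ := μ) h.reg fa fcc ha.l2 lcc
  have e1 : ip ω μ (fun x => adjoint (c x) * c x) (fun x => a x * adjoint (a x)) =
      ip ω μ (fun x => adjoint (adjoint (c x) * (c x * a x))) (fun x => adjoint (a x)) := by
    unfold ip
    refine integral_congr_ae (Eventually.of_forall fun x => ?_)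
    simp only [mul_ap, adj_mul2, adjoint_adjoint]
    rw [adjoint_inner_left, adjoint_inner_left, adjoint_inner_left]
  rw [e1, e2, ← ip_self lca]
  unfold ip
  refine integral_congr_ae (Eventually.of_forall fun x => ?_)
  simp only [mul_ap]
  rw [adjoint_inner_right]

theorem lintegral_ca [SFinite μ] (hc : Smo ι κ ρ V ω μ c) (ha : Smo ι κ ρ V ω μ a)
    (hiso : Iso μ c (nsq ω μ c)) :
    ∫⁻ z, nsq ω μ (fun x => c (x * z) * a x) ∂μ = nsq ω μ c * nsq ω μ a := by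
  unfold nsq
  have hcc : Continuous fun q : G × G => (c (q.2 * q.1) * a q.2) ω :=
    ((hc.toFd.continuous.comp (by fun_prop)).mul (ha.toFd.continuous.comp (by fun_prop))).clm_apply
      continuous_const
  have hm : AEMeasurable (Function.uncurry fun z x => ‖(c (x * z) * a x) ω‖ₑ ^ 2) (μ.prod μ) :=
    (hcc.enorm.measurable.pow_const 2).aemeasurable
  rw [lintegral_lintegral_swap hm]
  have h1 : ∀ x, ∫⁻ z, ‖(c (x * z) * a x) ω‖ₑ ^ 2 ∂μ = nsq ω μ c * ‖a x ω‖ₑ ^ 2 := by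
    intro x
    have h2 := lintegral_mul_left_eq_self (μ := μ) (fun z => ‖c z (a x ω)‖ₑ ^ 2) x
    exact h2.trans (hiso _)
  simp only [h1]
  rw [lintegral_const_mul _ ((ha.toFd.continuous_apply ω).enorm.measurable.pow_const 2)]
  rfl

theorem nsq_ne_zero [μ.IsOpenPosMeasure] (hc : Smo ι κ ρ V ω μ c) (hiso : Iso μ c (nsq ω μ c))
    (h0 : c ≠ 0) : nsq ω μ c ≠ 0 := by
  intro hn
  apply h0
  have h1 : ∀ ζ x, c x ζ = 0 := by
    intro ζ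
    have hcc := hc.toFd.continuous_apply ζ
    have h2 := hiso ζ
    rw [hn, zero_mul, lintegral_eq_zero_iff ((hcc.enorm.measurable).pow_const 2)] at h2
    have h3 : (fun x => c x ζ) =ᵐ[μ] fun _ => 0 := by
      filter_upwards [h2] with x hx
      simpa using hx
    exact fun x => congrFun (Continuous.ae_eq_iff_eq μ hcc continuous_const |>.1 h3) x
  funext x
  ext ζ
  exact h1 ζ x

end one

section two

variable {Γ Λ G₁ G₂ H₁ H₂ K : Type} [Group Γ] [Countable Γ] [Group Λ]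
  [NormedAddCommGroup K] [InnerProductSpace ℂ K] [CompleteSpace K]
  [Group G₁] [TopologicalSpace G₁] [IsTopologicalGroup G₁] [SecondCountableTopology G₁]
  [MeasurableSpace G₁] [BorelSpace G₁]
  [Group G₂] [TopologicalSpace G₂] [IsTopologicalGroup G₂] [SecondCountableTopology G₂]
  [MeasurableSpace G₂] [BorelSpace G₂]
  [Group H₁] [TopologicalSpace H₁] [IsTopologicalGroup H₁]
  [MeasurableSpace H₁] [BorelSpace H₁] [SecondCountableTopology H₁]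
  [Group H₂] [TopologicalSpace H₂] [IsTopologicalGroup H₂]
  [MeasurableSpace H₂] [BorelSpace H₂] [SecondCountableTopology H₂]
  {ρ : Γ →* (K →L[ℂ] K)} {V : Λ →* (K →L[ℂ] K)} {ω : K} {ι₁ : Γ →* G₁} {ι₂ : Γ →* G₂}
  {κ₁ : Λ →* H₁} {κ₂ : Λ →* H₂} {μ₁ : Measure G₁} {μ₂ : Measure G₂}
  [μ₁.IsMulLeftInvariant] [μ₂.IsMulLeftInvariant] [SFinite μ₁] [SFinite μ₂]
  [μ₁.IsMulRightInvariant]
  {a c : G₁ → K →L[ℂ] K}
  {b : G₂ → K →L[ℂ] K} {m : Measure (H₁ × H₂)}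

theorem pos_qq (h : TFrm ρ V ω) (hd : DenseRange κ₁) (hd₂ : DenseRange κ₂)
    (hO : ∀ a b, Smo ι₁ κ₁ ρ V ω μ₁ a → Smo ι₁ κ₁ ρ V ω μ₁ b → Ort V ω μ₁ a b)
    (hO₂ : ∀ a b, Smo ι₂ κ₂ ρ V ω μ₂ a → Smo ι₂ κ₂ ρ V ω μ₂ b → Ort V ω μ₂ a b)
    (hc : Smo ι₁ κ₁ ρ V ω μ₁ c) (hb : Smo ι₂ κ₂ ρ V ω μ₂ b) (ha : Smo ι₁ κ₁ ρ V ω μ₁ a) :
    Pos (qq κ₁ κ₂ V ω μ₁ μ₂ m b (fun x => adjoint (c x) * c x)
      (fun x => a x * adjoint (a x))) := by
  refine pos_integral (F := FF κ₁ κ₂ V ω μ₁ μ₂ b (fun x => adjoint (c x) * c x)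
      (fun x => a x * adjoint (a x))) fun g => ?_
  rw [ff_prod h hd hd₂ hO hO₂ hb hc hc ha ha g]
  exact pos_self _

/-- **(VALUE)** -/
theorem value (h : TFrm ρ V ω) (hd : DenseRange κ₁) (hd₂ : DenseRange κ₂)
    (hO : ∀ a b, Smo ι₁ κ₁ ρ V ω μ₁ a → Smo ι₁ κ₁ ρ V ω μ₁ b → Ort V ω μ₁ a b)
    (hO₂ : ∀ a b, Smo ι₂ κ₂ ρ V ω μ₂ a → Smo ι₂ κ₂ ρ V ω μ₂ b → Ort V ω μ₂ a b)
    [IsProbabilityMeasure m] (hA : Avg ι₁ κ₁ κ₂ ρ V ω μ₁ μ₂ b)
    (hb : Smo ι₂ κ₂ ρ V ω μ₂ b) (ha : Smo ι₁ κ₁ ρ V ω μ₁ a) (ha0 : nsq ω μ₁ a ≠ 0) {t : ℝ}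
    (ht : ∀ a' a, Smo ι₁ κ₁ ρ V ω μ₁ a' → Smo ι₁ κ₁ ρ V ω μ₁ a →
      qq κ₁ κ₂ V ω μ₁ μ₂ m b a' a = (t : ℂ) * ip ω μ₁ a' a) : t = (nsq ω μ₂ b).toReal := by
  have hat : nsq ω μ₁ a ≠ ⊤ := (nsq_lt_top ha.l2).ne
  have hiso := (gd_of_smo h hO ha).iso
  have hton := ton h hd hd₂ hO hO₂ hA ha hb ha (m := m)
  have lca : ∀ z, L2 ω μ₁ (fun x => a (x * z) * a x) := fun z =>
    L2.mul_left (ha.toFd.rt z).continuous ha.toFd.continuous (ha.toFd.rt z).bdd ha.l2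
  have e1 : ∀ z, qq κ₁ κ₂ V ω μ₁ μ₂ m b (fun x => adjoint (a (x * z)) * a (x * z))
      (fun x => a x * adjoint (a x)) =
      ((t * (nsq ω μ₁ (fun x => a (x * z) * a x)).toReal : ℝ) : ℂ) := by
    intro z
    rw [ht _ _ (smo_cc h.toFrm (ha.rt z)) (Smo.mul h.toFrm ha (Smo.adj h.toFrm ha)),
      ip_cc_aa h.toFrm (ha.rt z) ha]
    push_cast
    rfl
  have e2 : ∀ z, ‖qq κ₁ κ₂ V ω μ₁ μ₂ m b (fun x => adjoint (a (x * z)) * a (x * z))
      (fun x => a x * adjoint (a x))‖ₑ =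
      ENNReal.ofReal |t| * nsq ω μ₁ (fun x => a (x * z) * a x) := by
    intro z
    rw [e1 z, ← ofReal_norm_eq_enorm, Complex.norm_real, Real.norm_eq_abs, abs_mul,
      abs_of_nonneg (ENNReal.toReal_nonneg (a := nsq ω μ₁ fun x => a (x * z) * a x)),
      ENNReal.ofReal_mul (abs_nonneg t), ENNReal.ofReal_toReal (nsq_lt_top (lca z)).ne]
  simp only [e2] at hton
  rw [lintegral_const_mul' _ _ ENNReal.ofReal_ne_top, lintegral_ca ha ha hiso] at hton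
  have hne : nsq ω μ₁ a * nsq ω μ₁ a ≠ 0 := mul_ne_zero ha0 ha0
  have hnt : nsq ω μ₁ a * nsq ω μ₁ a ≠ ⊤ := ENNReal.mul_ne_top hat hat
  have e3 : ENNReal.ofReal |t| = nsq ω μ₂ b := (ENNReal.mul_left_inj hne hnt).1 hton
  have ht0 : 0 ≤ t := by
    by_contra hneg
    push Not at hneg
    have h4 : ∀ z, nsq ω μ₁ (fun x => a (x * z) * a x) = 0 := by
      intro z
      have h5 := (pos_qq h hd hd₂ hO hO₂ (ha.rt z) hb ha (m := m)).1
      rw [e1 z, Complex.ofReal_re] at h5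
      have h6 := ENNReal.toReal_nonneg (a := nsq ω μ₁ fun x => a (x * z) * a x)
      have h7 : (nsq ω μ₁ fun x => a (x * z) * a x).toReal = 0 := by nlinarith
      rcases (ENNReal.toReal_eq_zero_iff _).1 h7 with h8 | h8
      · exact h8
      · exact absurd h8 (nsq_lt_top (lca z)).ne
    have h9 := lintegral_ca ha ha hiso
    simp only [h4, lintegral_zero] at h9
    exact hne h9.symm
  rw [← e3, abs_of_nonneg ht0, ENNReal.toReal_ofReal ht0]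

end two

section final

variable {Γ Λ K G₁ G₂ H₁ H₂ : Type} [Group Γ] [Countable Γ] [Group Λ] [Countable Λ]
    [NormedAddCommGroup K] [InnerProductSpace ℂ K] [CompleteSpace K]
    [Group G₁] [TopologicalSpace G₁] [IsTopologicalGroup G₁] [LocallyCompactSpace G₁]
    [SecondCountableTopology G₁] [T2Space G₁] [MeasurableSpace G₁] [BorelSpace G₁]
    [Group G₂] [TopologicalSpace G₂] [IsTopologicalGroup G₂] [LocallyCompactSpace G₂]
    [SecondCountableTopology G₂] [T2Space G₂] [MeasurableSpace G₂] [BorelSpace G₂]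
    [Group H₁] [TopologicalSpace H₁] [IsTopologicalGroup H₁] [LocallyCompactSpace H₁]
    [SecondCountableTopology H₁] [T2Space H₁] [MeasurableSpace H₁] [BorelSpace H₁]
    [Group H₂] [TopologicalSpace H₂] [IsTopologicalGroup H₂] [LocallyCompactSpace H₂]
    [SecondCountableTopology H₂] [T2Space H₂] [MeasurableSpace H₂] [BorelSpace H₂]

/-- the properties of the integrand -/
theorem avg_of (D : PA.Pic Γ Λ K) (p₁ : Γ →* G₁) (p₂ : Γ →* G₂) (q₁ : Λ →* H₁)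
    (q₂ : Λ →* H₂) (μ₁ : Measure G₁) [μ₁.IsHaarMeasure] [μ₁.IsMulRightInvariant]
    (μ₂ : Measure G₂) [μ₂.IsHaarMeasure] [μ₂.IsMulRightInvariant]
    (hq₁ : PA.Pl q₁) (hq₂ : PA.Pl q₂) {b : G₂ → K →L[ℂ] K} (hb : PA.Smo D p₂ q₂ μ₂ b) :
    Avg p₁ q₁ q₂ D.ρ D.V D.Ω μ₁ μ₂ b := by
  have t₁ : H221.T4 p₁ q₁ D.ρ D.V D.Ω μ₁ :=
    H221.t4 D.tfrm hq₁.dense (H76.noc_open hq₁.noc)
  have t₂ : H221.T4 p₂ q₂ D.ρ D.V D.Ω μ₂ :=
    H221.t4 D.tfrm hq₂.dense (H76.noc_open hq₂.noc)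
  have hF : D.frm = D.frm := rfl
  refine ⟨fun a' a ha' ha => ?_, fun a' a ha' ha => ?_, fun a' a ha' ha v k => ?_⟩
  · exact H221.th_cont D.frm hq₁.dense hq₂.dense t₁ t₂ ha hb ha' hb
  · refine ⟨√(nsq D.Ω μ₁ a).toReal * √(nsq D.Ω μ₂ b).toReal * √(nsq D.Ω μ₁ a').toReal *
      √(nsq D.Ω μ₂ b).toReal, fun k => ?_⟩
    have h1 := H221.th_norm D.frm t₁ t₂ (smo_al D.frm hq₁.dense ha k.1)
      (smo_al D.frm hq₂.dense hb k.2) (smo_al D.frm hq₁.dense ha' k.1)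
      (smo_al D.frm hq₂.dense hb k.2)
    rw [H221.nsq_al D.frm hq₁.dense ha, H221.nsq_al D.frm hq₁.dense ha',
      H221.nsq_al D.frm hq₂.dense hb] at h1
    exact h1
  · exact H221.th_inv D.frm hq₁.dense hq₂.dense t₁ t₂ ha hb ha' hb v k

/-- **Block [A-POS].** -/
theorem apos (D : PA.Pic Γ Λ K) (p₁ : Γ →* G₁) (p₂ : Γ →* G₂) (q₁ : Λ →* H₁)
    (q₂ : Λ →* H₂) (μ₁ : Measure G₁) [μ₁.IsHaarMeasure] [μ₁.IsMulRightInvariant]
    (μ₂ : Measure G₂) [μ₂.IsHaarMeasure] [μ₂.IsMulRightInvariant] (m : Measure (H₁ × H₂))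
    (hq₁ : PA.Pl q₁) (hq₂ : PA.Pl q₂)
    (hm : PA.Lat (q₁.prod q₂) m) (hne : PA.NeS D p₁ q₁ μ₁) (hfull : PA.Full D p₁ q₁ μ₁) :
    H76.APos D p₁ p₂ q₁ q₂ μ₁ μ₂ m := by
  intro b hb S T hS hSr hT
  have hO : ∀ a b, Smo p₁ q₁ D.ρ D.V D.Ω μ₁ a → Smo p₁ q₁ D.ρ D.V D.Ω μ₁ b →
      Ort D.V D.Ω μ₁ a b := fun a b ha hb =>
    Smo.ort D.frm hq₁.dense (H76.noc_open hq₁.noc) ha hb
  have hO₂ : ∀ a b, Smo p₂ q₂ D.ρ D.V D.Ω μ₂ a → Smo p₂ q₂ D.ρ D.V D.Ω μ₂ b →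
      Ort D.V D.Ω μ₂ a b := fun a b ha hb =>
    Smo.ort D.frm hq₂.dense (H76.noc_open hq₂.noc) ha hb
  have hA := avg_of D p₁ p₂ q₁ q₂ μ₁ μ₂ hq₁ hq₂ hb
  have hHS : HS p₁ q₁ q₂ D.ρ D.V D.Ω μ₁ μ₂ m b S := by
    intro a' a ha' ha ζ' ζ f' f hf' hf
    have m1 : MemLp (fun x => a' x ζ') 2 μ₁ := (Lp.memLp f').ae_eq hf'
    have m2 : MemLp (fun x => a x ζ) 2 μ₁ := (Lp.memLp f).ae_eq hf
    have e1 : f' = m1.toLp _ := Lp.ext (hf'.trans m1.coeFn_toLp.symm)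
    have e2 : f = m2.toLp _ := Lp.ext (hf.trans m2.coeFn_toLp.symm)
    rw [e1, e2]
    exact hS a' a ha' ha ζ' ζ m1 m2
  have he : ∀ f : Lp ℂ 2 μ₁, (H35.ten μ₁ D.Ω f : G₁ → K) =ᵐ[μ₁] fun x => f x • D.Ω :=
    fun f => H35.ten_ae μ₁ D.Ω f
  obtain ⟨c, hc, hc0⟩ := hne
  have hcn : nsq D.Ω μ₁ c ≠ 0 := nsq_ne_zero hc (gd_of_smo D.tfrm hO hc).iso hc0
  have hTe : ∀ f, S (H35.ten μ₁ D.Ω f) = H35.ten μ₁ D.Ω (T f) := fun f => hT f D.Ω
  have hF : FullU p₁ q₁ D.ρ D.V D.Ω μ₁ := hfull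
  have := hm.prob
  refine ⟨posOp D.tfrm hq₁.dense hq₂.dense hO hO₂ hF hA hm hb hHS he hTe,
    fun A hA' hAμ => kp_le D.tfrm hq₁.dense hq₂.dense hO hO₂ hF hA hm hb hHS he hTe hc hcn hA' hAμ,
    fun t ht => ?_⟩
  exact value D.tfrm hq₁.dense hq₂.dense hO hO₂ hA hb hc hcn (m := m) fun a' a ha' ha =>
    ht a' a ha' ha

end final

end Vale.Agent.P092.H796
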