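import Vale.Agent.P092.H796.OppS4
import Vale.Agent.P092.SP.One2

/-!
P092 (helper796), Team P: `CollStmt`, `CollStmt'` of SP/One2 (helper142).
-/

set_option linter.all false

open scoped InnerProductSpace ENNReal LinearAlgebra.Projectivization Matrix
open Filter Topology ContinuousLinearMap MeasureTheory TopologicalSpace Module

namespace Vale.Agent.P092.H796

open Vale.Agent.P092.SP4
open Vale.Agent.P092.SP
open Vale.Agent.P092.RC (Cm Moore GG PG YY y0)
open Vale.Agent.P092.H677 (Col)

variable {k : Type} [NontriviallyNormedField k] [ProperSpace k]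

theorem collStmt [MeasurableSpace k] (μ : Measure k) : CollStmt k μ := by
  intro E Γ K _ _ _ _ _ _ w 𝒰 ι a π lam W Ω m q Ec F h cp
  have di := rel_di (R := Col on) (F := Ec) (O := fun x x' => ∀ l, on x l → ¬ on x' l) h.base.adm
    h.base.pic (fun g x y => col_smul g) h.e.cm h.e.cov h.e.pcov nm_unb_pp
    (fun v v' u u' h1 h2 => trans_opp
      (fun hp => by
        obtain ⟨l, h3, h4⟩ := col_iff.2 hp
        exact h1 l h3 h4)
      (fun hp => by
        obtain ⟨l, h3, h4⟩ := col_iff.2 hp
        exact h2 l h3 h4))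
  obtain ⟨h1, h2, h3⟩ := gq_one gq_on three_pt gq_on on_closed pgeo4 h.pl h.e.agr h.f.agr cp di
  exact ⟨h1, h2, h3⟩

theorem collStmt' [MeasurableSpace k] (μ : Measure k) : CollStmt' k μ := by
  intro E Γ K _ _ _ _ _ _ w 𝒰 ι a π lam W Ω m q Ec F h cl
  have di := rel_di (R := Col on) (F := F) (O := fun l l' => ∀ x : YY k 3, flip on l x →
      ¬ flip on l' x) h.base.adm
    h.base.pic (fun g x y => col_smul g) h.f.cm h.f.cov h.f.pcov nm_unb_ll
    (fun v v' u u' h1 h2 => trans_oppL h1 h2)
  obtain ⟨h1, h2, h3⟩ := gq_one (In := flip on) (e := F) (F := Ec) (gq_on (k := k)).dual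
    (fun x l hx => three_ln x l hx) gq_on on_closed pgeo4 (fun l c hc => pl_flip (h.pl c l hc))
    h.f.agr h.e.agr cl di
  exact ⟨h2, h1, fun c l g h => (h3 l c h g).symm⟩

end Vale.Agent.P092.H796
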