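import Vale.Agent.P092.H796.Alpha

/-!
P092 (helper796): the orthogonal projection on the continuous vectors is a weak limit of the
conjugations `A u`, when the space is the orthogonal sum of the translates `R v (cvec)`.
-/

set_option linter.all false

open scoped InnerProductSpace
open Filter Topology

namespace Vale.Agent.P092.H796

section esc

variable {Λ E : Type*} [Group Λ] [Group E] [TopologicalSpace E] (i : Λ →* E)

/-- `u → h` in `E` and `u v u⁻¹` leaves every finite set for `v ≠ 1`. -/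
def esc (h : E) : Filter Λ :=
  comap i (𝓝 h) ⊓ ⨅ P : Finset (Λ × Λ), 𝓟 {u | ∀ p ∈ P, p.1 ≠ 1 → u * p.1 * u⁻¹ ≠ p.2}

variable {i}

theorem esc_le (h : E) : esc i h ≤ comap i (𝓝 h) := inf_le_left

theorem esc_ne (h : E) {v : Λ} (hv : v ≠ 1) (w : Λ) : ∀ᶠ u in esc i h, u * v * u⁻¹ ≠ w := by
  have h1 : ∀ᶠ u in (⨅ P : Finset (Λ × Λ), 𝓟 {u : Λ | ∀ p ∈ P, p.1 ≠ 1 → u * p.1 * u⁻¹ ≠ p.2}),
      u * v * u⁻¹ ≠ w := by
    refine Filter.Eventually.filter_mono (iInf_le _ ({(v, w)} : Finset (Λ × Λ))) ?_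
    rw [eventually_principal]
    intro u hu
    exact hu (v, w) (Finset.mem_singleton_self _) hv
  exact h1.filter_mono inf_le_right

variable [IsTopologicalGroup E] [T2Space E]

theorem exists_avoid (hinj : Function.Injective i)
    (hC : ∀ v : Λ, v ≠ 1 → ¬ IsOpen ((Subgroup.centralizer {i v} : Subgroup E) : Set E))
    (P : Finset (Λ × Λ)) : ∀ W : Set E, IsOpen W → W.Nonempty → ∃ W' ⊆ W, IsOpen W' ∧
      W'.Nonempty ∧ ∀ p ∈ P, p.1 ≠ 1 → ∀ g ∈ W', g * i p.1 * g⁻¹ ≠ i p.2 := by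
  classical
  induction P using Finset.induction_on with
  | empty => exact fun W hW hn => ⟨W, le_rfl, hW, hn, fun p hp => absurd hp (Finset.notMem_empty p)⟩
  | insert p P hp ih =>
    intro W hW hn
    obtain ⟨W1, h1, h2, h3, h4⟩ := ih W hW hn
    by_cases hp1 : p.1 = 1
    · refine ⟨W1, h1, h2, h3, fun q hq hq1 => ?_⟩
      rcases Finset.mem_insert.1 hq with rfl | hq
      · exact absurd hp1 hq1
      · exact h4 q hq hq1
    · have hcl : IsClosed {g : E | g * i p.1 * g⁻¹ = i p.2} :=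
        isClosed_eq (by fun_prop) continuous_const
      by_cases hW1 : W1 ⊆ {g : E | g * i p.1 * g⁻¹ = i p.2}
      · exfalso
        obtain ⟨g0, hg0⟩ := h3
        refine hC p.1 hp1 ?_
        refine Subgroup.isOpen_of_mem_nhds _ (g := 1) ?_
        have h5 : (fun x : E => g0 * x) ⁻¹' W1 ∈ 𝓝 (1 : E) := by
          have hc : Continuous fun x : E => g0 * x := by fun_prop
          refine hc.continuousAt.preimage_mem_nhds ?_
          rw [mul_one]
          exact h2.mem_nhds hg0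
        refine mem_of_superset h5 fun x hx => ?_
        have e1 : g0 * x * i p.1 * (g0 * x)⁻¹ = i p.2 := hW1 hx
        have e2 : g0 * i p.1 * g0⁻¹ = i p.2 := hW1 hg0
        rw [SetLike.mem_coe, Subgroup.mem_centralizer_singleton_iff]
        have e3 : g0 * x * i p.1 * (g0 * x)⁻¹ = g0 * i p.1 * g0⁻¹ := e1.trans e2.symm
        have e4 : x * i p.1 * x⁻¹ = i p.1 := by
          have := congrArg (fun y => g0⁻¹ * y * g0) e3
          simpa [mul_assoc] using this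
        calc x * i p.1 = x * i p.1 * x⁻¹ * x := by group
          _ = i p.1 * x := by rw [e4]
      · obtain ⟨g, hg, hg'⟩ := Set.not_subset.1 hW1
        refine ⟨W1 ∩ {g : E | g * i p.1 * g⁻¹ = i p.2}ᶜ, Set.inter_subset_left.trans h1,
          h2.inter hcl.isOpen_compl, ⟨g, hg, hg'⟩, fun q hq hq1 x hx => ?_⟩
        rcases Finset.mem_insert.1 hq with rfl | hq
        · exact hx.2
        · exact h4 q hq hq1 x hx.1

theorem neBot_esc (hd : DenseRange i) (hinj : Function.Injective i)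
    (hC : ∀ v : Λ, v ≠ 1 → ¬ IsOpen ((Subgroup.centralizer {i v} : Subgroup E) : Set E))
    (h : E) : (esc i h).NeBot := by
  classical
  have hb : (⨅ P : Finset (Λ × Λ), 𝓟 {u : Λ | ∀ p ∈ P, p.1 ≠ 1 → u * p.1 * u⁻¹ ≠ p.2}).HasBasis
      (fun _ => True) (fun P : Finset (Λ × Λ) =>
        {u : Λ | ∀ p ∈ P, p.1 ≠ 1 → u * p.1 * u⁻¹ ≠ p.2}) := by
    refine hasBasis_iInf_principal ?_
    intro P Q
    refine ⟨P ∪ Q, fun u hu p hp => hu p (Finset.mem_union_left _ hp),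
      fun u hu p hp => hu p (Finset.mem_union_right _ hp)⟩
  unfold esc
  rw [((𝓝 h).basis_sets.comap i).inf hb |>.neBot_iff]
  rintro ⟨W, P⟩ ⟨hW, -⟩
  obtain ⟨W0, hW0, ho, hh⟩ := mem_nhds_iff.1 (show W ∈ 𝓝 h from hW)
  obtain ⟨W', h1, h2, h3, h4⟩ := exists_avoid hinj hC P W0 ho ⟨h, hh⟩
  obtain ⟨u, hu⟩ := hd.exists_mem_open h2 h3
  refine ⟨u, hW0 (h1 hu), fun p hp hp1 he => h4 p hp hp1 (i u) hu ?_⟩
  rw [← he]
  simp

end esc

section exp

variable {Λ E H : Type*} [Group Λ] [Group E] [TopologicalSpace E] [IsTopologicalGroup E]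
  [NormedAddCommGroup H] [InnerProductSpace ℂ H] [CompleteSpace H]
  {i : Λ →* E} {A : Λ →* (H →L[ℂ] H)} {hA : ∀ u ξ, ‖A u ξ‖ = ‖ξ‖}

/-- weak convergence of an isometric family can be tested on total sets -/
theorem weak_of_total {ι : Type*} {l : Filter ι} {B : ι → H → H} (hadd : ∀ a x y, B a (x + y) = B a x + B a y)
    (hsmul : ∀ a (c : ℂ) x, B a (c • x) = c • B a x) (hB : ∀ a x, ‖B a x‖ ≤ ‖x‖)
    {T : H →L[ℂ] H} {S : Set H} (hS : (Submodule.span ℂ S).topologicalClosure = ⊤)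
    (h : ∀ x ∈ S, ∀ y ∈ S, Tendsto (fun a => ⟪y, B a x⟫_ℂ) l (𝓝 ⟪y, T x⟫_ℂ)) (x y : H) :
    Tendsto (fun a => ⟪y, B a x⟫_ℂ) l (𝓝 ⟪y, T x⟫_ℂ) := by
  have hzero : ∀ a, B a 0 = 0 := fun a => by
    have := hsmul a 0 0
    simpa using this
  have hsub : ∀ a x y, B a (x - y) = B a x - B a y := fun a x y => by
    rw [sub_eq_add_neg, hadd, ← neg_one_smul ℂ y, hsmul]
    simp [sub_eq_add_neg]
  -- first variable
  have h1 : ∀ y ∈ S, ∀ x ∈ Submodule.span ℂ S, Tendsto (fun a => ⟪y, B a x⟫_ℂ) l (𝓝 ⟪y, T x⟫_ℂ) := by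
    intro y hy x hx
    induction hx using Submodule.span_induction with
    | mem x hx => exact h x hx y hy
    | zero => simp only [hzero, map_zero, inner_zero_right]; exact tendsto_const_nhds
    | add x z _ _ hx hz =>
      simp only [hadd, map_add, inner_add_right]
      exact hx.add hz
    | smul c x _ hx =>
      simp only [hsmul, map_smul, inner_smul_right]
      exact hx.const_mul c
  have h2 : ∀ x ∈ Submodule.span ℂ S, ∀ y ∈ Submodule.span ℂ S,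
      Tendsto (fun a => ⟪y, B a x⟫_ℂ) l (𝓝 ⟪y, T x⟫_ℂ) := by
    intro x hx y hy
    induction hy using Submodule.span_induction with
    | mem y hy => exact h1 y hy x hx
    | zero => simp only [inner_zero_left]; exact tendsto_const_nhds
    | add y z _ _ hy hz =>
      simp only [inner_add_left]
      exact hy.add hz
    | smul c y _ hy =>
      simp only [inner_smul_left]
      exact hy.const_mul _
  have hden : ∀ z : H, ∀ ε > 0, ∃ z' ∈ Submodule.span ℂ S, ‖z - z'‖ < ε := by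
    intro z ε hε
    have hz : z ∈ (Submodule.span ℂ S).topologicalClosure := by rw [hS]; trivial
    rw [← SetLike.mem_coe, Submodule.topologicalClosure_coe, Metric.mem_closure_iff] at hz
    obtain ⟨z', h1, h2⟩ := hz ε hε
    exact ⟨z', h1, by rwa [dist_eq_norm] at h2⟩
  rw [Metric.tendsto_nhds]
  intro ε hε
  set M : ℝ := (1 + ‖T‖) * (‖x‖ + ‖y‖ + 1) + 1 with hM
  have hMpos : 0 < M := by positivity
  obtain ⟨x', hx', hxx⟩ := hden x (min 1 (ε / (4 * M))) (by positivity)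
  obtain ⟨y', hy', hyy⟩ := hden y (min 1 (ε / (4 * M))) (by positivity)
  have hx1 : ‖x - x'‖ < 1 := hxx.trans_le (min_le_left _ _)
  have hx2 : ‖x - x'‖ < ε / (4 * M) := hxx.trans_le (min_le_right _ _)
  have hy1 : ‖y - y'‖ < 1 := hyy.trans_le (min_le_left _ _)
  have hy2 : ‖y - y'‖ < ε / (4 * M) := hyy.trans_le (min_le_right _ _)
  have hyn : ‖y'‖ ≤ ‖y‖ + 1 := by
    have := norm_sub_norm_le y' y
    rw [norm_sub_rev] at this
    linarith
  filter_upwards [Metric.tendsto_nhds.1 (h2 x' hx' y' hy') (ε / 4) (by positivity)] with a ha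
  rw [dist_eq_norm] at ha ⊢
  have e1 : ⟪y, B a x⟫_ℂ - ⟪y, T x⟫_ℂ = (⟪y', B a x'⟫_ℂ - ⟪y', T x'⟫_ℂ) + ⟪y - y', B a x⟫_ℂ +
      ⟪y', B a (x - x')⟫_ℂ - ⟪y - y', T x⟫_ℂ - ⟪y', T (x - x')⟫_ℂ := by
    rw [hsub, map_sub]
    simp only [inner_sub_left, inner_sub_right]
    ring
  rw [e1]
  have b1 : ‖⟪y - y', B a x⟫_ℂ‖ ≤ ‖y - y'‖ * ‖x‖ :=
    (norm_inner_le_norm _ _).trans (by gcongr; exact hB a x)
  have b2 : ‖⟪y', B a (x - x')⟫_ℂ‖ ≤ (‖y‖ + 1) * ‖x - x'‖ :=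
    (norm_inner_le_norm _ _).trans (by gcongr; exact hB a _)
  have b3 : ‖⟪y - y', T x⟫_ℂ‖ ≤ ‖y - y'‖ * (‖T‖ * ‖x‖) :=
    (norm_inner_le_norm _ _).trans (by gcongr; exact T.le_opNorm x)
  have b4 : ‖⟪y', T (x - x')⟫_ℂ‖ ≤ (‖y‖ + 1) * (‖T‖ * ‖x - x'‖) :=
    (norm_inner_le_norm _ _).trans (by gcongr; exact T.le_opNorm _)
  have c1 : ‖y - y'‖ * ‖x‖ + ‖y - y'‖ * (‖T‖ * ‖x‖) ≤ ε / (4 * M) * ((1 + ‖T‖) * ‖x‖) := by
    have : ‖y - y'‖ * ‖x‖ + ‖y - y'‖ * (‖T‖ * ‖x‖) = ‖y - y'‖ * ((1 + ‖T‖) * ‖x‖) := by ring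
    rw [this]; gcongr
  have c2 : (‖y‖ + 1) * ‖x - x'‖ + (‖y‖ + 1) * (‖T‖ * ‖x - x'‖) ≤
      ε / (4 * M) * ((1 + ‖T‖) * (‖y‖ + 1)) := by
    have : (‖y‖ + 1) * ‖x - x'‖ + (‖y‖ + 1) * (‖T‖ * ‖x - x'‖) =
      ‖x - x'‖ * ((1 + ‖T‖) * (‖y‖ + 1)) := by ring
    rw [this]; gcongr
  have c3 : ε / (4 * M) * ((1 + ‖T‖) * ‖x‖) + ε / (4 * M) * ((1 + ‖T‖) * (‖y‖ + 1)) ≤ ε / 4 := by
    have : ε / (4 * M) * ((1 + ‖T‖) * ‖x‖) + ε / (4 * M) * ((1 + ‖T‖) * (‖y‖ + 1)) =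
      ε / 4 * ((M - 1) / M) := by
      rw [hM]; field_simp; ring
    rw [this]
    have h3 : (M - 1) / M ≤ 1 := by rw [div_le_one hMpos]; linarith
    nlinarith
  calc _ ≤ ‖⟪y', B a x'⟫_ℂ - ⟪y', T x'⟫_ℂ‖ + ‖⟪y - y', B a x⟫_ℂ‖ + ‖⟪y', B a (x - x')⟫_ℂ‖ +
      ‖⟪y - y', T x⟫_ℂ‖ + ‖⟪y', T (x - x')⟫_ℂ‖ := by
        refine (norm_sub_le _ _).trans ?_
        gcongr
        refine (norm_sub_le _ _).trans ?_
        gcongr
        refine (norm_add_le _ _).trans ?_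
        gcongr
        exact norm_add_le _ _
    _ < ε := by linarith

variable [T2Space E] {R : Λ → (H →L[ℂ] H)}

/-- **The expectation is a weak limit of conjugations.** -/
theorem tendsto_exp (hd : DenseRange i) (hR1 : ∀ ξ, R 1 ξ = ξ)
    (hAR : ∀ u v ξ, A u (R v ξ) = R (u * v * u⁻¹) (A u ξ))
    (hO : ∀ v w, v ≠ w → ∀ ξ ∈ cvec i A hA, ∀ η ∈ cvec i A hA, ⟪R v ξ, R w η⟫_ℂ = 0)
    (htot : (Submodule.span ℂ {ζ : H | ∃ v, ∃ ξ ∈ cvec i A hA, ζ = R v ξ}).topologicalClosure = ⊤)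
    (h : E) (ξ η : H) :
    Tendsto (fun u => ⟪η, A u ξ⟫_ℂ) (esc i h)
      (𝓝 ⟪η, (alpha i A hA hd h ((cvec i A hA).orthogonalProjection ξ) : H)⟫_ℂ) := by
  have hT : ∀ ξ, ((cvec i A hA).subtypeL ∘L (alpha i A hA hd h) ∘L
      (cvec i A hA).orthogonalProjection) ξ =
      (alpha i A hA hd h ((cvec i A hA).orthogonalProjection ξ) : H) := fun ξ => rfl
  rw [← hT]
  refine weak_of_total (l := esc i h) (B := fun u x => A u x) (fun a x y => map_add _ _ _)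
    (fun a c x => map_smul _ _ _) (fun a x => (hA a x).le) htot ?_ ξ η
  rintro x ⟨v, ξ, hξ, rfl⟩ y ⟨w, η, hη, rfl⟩
  rw [hT]
  by_cases hv : v = 1
  · subst hv
    have e1 : ∀ u, A u (R 1 ξ) = A u ξ := fun u => by rw [hR1]
    have e2 : (alpha i A hA hd h ((cvec i A hA).orthogonalProjection (R 1 ξ)) : H) =
        ext i A h ξ := by
      rw [hR1, alpha_coe, Submodule.orthogonalProjection_mem_subspace_eq_self ⟨ξ, hξ⟩]
    simp only [e1, e2]
    exact (tendsto_const_nhds).inner ((ext_spec hd hξ h).mono_left (esc_le h))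
  · have e1 : (cvec i A hA).orthogonalProjection (R v ξ) = 0 := by
      rw [Submodule.orthogonalProjection_eq_zero_iff, Submodule.mem_orthogonal]
      intro ζ hζ
      have := hO 1 v (Ne.symm hv) ζ hζ ξ hξ
      rwa [hR1] at this
    rw [e1, map_zero, Submodule.coe_zero, inner_zero_right]
    refine tendsto_const_nhds.congr' ?_
    filter_upwards [esc_ne h hv w] with u hu
    rw [hAR]
    exact (hO w (u * v * u⁻¹) (Ne.symm hu) η hη _ (A_cvec u hξ)).symm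

end exp

end Vale.Agent.P092.H796
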