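import Mathlib

/-!
P092: the deterministic half of the classical leg (helper796), all `n ≥ 3`, all fields.

A relation `A a a'` between the points of two projective spaces of the same dimension `≥ 2`, which
is functional, contains the frame, is defined on the coordinate lines, preserves collinear triples
and is stable under intersection of lines, is given by a homomorphism of fields.
-/

set_option linter.all false

open scoped LinearAlgebra.Projectivization
open Projectivization

namespace Vale.Agent.P092.H796.Ftpg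

section defs

variable {k ι : Type*} [Field k]

/-- three vectors are linearly dependent -/
def Col3 (u v w : ι → k) : Prop :=
  ∃ x y z : k, (x ≠ 0 ∨ y ≠ 0 ∨ z ≠ 0) ∧ x • u + y • v + z • w = 0

/-- three points are on one line -/
def Col (a b c : ℙ k (ι → k)) : Prop := Col3 a.rep b.rep c.rep

theorem col3_smul {u v w : ι → k} {a b c : k} (ha : a ≠ 0) (hb : b ≠ 0) (hc : c ≠ 0) :
    Col3 (a • u) (b • v) (c • w) ↔ Col3 u v w := by
  constructor
  · rintro ⟨x, y, z, h, e⟩
    refine ⟨x * a, y * b, z * c, ?_, ?_⟩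
    · rcases h with h | h | h
      · exact Or.inl (mul_ne_zero h ha)
      · exact Or.inr (Or.inl (mul_ne_zero h hb))
      · exact Or.inr (Or.inr (mul_ne_zero h hc))
    · simpa [mul_smul] using e
  · rintro ⟨x, y, z, h, e⟩
    refine ⟨x * a⁻¹, y * b⁻¹, z * c⁻¹, ?_, ?_⟩
    · rcases h with h | h | h
      · exact Or.inl (mul_ne_zero h (inv_ne_zero ha))
      · exact Or.inr (Or.inl (mul_ne_zero h (inv_ne_zero hb)))
      · exact Or.inr (Or.inr (mul_ne_zero h (inv_ne_zero hc)))
    · rw [smul_smul, smul_smul, smul_smul, mul_assoc, mul_assoc, mul_assoc, inv_mul_cancel₀ ha,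
        inv_mul_cancel₀ hb, inv_mul_cancel₀ hc, mul_one, mul_one, mul_one]
      exact e

theorem col_mk {u v w : ι → k} (hu : u ≠ 0) (hv : v ≠ 0) (hw : w ≠ 0) :
    Col (mk k u hu) (mk k v hv) (mk k w hw) ↔ Col3 u v w := by
  obtain ⟨a, ha⟩ := exists_smul_eq_mk_rep k u hu
  obtain ⟨b, hb⟩ := exists_smul_eq_mk_rep k v hv
  obtain ⟨c, hc⟩ := exists_smul_eq_mk_rep k w hw
  unfold Col
  rw [← ha, ← hb, ← hc]
  exact col3_smul a.ne_zero b.ne_zero c.ne_zero

end defs

section gen

variable {F ι : Type*} [Field F] [DecidableEq ι]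

theorem gen1 (w : ι → F) (x : ι) : Col3 (Function.update w x 0) (Pi.single x 1) w := by
  refine ⟨1, w x, -1, Or.inl one_ne_zero, ?_⟩
  funext y
  by_cases hyx : y = x
  · subst hyx; simp
  · simp [hyx]

theorem gen2 (w : ι → F) (x : ι) : Col3 (Pi.single x 1) (Function.update w x 0) w := by
  refine ⟨w x, 1, -1, Or.inr (Or.inl one_ne_zero), ?_⟩
  funext y
  by_cases hyx : y = x
  · subst hyx; simp
  · simp [hyx]

theorem gen3 {i j l : ι} (w : ι → F) (hj : j ≠ i) (hl : l ≠ i) (hjl : j ≠ l) (hw : w i = 1) :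
    ¬ Col3 (Function.update w j 0) (Pi.single j 1) (Pi.single l 1) := by
  rintro ⟨x, y, z, h, e⟩
  have hx : x = 0 := by
    have := congrFun e i
    simpa [Pi.single_apply, hj.symm, hl.symm, hw] using this
  subst hx
  have hy : y = 0 := by
    have := congrFun e j
    simpa [Pi.single_apply, hjl] using this
  subst hy
  have hz : z = 0 := by
    have := congrFun e l
    simpa using this
  subst hz
  simp at h

theorem gen4 {i l : ι} (w : ι → F) (hl : l ≠ i) (hw : w i = 1) :
    ¬ ∃ a : F, a • (Function.update w l 0) = Pi.single l 1 := by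
  rintro ⟨a, ha⟩
  have h1 := congrFun ha i
  have h2 := congrFun ha l
  simp [Pi.single_apply, hl.symm, hw] at h1 h2

end gen

variable {k k' ι : Type*} [Field k] [Field k'] [Fintype ι] [DecidableEq ι]

/-- The hypotheses. `A a a'`: the random collineation `z` satisfies `z_a = g • a'`. -/
structure Lin (A : ℙ k (ι → k) → ℙ k' (ι → k') → Prop) : Prop where
  fr : ∀ i, ∀ h h', A (mk k (Pi.single i 1) h) (mk k' (Pi.single i 1) h')
  fr1 : ∀ h h', A (mk k (fun _ => 1) h) (mk k' (fun _ => 1) h')
  fn : ∀ a b c, A a b → A a c → b = c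
  line : ∀ i j, i ≠ j → ∀ t : k, ∃ s : k', ∀ h h',
    A (mk k (Pi.single i 1 + Pi.single j t) h) (mk k' (Pi.single i 1 + Pi.single j s) h')
  col : ∀ a b c a' b' c', A a a' → A b b' → A c c' → Col a b c → Col a' b' c'
  join : ∀ a b c d p a' b' c' d' p', A a a' → A b b' → A c c' → A d d' →
    Col a b p → Col c d p → ¬ Col a b c → c ≠ d →
    Col a' b' p' → Col c' d' p' → ¬ Col a' b' c' → c' ≠ d' → A p p'

/-- the relation on vectors -/
def R (A : ℙ k (ι → k) → ℙ k' (ι → k') → Prop) (v : ι → k) (v' : ι → k') : Prop :=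
  ∃ (h : v ≠ 0) (h' : v' ≠ 0), A (mk k v h) (mk k' v' h')

theorem ne_of_coord {k ι : Type*} [Field k] {v : ι → k} (i : ι) (h : v i = 1) : v ≠ 0 := by
  intro e
  rw [e] at h
  exact one_ne_zero h.symm

section

variable {A : ℙ k (ι → k) → ℙ k' (ι → k') → Prop} (hA : Lin A)

include hA

theorem R_fr (i : ι) : R A (Pi.single i 1) (Pi.single i 1) :=
  ⟨ne_of_coord i (by simp), ne_of_coord i (by simp), hA.fr i _ _⟩

theorem R_fr1 [Nonempty ι] : R A (fun _ => 1) (fun _ => 1) :=
  ⟨ne_of_coord (Classical.arbitrary ι) rfl, ne_of_coord (Classical.arbitrary ι) rfl, hA.fr1 _ _⟩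

theorem R_fn {v : ι → k} {w w' : ι → k'} (h : R A v w) (h' : R A v w') :
    ∃ c : k', c • w = w' := by
  obtain ⟨h1, h2, h3⟩ := h
  obtain ⟨h1', h2', h3'⟩ := h'
  have := hA.fn _ _ _ h3' h3
  rw [mk_eq_mk_iff'] at this
  exact this

theorem R_line {i j : ι} (hij : i ≠ j) (t : k) :
    ∃ s : k', R A (Pi.single i 1 + Pi.single j t) (Pi.single i 1 + Pi.single j s) := by
  obtain ⟨s, hs⟩ := hA.line i j hij t
  refine ⟨s, ne_of_coord i ?_, ne_of_coord i ?_, hs _ _⟩
  · simp [Pi.single_apply, hij]
  · simp [Pi.single_apply, hij]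

theorem R_col {u v w : ι → k} {u' v' w' : ι → k'} (hu : R A u u') (hv : R A v v')
    (hw : R A w w') (h : Col3 u v w) : Col3 u' v' w' := by
  obtain ⟨a1, a2, a3⟩ := hu
  obtain ⟨b1, b2, b3⟩ := hv
  obtain ⟨c1, c2, c3⟩ := hw
  rw [← col_mk a2 b2 c2]
  exact hA.col _ _ _ _ _ _ a3 b3 c3 ((col_mk a1 b1 c1).2 h)

theorem R_join {u v w d p : ι → k} {u' v' w' d' p' : ι → k'} (hu : R A u u') (hv : R A v v')
    (hw : R A w w') (hd : R A d d') (hp : p ≠ 0) (hp' : p' ≠ 0)
    (h1 : Col3 u v p) (h2 : Col3 w d p) (h3 : ¬ Col3 u v w) (h4 : ¬ ∃ a : k, a • d = w)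
    (h1' : Col3 u' v' p') (h2' : Col3 w' d' p') (h3' : ¬ Col3 u' v' w')
    (h4' : ¬ ∃ a : k', a • d' = w') : R A p p' := by
  obtain ⟨a1, a2, a3⟩ := hu
  obtain ⟨b1, b2, b3⟩ := hv
  obtain ⟨c1, c2, c3⟩ := hw
  obtain ⟨e1, e2, e3⟩ := hd
  refine ⟨hp, hp', hA.join _ _ _ _ _ _ _ _ _ _ a3 b3 c3 e3 ((col_mk _ _ _).2 h1)
    ((col_mk _ _ _).2 h2) (fun h => h3 ((col_mk _ _ _).1 h)) ?_ ((col_mk _ _ _).2 h1')
    ((col_mk _ _ _).2 h2') (fun h => h3' ((col_mk _ _ _).1 h)) ?_⟩
  · intro h
    rw [mk_eq_mk_iff'] at h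
    exact h4 h
  · intro h
    rw [mk_eq_mk_iff'] at h
    exact h4' h

omit hA in
/-- the value on the coordinate lines -/
noncomputable def sg (hA : Lin A) (i j : ι) (t : k) : k' :=
  if h : i ≠ j then (R_line hA h t).choose else 0

theorem sg_spec {i j : ι} (hij : i ≠ j) (t : k) :
    R A (Pi.single i 1 + Pi.single j t) (Pi.single i 1 + Pi.single j (sg hA i j t)) := by
  unfold sg
  rw [dif_pos hij]
  exact (R_line hA hij t).choose_spec

theorem sg_zero {i j : ι} (hij : i ≠ j) : sg hA i j 0 = 0 := by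
  have h := sg_spec hA hij 0
  rw [Pi.single_zero, add_zero] at h
  obtain ⟨c, hc⟩ := R_fn hA (R_fr hA i) h
  have := congrFun hc j
  simpa [Pi.single_apply, hij, hij.symm] using this.symm

omit hA in
/-- the image of a vector with `v i = 1` -/
noncomputable def im (hA : Lin A) (i : ι) (v : ι → k) : ι → k' :=
  fun j => if j = i then 1 else sg hA i j (v j)

theorem im_self (i : ι) (v : ι → k) : im hA i v i = 1 := by simp [im]

theorem im_ne {i j : ι} (h : j ≠ i) (v : ι → k) : im hA i v j = sg hA i j (v j) := by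
  simp [im, h]

/-- the relation contains `(v, im i v)` -/
theorem R_im (i : ι) (v : ι → k) (hv : v i = 1) : R A v (im hA i v) := by
  classical
  suffices H : ∀ m : ℕ, ∀ v : ι → k, v i = 1 →
      (Finset.univ.filter (fun j => j ≠ i ∧ v j ≠ 0)).card = m → R A v (im hA i v) from
    H _ v hv rfl
  intro m
  induction m using Nat.strong_induction_on with
  | _ m ih =>
    intro v hv hm
    set T := Finset.univ.filter (fun j => j ≠ i ∧ v j ≠ 0) with hT
    by_cases h2 : 1 < T.card
    · obtain ⟨j, hj, l, hl, hjl⟩ := Finset.one_lt_card.1 h2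
      have hj' : j ≠ i ∧ v j ≠ 0 := by simpa [hT] using hj
      have hl' : l ≠ i ∧ v l ≠ 0 := by simpa [hT] using hl
      have key : ∀ x, x ∈ T → x ≠ i → R A (Function.update v x 0) (im hA i (Function.update v x 0))
          ∧ im hA i (Function.update v x 0) = Function.update (im hA i v) x 0 := by
        intro x hx hxi
        refine ⟨ih _ ?_ _ ?_ rfl, ?_⟩
        · rw [← hm]
          apply Finset.card_lt_card
          constructor
          · intro y hy
            simp only [Finset.mem_filter, Finset.mem_univ, true_and, hT] at hy ⊢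
            refine ⟨hy.1, ?_⟩
            intro h0
            apply hy.2
            by_cases hyx : y = x
            · subst hyx; simp
            · rw [Function.update_of_ne hyx, h0]
          · intro hsub
            have := hsub hx
            simp at this
        · rw [Function.update_of_ne (Ne.symm hxi), hv]
        · funext y
          by_cases hyx : y = x
          · subst hyx
            rw [Function.update_self, im_ne hA hxi, Function.update_self, sg_zero hA hxi.symm]
          · rw [Function.update_of_ne hyx]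
            by_cases hyi : y = i
            · subst hyi; rw [im_self, im_self]
            · rw [im_ne hA hyi, im_ne hA hyi, Function.update_of_ne hyx]
      obtain ⟨k1, e1⟩ := key j hj hj'.1
      obtain ⟨k2, e2⟩ := key l hl hl'.1
      rw [e1] at k1
      rw [e2] at k2
      exact R_join hA k1 (R_fr hA j) (R_fr hA l) k2 (ne_of_coord i hv)
        (ne_of_coord i (im_self hA i v)) (gen1 v j) (gen2 v l) (gen3 v hj'.1 hl'.1 hjl hv)
        (gen4 v hl'.1 hv) (gen1 _ j) (gen2 _ l) (gen3 _ hj'.1 hl'.1 hjl (im_self hA i v))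
        (gen4 _ hl'.1 (im_self hA i v))
    · have h1 : T.card = 0 ∨ T.card = 1 := by omega
      rcases h1 with h1 | h1
      · have h0 : ∀ j, j ≠ i → v j = 0 := by
          intro j hj
          by_contra hne
          have : j ∈ T := by simp [hT, hj, hne]
          rw [Finset.card_eq_zero.1 h1] at this
          simp at this
        have e1 : v = Pi.single i 1 := by
          funext j
          by_cases hj : j = i
          · subst hj; simp [hv]
          · simp [hj, h0 j hj]
        have e2 : im hA i v = Pi.single i 1 := by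
          funext j
          by_cases hj : j = i
          · subst hj; simp [im_self]
          · rw [im_ne hA hj, h0 j hj, sg_zero hA (Ne.symm hj)]; simp [hj]
        rw [e2, e1]
        exact R_fr hA i
      · obtain ⟨j, hj⟩ := Finset.card_eq_one.1 h1
        have hj' : j ≠ i ∧ v j ≠ 0 := by
          have : j ∈ T := by rw [hj]; simp
          simpa [hT] using this
        have h0 : ∀ l, l ≠ i → l ≠ j → v l = 0 := by
          intro l hl hlj
          by_contra hne
          have : l ∈ T := by simp [hT, hl, hne]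
          rw [hj] at this
          exact hlj (by simpa using this)
        have e1 : v = Pi.single i 1 + Pi.single j (v j) := by
          funext l
          by_cases hl : l = i
          · subst hl; simp [hv, hj'.1, Pi.single_apply, Ne.symm hj'.1]
          · by_cases hlj : l = j
            · subst hlj; simp [hl]
            · simp [hl, hlj, h0 l hl hlj]
        have e2 : im hA i v = Pi.single i 1 + Pi.single j (sg hA i j (v j)) := by
          funext l
          by_cases hl : l = i
          · subst hl; simp [im_self, hj'.1, Pi.single_apply, Ne.symm hj'.1]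
          · rw [im_ne hA hl]
            by_cases hlj : l = j
            · subst hlj; simp [hl]
            · simp [hl, hlj, h0 l hl hlj, sg_zero hA (Ne.symm hl)]
        rw [e2]
        have := sg_spec hA hj'.1.symm (v j)
        rw [← e1] at this
        exact this

/-- comparison of the two normalisations -/
theorem im_im {i j : ι} (hij : i ≠ j) (v : ι → k) (hi : v i ≠ 0) (hj : v j ≠ 0) :
    ∃ c : k', c • im hA i ((v i)⁻¹ • v) = im hA j ((v j)⁻¹ • v) := by
  have h1 : R A ((v i)⁻¹ • v) (im hA i ((v i)⁻¹ • v)) := R_im hA i _ (by simp [hi])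
  have h2 : R A ((v j)⁻¹ • v) (im hA j ((v j)⁻¹ • v)) := R_im hA j _ (by simp [hj])
  obtain ⟨a1, a2, a3⟩ := h1
  obtain ⟨b1, b2, b3⟩ := h2
  have e : mk k ((v i)⁻¹ • v) a1 = mk k ((v j)⁻¹ • v) b1 := by
    rw [mk_eq_mk_iff']
    refine ⟨(v i)⁻¹ * v j, ?_⟩
    rw [smul_smul, mul_assoc, mul_inv_cancel₀ hj, mul_one]
  rw [e] at a3
  have := hA.fn _ _ _ b3 a3
  rw [mk_eq_mk_iff'] at this
  exact this

theorem sg_one {i j : ι} (hij : i ≠ j) : sg hA i j 1 = 1 := by
  haveI : Nonempty ι := ⟨i⟩
  have h := R_im hA i (fun _ => 1) rfl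
  obtain ⟨c, hc⟩ := R_fn hA (R_fr1 hA) h
  have h1 := congrFun hc i
  have h2 := congrFun hc j
  rw [im_self] at h1
  rw [im_ne hA hij.symm] at h2
  simp at h1 h2
  rw [← h2, h1]

/-- the cocycle: `σ_ji(1/s) σ_ij(s) = 1` and `σ_ji(1/s) σ_il(t) = σ_jl(t/s)` -/
theorem cocycle {i j l : ι} (hij : i ≠ j) (hil : i ≠ l) (hjl : j ≠ l) {s : k} (hs : s ≠ 0)
    (t : k) : sg hA j i s⁻¹ * sg hA i j s = 1 ∧
      sg hA j i s⁻¹ * sg hA i l t = sg hA j l (s⁻¹ * t) := by
  obtain ⟨c, hc⟩ := im_im hA hij (Pi.single i 1 + Pi.single j s + Pi.single l t : ι → k)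
    (by simp [Pi.single_apply, hij, hil]) (by simp [Pi.single_apply, hij.symm, hjl, hs])
  have h1 := congrFun hc i
  have h2 := congrFun hc j
  have h3 := congrFun hc l
  simp only [Pi.smul_apply, smul_eq_mul] at h1 h2 h3
  rw [im_self, im_ne hA hij] at h1
  rw [im_self, im_ne hA hij.symm] at h2
  rw [im_ne hA hil.symm, im_ne hA hjl.symm] at h3
  simp [Pi.single_apply, hij, hil, hjl, hij.symm, hil.symm, hjl.symm] at h1 h2 h3
  rw [← h1]
  exact ⟨h2, h3⟩

theorem sg_left {i j l : ι} (hij : i ≠ j) (hil : i ≠ l) (hjl : j ≠ l) (t : k) :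
    sg hA i l t = sg hA j l t := by
  have h := (cocycle hA hij hil hjl one_ne_zero t).2
  rwa [inv_one, sg_one hA hij.symm, one_mul, one_mul] at h

theorem sg_right {i j l : ι} (hij : i ≠ j) (hil : i ≠ l) (hjl : j ≠ l) (t : k) :
    sg hA i l t = sg hA l i t := by
  by_cases ht : t = 0
  · subst ht
    rw [sg_zero hA hil, sg_zero hA hil.symm]
  -- `σ_i(1/s) σ_l(1) = σ_l(1/s)`
  have h := (cocycle hA hij hil hjl (s := t⁻¹) (inv_ne_zero ht) 1).2
  rw [inv_inv, mul_one, sg_one hA hil, mul_one] at h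
  rw [sg_left hA hij hil hjl, ← h]
  exact sg_left hA hjl hij.symm hil.symm t

theorem sg_const (h3 : ∀ a b : ι, ∃ c, c ≠ a ∧ c ≠ b) {a b c d : ι} (hab : a ≠ b) (hcd : c ≠ d)
    (t : k) : sg hA a b t = sg hA c d t := by
  have L : ∀ {a b c : ι}, a ≠ b → c ≠ b → sg hA a b t = sg hA c b t := by
    intro a b c h1 h2
    by_cases h : a = c
    · rw [h]
    · exact sg_left hA h h1 h2 t
  have S : ∀ {a b : ι}, a ≠ b → sg hA a b t = sg hA b a t := by
    intro a b h
    obtain ⟨e, h1, h2⟩ := h3 a b
    exact sg_right hA h1.symm h h2 t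
  by_cases h : b = d
  · subst h
    exact L hab hcd
  · rw [L hab (Ne.symm h), S (Ne.symm h)]
    exact L h hcd

theorem sg_mul (h3 : ∀ a b : ι, ∃ c, c ≠ a ∧ c ≠ b) {a b : ι} (hab : a ≠ b) (s t : k) :
    sg hA a b (s * t) = sg hA a b s * sg hA a b t := by
  by_cases hs : s = 0
  · subst hs
    rw [zero_mul, sg_zero hA hab, zero_mul]
  obtain ⟨c, h1, h2⟩ := h3 a b
  have h := (cocycle hA hab h1.symm h2.symm (s := s⁻¹) (inv_ne_zero hs) t).2
  rw [inv_inv] at h
  rw [sg_const hA h3 hab h2.symm, ← h, sg_const hA h3 hab hab.symm s, sg_const hA h3 hab h1.symm t]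

theorem sg_add (h3 : ∀ a b : ι, ∃ c, c ≠ a ∧ c ≠ b) {a b : ι} (hab : a ≠ b) (s t : k) :
    sg hA a b (s + t) = sg hA a b s + sg hA a b t := by
  obtain ⟨c, h1, h2⟩ := h3 a b
  -- `e_a + s e_c`, `e_b + t e_c`, `e_a + e_b + (s + t) e_c`
  have r1 := sg_spec hA h1.symm s
  have r2 := sg_spec hA h2.symm t
  have r3 : R A (Pi.single a 1 + Pi.single b 1 + Pi.single c (s + t) : ι → k) _ :=
    R_im hA a (Pi.single a 1 + Pi.single b 1 + Pi.single c (s + t)) (by
      simp [Pi.single_apply, hab, hab.symm, h1, h1.symm])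
  have hc : Col3 (Pi.single a 1 + Pi.single c s : ι → k) (Pi.single b 1 + Pi.single c t)
      (Pi.single a 1 + Pi.single b 1 + Pi.single c (s + t)) := by
    refine ⟨1, 1, -1, Or.inl one_ne_zero, ?_⟩
    rw [Pi.single_add]
    module
  obtain ⟨x, y, z, h, e⟩ := R_col hA r1 r2 r3 hc
  have ea := congrFun e a
  have eb := congrFun e b
  have ec := congrFun e c
  simp only [Pi.add_apply, Pi.smul_apply, smul_eq_mul, Pi.zero_apply] at ea eb ec
  rw [im_self] at ea
  rw [im_ne hA hab.symm] at eb
  rw [im_ne hA h1] at ec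
  simp [Pi.single_apply, hab, hab.symm, h1, h1.symm, h2, h2.symm, sg_one hA hab] at ea eb ec
  rw [sg_const hA h3 hab h1.symm (s + t), sg_const hA h3 hab h1.symm s,
    sg_const hA h3 hab h2.symm t]
  have hx : x = -z := by linear_combination ea
  have hy : y = -z := by linear_combination eb
  have hz : z ≠ 0 := by
    intro hz
    rw [hz, neg_zero] at hx hy
    simp [hx, hy, hz] at h
  have : z * (sg hA a c (s + t) - (sg hA a c s + sg hA b c t)) = 0 := by
    rw [hx, hy] at ec
    linear_combination ec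
  have := (mul_eq_zero.1 this).resolve_left hz
  exact sub_eq_zero.1 this

/-- **the fundamental theorem for relations**: `A` is given by a homomorphism of fields -/
theorem ftpg (h3 : 3 ≤ Fintype.card ι) :
    ∃ σ : k →+* k', ∀ (v : ι → k) (h : v ≠ 0) (h' : (fun i => σ (v i)) ≠ 0),
      A (mk k v h) (mk k' (fun i => σ (v i)) h') := by
  have h3' : ∀ a b : ι, ∃ c, c ≠ a ∧ c ≠ b := by
    intro a b
    by_contra hn
    push Not at hn
    have : (Finset.univ : Finset ι) ⊆ {a, b} := by
      intro c _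
      by_cases hc : c = a
      · simp [hc]
      · simp [hn c hc]
    have h := Finset.card_le_card this
    rw [Finset.card_univ] at h
    have h' := Finset.card_le_two (a := a) (b := b)
    omega
  haveI : Nonempty ι := Fintype.card_pos_iff.1 (by omega)
  obtain ⟨a⟩ := this
  obtain ⟨b, hba, _⟩ := h3' a a
  have hab : a ≠ b := hba.symm
  refine ⟨{ toFun := fun t => sg hA a b t
            map_one' := sg_one hA hab
            map_mul' := sg_mul hA h3' hab
            map_zero' := sg_zero hA hab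
            map_add' := sg_add hA h3' hab }, ?_⟩
  intro v h h'
  obtain ⟨i, hi⟩ : ∃ i, v i ≠ 0 := by
    by_contra hn
    push Not at hn
    exact h (funext hn)
  have r := R_im hA i ((v i)⁻¹ • v) (by simp [hi])
  obtain ⟨r1, r2, r3⟩ := r
  have e1 : mk k ((v i)⁻¹ • v) r1 = mk k v h := by
    rw [mk_eq_mk_iff']
    exact ⟨(v i)⁻¹, rfl⟩
  rw [e1] at r3
  convert r3 using 1
  rw [mk_eq_mk_iff']
  refine ⟨sg hA a b (v i), ?_⟩
  funext j
  by_cases hj : j = i
  · subst hj
    simp [im_self]
  · simp only [Pi.smul_apply, smul_eq_mul, im_ne hA hj]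
    change sg hA a b (v i) * sg hA i j ((v i)⁻¹ * v j) = sg hA a b (v j)
    rw [sg_const hA h3' (Ne.symm hj) hab, ← sg_mul hA h3' hab, ← mul_assoc,
      mul_inv_cancel₀ hi, one_mul]

end

end Vale.Agent.P092.H796.Ftpg
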