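import Vale.Agent.P092.H796.Ton

/-!
P092 (helper796), block A-POS: the bound in `L¹`.
-/

set_option linter.all false

open scoped InnerProductSpace Topology ENNReal
open Filter ContinuousLinearMap MeasureTheory
open Vale.Agent.P092.H160
open Vale.Agent.P092.H156.Sm
open Vale.Agent.P092.H650
open Vale.Agent.P092.H325 (Pos iv PosOp kp iv_ae iv_eq)
open Vale.Agent.P092.H734 (SF OrIn TrIn)

namespace Vale.Agent.P092.H796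

section one

variable {Γ Λ G H K : Type} [Group Γ] [Countable Γ] [Group Λ]
  [NormedAddCommGroup K] [InnerProductSpace ℂ K] [CompleteSpace K]
  [Group G] [TopologicalSpace G] [IsTopologicalGroup G] [SecondCountableTopology G]
  [MeasurableSpace G] [BorelSpace G]
  [Group H] [TopologicalSpace H] [IsTopologicalGroup H]
  {ρ : Γ →* (K →L[ℂ] K)} {V : Λ →* (K →L[ℂ] K)} {ω : K} {ι : Γ →* G}
  {κ : Λ →* H} {μ : Measure G} [μ.IsMulLeftInvariant]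
  {e : Lp ℂ 2 μ →L[ℂ] Lp K 2 μ} {c : G → K →L[ℂ] K}

theorem smo_cc (h : Frm ρ V ω) (hc : Smo ι κ ρ V ω μ c) :
    Smo ι κ ρ V ω μ (fun x => adjoint (c x) * c x) := Smo.mul h (Smo.adj h hc) hc

/-- the pairing with a nonnegative function -/
theorem enorm_inner_cz [μ.IsMulRightInvariant] (h : Frm ρ V ω)
    (he : ∀ f : Lp ℂ 2 μ, (e f : G → K) =ᵐ[μ] fun x => f x • ω)
    (hc : Smo ι κ ρ V ω μ c) {w : Lp ℂ 2 μ} (hw : ∀ᵐ x ∂μ, Pos (w x)) (z : G) :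
    ‖⟪vec (smo_rt (smo_cc h hc) z), e w⟫_ℂ‖ₑ = ∫⁻ x, ‖w x‖ₑ * ‖c (x * z) ω‖ₑ ^ 2 ∂μ := by
  have hm := (smo_rt (smo_cc h hc) z).l2.coeFn_toLp
  have h0 : (fun x => ⟪(vec (smo_rt (smo_cc h hc) z) : G → K) x, (e w : G → K) x⟫_ℂ) =ᵐ[μ]
      fun x => ((‖w x‖ * ‖c (x * z) ω‖ ^ 2 : ℝ) : ℂ) := by
    filter_upwards [hm, he w, hw] with x e1 e2 e3
    have e1' : (vec (smo_rt (smo_cc h hc) z) : G → K) x =
        (adjoint (c (x * z)) * c (x * z)) ω := e1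
    rw [e1', e2, inner_smul_right, mul_ap, adjoint_inner_left, inner_self_eq_norm_sq_to_K]
    conv_lhs => rw [e3.eq]
    push_cast
    rfl
  have h1 : ⟪vec (smo_rt (smo_cc h hc) z), e w⟫_ℂ =
      ((∫ x, (‖w x‖ * ‖c (x * z) ω‖ ^ 2) ∂μ : ℝ) : ℂ) := by
    rw [L2.inner_def, ← integral_complex_ofReal]
    exact integral_congr_ae h0
  have hint : Integrable (fun x => ‖w x‖ * ‖c (x * z) ω‖ ^ 2) μ := by
    have h2 := (L2.integrable_inner (𝕜 := ℂ) (vec (smo_rt (smo_cc h hc) z)) (e w)).congr h0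
    have h3 := h2.re
    refine h3.congr (Eventually.of_forall fun x => ?_)
    exact Complex.ofReal_re _
  rw [h1, ← ofReal_norm_eq_enorm, Complex.norm_real, Real.norm_of_nonneg
    (integral_nonneg fun x => by positivity), ofReal_integral_eq_lintegral_ofReal hint
    (Eventually.of_forall fun x => by positivity)]
  refine lintegral_congr fun x => ?_
  rw [ENNReal.ofReal_mul (norm_nonneg _), ofReal_norm_eq_enorm, ENNReal.ofReal_pow (norm_nonneg _),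
    ofReal_norm_eq_enorm]

theorem lintegral_cz [SFinite μ] (hc : Fd ι ρ c) (w : Lp ℂ 2 μ) :
    ∫⁻ z, ∫⁻ x, ‖w x‖ₑ * ‖c (x * z) ω‖ₑ ^ 2 ∂μ ∂μ = (∫⁻ x, ‖w x‖ₑ ∂μ) * nsq ω μ c := by
  have hw : AEMeasurable (fun x => ‖w x‖ₑ) μ := (Lp.aestronglyMeasurable w).enorm
  have hcc : Continuous fun q : G × G => c (q.2 * q.1) ω :=
    (hc.continuous.comp (by fun_prop)).clm_apply continuous_const
  have hm1 : AEMeasurable (fun q : G × G => ‖w q.2‖ₑ) (μ.prod μ) := hw.comp_snd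
  have hm2 : AEMeasurable (fun q : G × G => ‖c (q.2 * q.1) ω‖ₑ ^ 2) (μ.prod μ) :=
    (hcc.enorm.measurable.pow_const 2).aemeasurable
  have hm : AEMeasurable (Function.uncurry fun z x => ‖w x‖ₑ * ‖c (x * z) ω‖ₑ ^ 2) (μ.prod μ) :=
    hm1.mul hm2
  rw [lintegral_lintegral_swap hm]
  have h1 : ∀ x, ∫⁻ z, ‖w x‖ₑ * ‖c (x * z) ω‖ₑ ^ 2 ∂μ = ‖w x‖ₑ * nsq ω μ c := by
    intro x
    have h2 : Measurable fun z => ‖c (x * z) ω‖ₑ ^ 2 :=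
      ((hcc.comp (f := fun z : G => (z, x)) (by fun_prop)).enorm.measurable).pow_const 2
    rw [lintegral_const_mul _ h2]
    congr 1
    exact lintegral_mul_left_eq_self (fun z => ‖c z ω‖ₑ ^ 2) x
  simp only [h1]
  rw [lintegral_mul_const'' _ hw]

/-- the norm of the vector `x ω`, `x` in the span -/
theorem norm_sq_rep (h : TFrm ρ V ω)
    (hO : ∀ a b, Smo ι κ ρ V ω μ a → Smo ι κ ρ V ω μ b → Ort V ω μ a b)
    {F : Finset Λ} {a : Λ → G → K →L[ℂ] K} (ha : ∀ v, Smo ι κ ρ V ω μ (a v))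
    {x : G → K →L[ℂ] K} (hx : ∀ g, x g = ∑ v ∈ F, a v g * V v) {X : Lp K 2 μ}
    (hX : (X : G → K) =ᵐ[μ] fun g => x g ω) :
    ENNReal.ofReal (‖X‖ ^ 2) = ∑ v ∈ F, nsq ω μ (a v) := by
  classical
  have e1 : X = ∑ v ∈ F, ef h hO (ha v) (V v ω) := by
    apply Lp.ext
    refine hX.trans ?_
    refine Filter.EventuallyEq.symm ?_
    refine (sum_ae F _ _ fun v _ => ef_ae h hO _ _).trans ?_
    refine Eventually.of_forall fun g => ?_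
    simp only [hx g, sum_apply, mul_ap]
  have e2 : ∀ v w, ⟪ef h hO (ha v) (V v ω), ef h hO (ha w) (V w ω)⟫_ℂ =
      ip ω μ (a v) (a w) * ⟪V v ω, V w ω⟫_ℂ := by
    intro v w
    have h1 := integral_apply h (ha v).toFd (ha w).toFd (ha v).l2 (ha w).l2
      (hO _ _ (ha v) (ha v)) (hO _ _ (ha w) (ha w)) (hO _ _ (ha v) (ha w)) (V v ω) (V w ω)
    rw [← h1]
    exact (integral_inner_toLp _ _).symm
  have e3 : ((‖X‖ ^ 2 : ℝ) : ℂ) = ((∑ v ∈ F, (nsq ω μ (a v)).toReal : ℝ) : ℂ) := by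
    have h1 : ((‖X‖ ^ 2 : ℝ) : ℂ) = ⟪X, X⟫_ℂ := by
      rw [inner_self_eq_norm_sq_to_K]; norm_cast
    rw [h1]
    conv_lhs => rw [e1, sum_inner]
    simp only [inner_sum, e2]
    rw [Complex.ofReal_sum]
    refine Finset.sum_congr rfl fun v hv => ?_
    rw [Finset.sum_eq_single v]
    · rw [ip_self (ha v).l2, inner_self_eq_norm_sq_to_K, h.toFrm.norm_map, h.toFrm.norm_omega]
      simp
    · intro w _ hw
      rw [h.toFrm.orthonormal.2 hw.symm, mul_zero]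
    · intro h9
      exact absurd hv h9
  have e4 : ‖X‖ ^ 2 = ∑ v ∈ F, (nsq ω μ (a v)).toReal := Complex.ofReal_injective e3
  rw [e4, ENNReal.ofReal_sum_of_nonneg fun v _ => ENNReal.toReal_nonneg]
  refine Finset.sum_congr rfl fun v _ => ?_
  rw [ENNReal.ofReal_toReal (nsq_lt_top (ha v).l2).ne]

theorem norm_iv_sq {A : Set G} (hA : MeasurableSet A) (hμ : μ A ≠ ⊤) :
    ENNReal.ofReal (‖iv μ A‖ ^ 2) = μ A := by
  rw [iv_eq μ hA hμ, norm_indicatorConstLp (by norm_num) (by norm_num)]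
  have h1 : (‖(1 : ℂ)‖ * μ.real A ^ (1 / (2 : ℝ≥0∞).toReal)) ^ 2 = μ.real A := by
    rw [norm_one, one_mul, ENNReal.toReal_ofNat, ← Real.sqrt_eq_rpow,
      Real.sq_sqrt measureReal_nonneg]
  rw [h1]
  exact ENNReal.ofReal_toReal hμ

end one

section two

variable {Γ Λ G₁ G₂ H₁ H₂ K : Type} [Group Γ] [Countable Γ] [Group Λ]
  [NormedAddCommGroup K] [InnerProductSpace ℂ K] [CompleteSpace K]
  [Group G₁] [TopologicalSpace G₁] [IsTopologicalGroup G₁] [SecondCountableTopology G₁]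
  [MeasurableSpace G₁] [BorelSpace G₁]
  [Group G₂] [TopologicalSpace G₂] [IsTopologicalGroup G₂] [SecondCountableTopology G₂]
  [MeasurableSpace G₂] [BorelSpace G₂]
  [Group H₁] [TopologicalSpace H₁] [IsTopologicalGroup H₁]
  [MeasurableSpace H₁] [BorelSpace H₁] [SecondCountableTopology H₁]
  [Group H₂] [TopologicalSpace H₂] [IsTopologicalGroup H₂]
  [MeasurableSpace H₂] [BorelSpace H₂] [SecondCountableTopology H₂]
  {ρ : Γ →* (K →L[ℂ] K)} {V : Λ →* (K →L[ℂ] K)} {ω : K} {ι₁ : Γ →* G₁} {ι₂ : Γ →* G₂}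
  {κ₁ : Λ →* H₁} {κ₂ : Λ →* H₂} {μ₁ : Measure G₁} {μ₂ : Measure G₂}
  [μ₁.IsMulLeftInvariant] [μ₂.IsMulLeftInvariant] [SigmaFinite μ₁] [SFinite μ₂]
  [μ₁.IsMulRightInvariant]
  {a c : G₁ → K →L[ℂ] K}
  {b : G₂ → K →L[ℂ] K} {m : Measure (H₁ × H₂)} {S : Lp K 2 μ₁ →L[ℂ] Lp K 2 μ₁}
  {e : Lp ℂ 2 μ₁ →L[ℂ] Lp K 2 μ₁} {T : Lp ℂ 2 μ₁ →L[ℂ] Lp ℂ 2 μ₁}

/-- the diagonal sum -/
theorem inner_cz_rep (h : TFrm ρ V ω)
    (hO : ∀ a b, Smo ι₁ κ₁ ρ V ω μ₁ a → Smo ι₁ κ₁ ρ V ω μ₁ b → Ort V ω μ₁ a b)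
    (hc : Smo ι₁ κ₁ ρ V ω μ₁ c) (hS : HS ι₁ κ₁ κ₂ ρ V ω μ₁ μ₂ m b S)
    {F : Finset Λ} {a : Λ → G₁ → K →L[ℂ] K} (ha : ∀ v, Smo ι₁ κ₁ ρ V ω μ₁ (a v))
    {x : G₁ → K →L[ℂ] K} (hx : ∀ g, x g = ∑ v ∈ F, a v g * V v) {X : Lp K 2 μ₁}
    (hX : (X : G₁ → K) =ᵐ[μ₁] fun g => x g (adjoint (x g) ω)) (z : G₁) :
    ⟪vec (smo_rt (smo_cc h.toFrm hc) z), S X⟫_ℂ =
      ∑ v ∈ F, qq κ₁ κ₂ V ω μ₁ μ₂ m b (fun x => adjoint (c (x * z)) * c (x * z))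
        (fun x => a v x * adjoint (a v x)) := by
  classical
  have hx' : ∀ g, x g = ∑ i : F, a i g * V i := fun g => by
    rw [hx g, ← Finset.sum_coe_sort]
  rw [expand_X h hO (fun i : F => (i : Λ)) (fun i : F => ha i) hx' hX]
  simp only [map_sum, inner_sum]
  rw [← Finset.sum_coe_sort F]
  refine Finset.sum_congr rfl fun i _ => ?_
  have h1 : ∀ i' : F, ⟪vec (smo_rt (smo_cc h.toFrm hc) z), S (ef h hO (Smo.mul h.toFrm (ha i)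
      (Smo.adj h.toFrm (Smo.conj h.toFrm (ha i') ((i : Λ) * (i' : Λ)⁻¹))))
      (V ((i : Λ) * (i' : Λ)⁻¹) ω))⟫_ℂ =
      qq κ₁ κ₂ V ω μ₁ μ₂ m b (fun x => adjoint (c (x * z)) * c (x * z))
        (fun x => a i x * adjoint (V ((i : Λ) * (i' : Λ)⁻¹) * a i' x *
          V ((i : Λ) * (i' : Λ)⁻¹)⁻¹)) * ⟪ω, V ((i : Λ) * (i' : Λ)⁻¹) ω⟫_ℂ := fun i' =>
    hS _ _ (smo_rt (smo_cc h.toFrm hc) z) (Smo.mul h.toFrm (ha i)
      (Smo.adj h.toFrm (Smo.conj h.toFrm (ha i') ((i : Λ) * (i' : Λ)⁻¹)))) _ _ _ _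
      (smo_rt (smo_cc h.toFrm hc) z).l2.coeFn_toLp (ef_ae h hO _ _)
  simp only [h1]
  rw [Finset.sum_eq_single i]
  · rw [mul_inv_cancel, map_one]
    have h2 : ⟪ω, (1 : K →L[ℂ] K) ω⟫_ℂ = 1 := by
      change ⟪ω, ω⟫_ℂ = 1
      rw [inner_self_eq_norm_sq_to_K, h.toFrm.norm_omega]
      simp
    rw [h2, mul_one]
    simp only [inv_one, map_one, one_mul, mul_one]
  · intro i' _ hne
    rw [h.toFrm.ort _ (fun h2 => hne (Subtype.ext (mul_inv_eq_one.1 h2).symm)), mul_zero]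
  · intro h9
    exact absurd (Finset.mem_univ i) h9

/-- the bound for the elements of the span -/
theorem lintegral_cz_le (h : TFrm ρ V ω) (hd : DenseRange κ₁) (hd₂ : DenseRange κ₂)
    (hO : ∀ a b, Smo ι₁ κ₁ ρ V ω μ₁ a → Smo ι₁ κ₁ ρ V ω μ₁ b → Ort V ω μ₁ a b)
    (hO₂ : ∀ a b, Smo ι₂ κ₂ ρ V ω μ₂ a → Smo ι₂ κ₂ ρ V ω μ₂ b → Ort V ω μ₂ a b)
    [IsProbabilityMeasure m]
    (hA : Avg ι₁ κ₁ κ₂ ρ V ω μ₁ μ₂ b)
    (hc : Smo ι₁ κ₁ ρ V ω μ₁ c) (hb : Smo ι₂ κ₂ ρ V ω μ₂ b)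
    (hS : HS ι₁ κ₁ κ₂ ρ V ω μ₁ μ₂ m b S)
    {x : G₁ → K →L[ℂ] K} (hx : x ∈ SF ι₁ κ₁ ρ V ω μ₁) {X X' : Lp K 2 μ₁}
    (hX : (X : G₁ → K) =ᵐ[μ₁] fun g => x g (adjoint (x g) ω))
    (hX' : (X' : G₁ → K) =ᵐ[μ₁] fun g => x g ω) :
    ∫⁻ z, ‖⟪vec (smo_rt (smo_cc h.toFrm hc) z), S X⟫_ℂ‖ₑ ∂μ₁ ≤
      nsq ω μ₂ b * (nsq ω μ₁ c * ENNReal.ofReal (‖X'‖ ^ 2)) := by
  obtain ⟨F, a, ha, -, hxe⟩ := sf_rep hx
  rw [norm_sq_rep h hO ha hxe hX']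
  calc ∫⁻ z, ‖⟪vec (smo_rt (smo_cc h.toFrm hc) z), S X⟫_ℂ‖ₑ ∂μ₁
      ≤ ∫⁻ z, ∑ v ∈ F, ‖qq κ₁ κ₂ V ω μ₁ μ₂ m b (fun x => adjoint (c (x * z)) * c (x * z))
        (fun x => a v x * adjoint (a v x))‖ₑ ∂μ₁ := by
        refine lintegral_mono fun z => ?_
        rw [inner_cz_rep h hO hc hS ha hxe hX z]
        exact enorm_sum_le _ _
    _ = ∑ v ∈ F, ∫⁻ z, ‖qq κ₁ κ₂ V ω μ₁ μ₂ m b (fun x => adjoint (c (x * z)) * c (x * z))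
        (fun x => a v x * adjoint (a v x))‖ₑ ∂μ₁ :=
        lintegral_finset_sum _ fun v _ => measurable_qq h hd hd₂ hO hO₂ hA hc hb (ha v)
    _ = ∑ v ∈ F, nsq ω μ₂ b * (nsq ω μ₁ c * nsq ω μ₁ (a v)) :=
        Finset.sum_congr rfl fun v _ => ton h hd hd₂ hO hO₂ hA hc hb (ha v)
    _ = nsq ω μ₂ b * (nsq ω μ₁ c * ∑ v ∈ F, nsq ω μ₁ (a v)) := by
        rw [Finset.mul_sum, Finset.mul_sum]

/-- **(L1)** -/
theorem kp_le (h : TFrm ρ V ω) (hd : DenseRange κ₁) (hd₂ : DenseRange κ₂)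
    (hO : ∀ a b, Smo ι₁ κ₁ ρ V ω μ₁ a → Smo ι₁ κ₁ ρ V ω μ₁ b → Ort V ω μ₁ a b)
    (hO₂ : ∀ a b, Smo ι₂ κ₂ ρ V ω μ₂ a → Smo ι₂ κ₂ ρ V ω μ₂ b → Ort V ω μ₂ a b)
    (hF : FullU ι₁ κ₁ ρ V ω μ₁)
    (hA : Avg ι₁ κ₁ κ₂ ρ V ω μ₁ μ₂ b) (hm : PA.Lat (κ₁.prod κ₂) m)
    (hb : Smo ι₂ κ₂ ρ V ω μ₂ b) (hS : HS ι₁ κ₁ κ₂ ρ V ω μ₁ μ₂ m b S)
    (he : ∀ f : Lp ℂ 2 μ₁, (e f : G₁ → K) =ᵐ[μ₁] fun x => f x • ω)
    (hT : ∀ f, S (e f) = e (T f)) (hc : Smo ι₁ κ₁ ρ V ω μ₁ c) (hc0 : nsq ω μ₁ c ≠ 0)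
    {A : Set G₁} (hA' : MeasurableSet A) (hAμ : μ₁ A ≠ ⊤) :
    kp μ₁ T A Set.univ ≤ nsq ω μ₂ b * μ₁ A := by
  have := hm.prob
  have hP := posOp h hd hd₂ hO hO₂ hF hA hm hb hS he hT
  have hw : ∀ᵐ x ∂μ₁, Pos (T (iv μ₁ A) x) := hP.ae μ₁ hA' hAμ
  choose x hx hxsa hX hX' using fun n : ℕ => approx_iv h hO hF he hA' hAμ
    (ε := 1 / ((n : ℝ) + 1)) (by positivity)
  choose X hXe hXd using hX
  choose X' hXe' hXd' using hX'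
  have lX : Tendsto X atTop (𝓝 (e (iv μ₁ A))) := by
    rw [tendsto_iff_norm_sub_tendsto_zero]
    exact squeeze_zero (fun n => norm_nonneg _) hXd tendsto_one_div_add_atTop_nhds_zero_nat
  have lX' : Tendsto X' atTop (𝓝 (e (iv μ₁ A))) := by
    rw [tendsto_iff_norm_sub_tendsto_zero]
    exact squeeze_zero (fun n => norm_nonneg _) hXd' tendsto_one_div_add_atTop_nhds_zero_nat
  have hXe2 : ∀ n, (X n : G₁ → K) =ᵐ[μ₁] fun g => x n g (adjoint (x n g) ω) := fun n => by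
    refine (hXe n).trans (Eventually.of_forall fun g => ?_)
    have : adjoint (x n g) = x n g := by
      rw [← star_eq_adjoint]; exact hxsa n g
    simp only [this]
  -- the norm of `e`
  have hne : ENNReal.ofReal (‖e (iv μ₁ A)‖ ^ 2) = μ₁ A := by
    rw [← norm_iv_sq hA' hAμ]
    congr 1
    have h1 := inner_e h.toFrm.norm_omega he (iv μ₁ A) (iv μ₁ A)
    rw [inner_self_eq_norm_sq_to_K, inner_self_eq_norm_sq_to_K] at h1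
    exact_mod_cast h1
  have hlim2 : Tendsto (fun n => nsq ω μ₂ b * (nsq ω μ₁ c * ENNReal.ofReal (‖X' n‖ ^ 2))) atTop
      (𝓝 (nsq ω μ₂ b * (nsq ω μ₁ c * μ₁ A))) := by
    rw [← hne]
    refine ENNReal.Tendsto.const_mul (ENNReal.Tendsto.const_mul ?_ (Or.inr (nsq_lt_top hc.l2).ne))
      (Or.inr (nsq_lt_top hb.l2).ne)
    exact (ENNReal.continuous_ofReal.tendsto _).comp ((lX'.norm).pow 2)
  have hcont : ∀ n, Continuous fun z => ‖⟪vec (smo_rt (smo_cc h.toFrm hc) z), S (X n)⟫_ℂ‖ₑ :=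
    fun n => ((continuous_vec_rt h.toFrm (smo_cc h.toFrm hc)).inner continuous_const).enorm
  have hpt : ∀ z, Tendsto (fun n => ‖⟪vec (smo_rt (smo_cc h.toFrm hc) z), S (X n)⟫_ℂ‖ₑ) atTop
      (𝓝 ‖⟪vec (smo_rt (smo_cc h.toFrm hc) z), e (T (iv μ₁ A))⟫_ℂ‖ₑ) := fun z => by
    rw [← hT]
    exact (tendsto_const_nhds.inner ((S.continuous.tendsto _).comp lX)).enorm
  have main : (∫⁻ x, ‖T (iv μ₁ A) x‖ₑ ∂μ₁) * nsq ω μ₁ c ≤ nsq ω μ₂ b * (nsq ω μ₁ c * μ₁ A) := by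
    rw [← lintegral_cz hc.toFd]
    calc ∫⁻ z, ∫⁻ x, ‖T (iv μ₁ A) x‖ₑ * ‖c (x * z) ω‖ₑ ^ 2 ∂μ₁ ∂μ₁
        = ∫⁻ z, liminf (fun n => ‖⟪vec (smo_rt (smo_cc h.toFrm hc) z), S (X n)⟫_ℂ‖ₑ)
            atTop ∂μ₁ := by
          refine lintegral_congr fun z => ?_
          rw [(hpt z).liminf_eq, enorm_inner_cz h.toFrm he hc hw z]
      _ ≤ liminf (fun n => ∫⁻ z, ‖⟪vec (smo_rt (smo_cc h.toFrm hc) z), S (X n)⟫_ℂ‖ₑ ∂μ₁)
            atTop := lintegral_liminf_le fun n => (hcont n).measurable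
      _ ≤ liminf (fun n => nsq ω μ₂ b * (nsq ω μ₁ c * ENNReal.ofReal (‖X' n‖ ^ 2))) atTop := by
          refine liminf_le_liminf (Eventually.of_forall fun n => ?_)
          exact lintegral_cz_le h hd hd₂ hO hO₂ hA hc hb hS (hx n) (hXe2 n) (hXe' n)
      _ = nsq ω μ₂ b * (nsq ω μ₁ c * μ₁ A) := hlim2.liminf_eq
  have e5 : kp μ₁ T A Set.univ = ∫⁻ x, ‖T (iv μ₁ A) x‖ₑ ∂μ₁ := by
    rw [kp, Measure.restrict_univ]
  rw [e5]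
  have hct : nsq ω μ₁ c ≠ ⊤ := (nsq_lt_top hc.l2).ne
  rw [← ENNReal.mul_le_mul_iff_left hc0 hct]
  refine main.trans (le_of_eq ?_)
  ring

end two

end Vale.Agent.P092.H796
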