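import Vale.Agent.P092.H796.Conc
import Vale.Agent.P092.H677.PCon
import Vale.Agent.P092.H831.Quad

/-!
P092 (helper796), Team P: ONE KEY IS ENOUGH.

Target: a quadrangle with regular points (`Pl x₁ x₂ x`: `x` is in the span of `x₁`, `x₂`), any field.
If collinear points of the source commute (calculi over the points of the target), then a point `b`
and a line `m` which are not incident commute. `b₀`, `b₁` are two points of `m`, `c` is the foot of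
`b` on `m`, `d t` is another common neighbour of `b` and `b t`.
-/

set_option linter.all false

namespace Vale.Agent.P092.H796

open Set Topology Filter
open Vale.Agent.P092.H218 (loc loc_op mul_ap)
open Vale.Agent.P092.H232 (Nin split_fun split_inc tsupport_mul_l tsupport_mul_r)
open Vale.Agent.P092.H677 (sm ev_sm ev_sub ind1 ind2 ind5 nin_ev)
open Vale.Agent.P092.H831 (ts_star tot_left tot_right join_comm comm_of_inv)

section opp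

variable {X Z K : Type*} [TopologicalSpace X] [CompactSpace X] [T2Space X]
  [TopologicalSpace Z] [CompactSpace Z] [T2Space Z]
  [NormedAddCommGroup K] [InnerProductSpace ℂ K] [CompleteSpace K]

/-- The geometry of the target: collinearity `Pp` and the span relation `Pl x₁ x₂ x`. -/
structure PGeo (Pp : X → X → Prop) (Pl : X → X → X → Prop) : Prop where
  cP : IsClosed {q : X × X | Pp q.1 q.2}
  cPl : IsClosed {q : X × X × X | Pl q.1 q.2.1 q.2.2}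
  sym : ∀ x y, Pp x y → Pp y x
  /-- regularity of points -/
  reg : ∀ x₁ x₂ x z z', x₁ ≠ x₂ → z ≠ z' → Pp x₁ z → Pp x₁ z' → Pp x₂ z → Pp x₂ z' →
    Pp x z → Pp x z' → Pl x₁ x₂ x
  two : ∀ x₁ x₂ x x', x₁ ≠ x₂ → x ≠ x' → Pl x₁ x₂ x → Pl x₁ x₂ x' → Pp x x' → Pp x₁ x₂
  iso : ∀ x₁ x₂ x, x₁ ≠ x₂ → Pl x₁ x₂ x → Pp x₁ x₂ → Pp x x₁ ∧ Pp x x₂

/-- Three points not in a closed relation: small supports are not in relation. -/
lemma nin3_ev {Pl : X → X → X → Prop} (h : IsClosed {q : X × X × X | Pl q.1 q.2.1 q.2.2})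
    {x y z : X} (hn : ¬ Pl x y z) :
    ∀ᶠ p : C(X, ℂ) × C(X, ℂ) × C(X, ℂ) in sm {x} ×ˢ sm {y} ×ˢ sm {z},
      ∀ x' ∈ tsupport ⇑p.1, ∀ y' ∈ tsupport ⇑p.2.1, ∀ z' ∈ tsupport ⇑p.2.2, ¬ Pl x' y' z' := by
  have h1 : {q : X × X × X | Pl q.1 q.2.1 q.2.2}ᶜ ∈ 𝓝 (x, y, z) := h.isOpen_compl.mem_nhds hn
  obtain ⟨O, V, hO, hxO, hV, hyV, hOV⟩ := mem_nhds_prod_iff'.1 h1
  obtain ⟨V₁, V₂, hV₁, hy₁, hV₂, hz₂, hVV⟩ := mem_nhds_prod_iff'.1 (hV.mem_nhds hyV)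
  refine eventually_prod_iff.2 ⟨_, ev_sub hO (by simpa using hxO),
    fun p : C(X, ℂ) × C(X, ℂ) => tsupport ⇑p.1 ⊆ V₁ ∧ tsupport ⇑p.2 ⊆ V₂, ?_, fun {u} hu {p} hp => fun x' hx' y' hy' z' hz' hc => ?_⟩
  · exact eventually_prod_iff.2 ⟨_, ev_sub hV₁ (by simpa using hy₁), _,
      ev_sub hV₂ (by simpa using hz₂), fun {u} hu {v} hv => ⟨hu, hv⟩⟩
  · exact hOV (mk_mem_prod (hu hx') (hVV (mk_mem_prod (hp.1 hy') (hp.2 hz')))) hc

lemma dis_ev {x y : X} (h : x ≠ y) :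
    ∀ᶠ p : C(X, ℂ) × C(X, ℂ) in sm {x} ×ˢ sm {y}, Disjoint (tsupport ⇑p.1) (tsupport ⇑p.2) := by
  have hdg : IsClosed {q : X × X | q.1 = q.2} := isClosed_diagonal
  filter_upwards [nin_ev hdg h] with p hp
  exact disjoint_left.2 fun w hw hw' => hp w hw w hw' rfl

section kill

variable {In : X → Z → Prop} {Pp : X → X → Prop}
  {β βt γ δ : C(X, ℂ) →⋆ₐ[ℂ] (K →L[ℂ] K)} {μ : C(Z, ℂ) →⋆ₐ[ℂ] (K →L[ℂ] K)}

/-- The letters `δ` near points which are not collinear with the support of `f₁`. -/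
theorem kill (cβγ : ∀ f g, Commute (β f) (γ g)) (cβδ : ∀ f g, Commute (β f) (δ g))
    (ctγ : ∀ f g, Commute (βt f) (γ g)) (ctδ : ∀ f g, Commute (βt f) (δ g))
    (join : ∀ W : K →L[ℂ] K, (∀ u, Commute W (βt u)) → (∀ u, Commute W (γ u)) →
      ∀ g, Commute W (μ g)) {f₁ : C(X, ℂ)} (f₂ : C(X, ℂ)) (h : C(Z, ℂ)) {S : Set C(X, ℂ)}
    (hS : ∀ g ∈ S, star g ∈ S) (iβδ : ∀ g ∈ S, β f₁ * δ g = 0) (g : C(X, ℂ)) {g' : C(X, ℂ)}
    (hg' : g' ∈ S) : β f₁ * μ h * β f₂ * γ g * δ g' = 0 := by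
  set N : Submodule ℂ K :=
    { carrier := {ζ | ∀ g : C(X, ℂ), ∀ g' ∈ S, δ g' (γ g ζ) = 0}
      add_mem' := fun {a b} ha hb g g' hg' => by rw [map_add, map_add, ha g g' hg', hb g g' hg',
        add_zero]
      zero_mem' := fun g g' _ => by rw [map_zero, map_zero]
      smul_mem' := fun c x hx g g' hg' => by rw [map_smul, map_smul, hx g g' hg', smul_zero] }
    with hN
  have mem : ∀ ζ, ζ ∈ N ↔ ∀ g : C(X, ℂ), ∀ g' ∈ S, δ g' (γ g ζ) = 0 := fun ζ => Iff.rfl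
  have hcl : IsClosed (N : Set K) := by
    have e : (N : Set K) = ⋂ (g : C(X, ℂ)) (g' : C(X, ℂ)) (_ : g' ∈ S), {ζ | δ g' (γ g ζ) = 0} := by
      ext ζ
      simp only [Set.mem_iInter, Set.mem_setOf_eq]
      rfl
    rw [e]
    exact isClosed_iInter fun g => isClosed_iInter fun g' => isClosed_iInter fun _ =>
      isClosed_eq ((δ g').continuous.comp (γ g).continuous) continuous_const
  haveI : CompleteSpace N := hcl.completeSpace_coe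
  set p := N.starProjection with hp
  have swap : ∀ A B : K →L[ℂ] K, Commute A B → ∀ ζ, A (B ζ) = B (A ζ) := fun A B h ζ =>
    congrArg (fun S : K →L[ℂ] K => S ζ) h.eq
  have hβ : ∀ u, Commute (β u) p := by
    have key : ∀ u, ∀ ζ ∈ N, β u ζ ∈ N := by
      intro u ζ hζ g g' hg'
      rw [← swap _ _ (cβγ u g), ← swap _ _ (cβδ u g'), hζ g g' hg', map_zero]
    intro u
    exact comm_of_inv N (β u) (key u) (by rw [← map_star]; exact key (star u))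
  have ht : ∀ u, Commute (βt u) p := by
    have key : ∀ u, ∀ ζ ∈ N, βt u ζ ∈ N := by
      intro u ζ hζ g g' hg'
      rw [← swap _ _ (ctγ u g), ← swap _ _ (ctδ u g'), hζ g g' hg', map_zero]
    intro u
    exact comm_of_inv N (βt u) (key u) (by rw [← map_star]; exact key (star u))
  have hγ : ∀ u, Commute (γ u) p := by
    have key : ∀ u, ∀ ζ ∈ N, γ u ζ ∈ N := by
      intro u ζ hζ g g' hg'
      have := hζ (g * u) g' hg'
      rw [map_mul] at this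
      exact this
    intro u
    exact comm_of_inv N (γ u) (key u) (by rw [← map_star]; exact key (star u))
  have hμ : Commute p (μ h) := join p (fun u => (ht u).symm) (fun u => (hγ u).symm) h
  have e1 : p * β f₁ = β f₁ := by
    ext ξ
    refine Submodule.starProjection_eq_self_iff.2 ?_
    intro g g' hg'
    change δ g' (γ g (β f₁ ξ)) = 0
    rw [← swap _ _ (cβγ f₁ g), ← swap _ _ (cβδ f₁ g')]
    exact congrArg (fun S : K →L[ℂ] K => S (γ g ξ)) (iβδ g' hg')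
  have e2 : p * (γ g * δ g') = 0 := by
    have h1 : star (γ g * δ g') * p = 0 := by
      ext ξ
      have h2 : p ξ ∈ N := N.starProjection_apply_mem ξ
      have h3 := h2 (star g) (star g') (hS g' hg')
      rw [star_mul, ← map_star, ← map_star]
      exact h3
    have h2 := congrArg star h1
    rw [star_mul, star_star, star_zero] at h2
    have h3 : star p = p := by
      have := (N.starProjection_isSymmetric)
      exact ContinuousLinearMap.isSelfAdjoint_iff_isSymmetric.2 this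
    rwa [h3] at h2
  have e3 : β f₁ * μ h * β f₂ = β f₁ * μ h * β f₂ * p := by
    calc β f₁ * μ h * β f₂ = p * β f₁ * μ h * β f₂ := by rw [e1]
      _ = β f₁ * (p * μ h) * β f₂ := by rw [← (hβ f₁).eq]; simp only [mul_assoc]
      _ = β f₁ * μ h * (p * β f₂) := by rw [hμ.eq]; simp only [mul_assoc]
      _ = _ := by rw [← (hβ f₂).eq]; simp only [mul_assoc]
  rw [e3, mul_assoc _ (γ g), mul_assoc _ p, e2, mul_zero]

/-- The point `βt` of the line sees only the span of the two values. -/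
theorem span_kill {Pl : X → X → X → Prop} (G : PGeo Pp Pl) (hβγ : PL Pp β γ) (hβδ : PL Pp β δ)
    (htγ : PL Pp βt γ) (htδ : PL Pp βt δ) (hγμ : ∀ f g, Commute (γ f) (μ g))
    (join : ∀ W : K →L[ℂ] K, (∀ u, Commute W (βt u)) → (∀ u, Commute W (γ u)) →
      ∀ g, Commute W (μ g)) (agr : ∀ ξ, (∀ f, γ f ξ = δ f ξ) → ξ = 0) {f₁ f₂ f' : C(X, ℂ)}
    (h : C(Z, ℂ)) (hd : Disjoint (tsupport ⇑f₁) (tsupport ⇑f₂))
    (hn : ∀ x₁ ∈ tsupport ⇑f₁, ∀ x₂ ∈ tsupport ⇑f₂, ∀ x ∈ tsupport ⇑f', ¬ Pl x₁ x₂ x) :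
    β f₁ * μ h * β f₂ * βt f' = 0 := by
  refine tot_right γ δ agr _ fun a b hab => ?_
  refine ind5 (fun f₁ f₂ f' a b => β f₁ * μ h * β f₂ * βt f' * γ a * δ b) ?_ ?_ ?_ ?_ ?_ ?_
  · intros; simp only [map_add, add_mul, mul_add]
  · intros; simp only [map_add, add_mul, mul_add]
  · intros; simp only [map_add, add_mul, mul_add]
  · intros; simp only [map_add, add_mul, mul_add]
  · intros; simp only [map_add, add_mul, mul_add]
  intro x₁ hx₁ x₂ hx₂ x hx z hz z' hz'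
  have hxx : x₁ ≠ x₂ := fun e => disjoint_left.1 hd hx₁ (e ▸ hx₂)
  have hzz : z ≠ z' := fun e => disjoint_left.1 hab hz (e ▸ hz')
  have t1 : Tendsto (fun p : C(X, ℂ) × C(X, ℂ) × C(X, ℂ) × C(X, ℂ) × C(X, ℂ) => p.1)
    (sm {x₁} ×ˢ sm {x₂} ×ˢ sm {x} ×ˢ sm {z} ×ˢ sm {z'}) (sm {x₁}) := tendsto_fst
  have t2 : Tendsto (fun p : C(X, ℂ) × C(X, ℂ) × C(X, ℂ) × C(X, ℂ) × C(X, ℂ) => p.2.1)
    (sm {x₁} ×ˢ sm {x₂} ×ˢ sm {x} ×ˢ sm {z} ×ˢ sm {z'}) (sm {x₂}) :=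
    tendsto_fst.comp tendsto_snd
  have t3 : Tendsto (fun p : C(X, ℂ) × C(X, ℂ) × C(X, ℂ) × C(X, ℂ) × C(X, ℂ) => p.2.2.1)
    (sm {x₁} ×ˢ sm {x₂} ×ˢ sm {x} ×ˢ sm {z} ×ˢ sm {z'}) (sm {x}) :=
    tendsto_fst.comp (tendsto_snd.comp tendsto_snd)
  have t4 : Tendsto (fun p : C(X, ℂ) × C(X, ℂ) × C(X, ℂ) × C(X, ℂ) × C(X, ℂ) => p.2.2.2.1)
    (sm {x₁} ×ˢ sm {x₂} ×ˢ sm {x} ×ˢ sm {z} ×ˢ sm {z'}) (sm {z}) :=
    tendsto_fst.comp (tendsto_snd.comp (tendsto_snd.comp tendsto_snd))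
  have t5 : Tendsto (fun p : C(X, ℂ) × C(X, ℂ) × C(X, ℂ) × C(X, ℂ) × C(X, ℂ) => p.2.2.2.2)
    (sm {x₁} ×ˢ sm {x₂} ×ˢ sm {x} ×ˢ sm {z} ×ˢ sm {z'}) (sm {z'}) :=
    tendsto_snd.comp (tendsto_snd.comp (tendsto_snd.comp tendsto_snd))
  by_cases k1 : Pp x₁ z'
  swap
  · filter_upwards [(t1.prodMk t5).eventually (nin_ev G.cP k1)] with p hp
    obtain ⟨f₁, f₂, f', a, b⟩ := p
    have e := kill (μ := μ) hβγ.com hβδ.com htγ.com htδ.com join (f₁ := f₁) f₂ h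
      (S := {g | Nin Pp f₁ g}) (fun g hg x hx y hy => hg x hx y (by rwa [ts_star] at hy))
      (fun g hg => hβδ.inc _ _ hg) a hp
    have e' : β f₁ * μ h * β f₂ * βt f' * γ a * δ b =
        (β f₁ * μ h * β f₂ * γ a * δ b) * βt f' := by
      have h1 := (htγ.com f' a).eq
      have h2 := (htδ.com f' b).eq
      calc _ = β f₁ * μ h * β f₂ * (βt f' * γ a) * δ b := by simp only [mul_assoc]
        _ = β f₁ * μ h * β f₂ * γ a * (βt f' * δ b) := by rw [h1]; simp only [mul_assoc]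
        _ = _ := by rw [h2]; simp only [mul_assoc]
    rw [e', e, zero_mul]
  by_cases k2 : Pp x₂ z'
  swap
  · filter_upwards [(t2.prodMk t5).eventually (nin_ev G.cP k2)] with p hp
    obtain ⟨f₁, f₂, f', a, b⟩ := p
    have e : β f₂ * δ b = 0 := hβδ.inc _ _ hp
    have e' : β f₁ * μ h * β f₂ * βt f' * γ a * δ b =
        β f₁ * μ h * γ a * (β f₂ * δ b) * βt f' := by
      have h1 := (htγ.com f' a).eq
      have h2 := (htδ.com f' b).eq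
      have h3 := (hβγ.com f₂ a).eq
      calc _ = β f₁ * μ h * β f₂ * (βt f' * γ a) * δ b := by simp only [mul_assoc]
        _ = β f₁ * μ h * (β f₂ * γ a) * (βt f' * δ b) := by rw [h1]; simp only [mul_assoc]
        _ = _ := by rw [h2, h3]; simp only [mul_assoc]
    rw [e', e, mul_zero, zero_mul]
  by_cases k3 : Pp x₁ z
  swap
  · filter_upwards [(t1.prodMk t4).eventually (nin_ev G.cP k3)] with p hp
    obtain ⟨f₁, f₂, f', a, b⟩ := p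
    have e : β f₁ * γ a = 0 := hβγ.inc _ _ hp
    have e' : β f₁ * μ h * β f₂ * βt f' * γ a * δ b =
        β f₁ * γ a * (μ h * β f₂ * βt f' * δ b) := by
      have h1 := (htγ.com f' a).eq
      have h2 := (hγμ a h).eq
      have h3 := (hβγ.com f₂ a).eq
      calc _ = β f₁ * μ h * β f₂ * (βt f' * γ a) * δ b := by simp only [mul_assoc]
        _ = β f₁ * μ h * (β f₂ * γ a) * βt f' * δ b := by rw [h1]; simp only [mul_assoc]
        _ = β f₁ * (μ h * γ a) * β f₂ * βt f' * δ b := by rw [h3]; simp only [mul_assoc]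
        _ = _ := by rw [← h2]; simp only [mul_assoc]
    rw [e', e, zero_mul]
  by_cases k4 : Pp x₂ z
  swap
  · filter_upwards [(t2.prodMk t4).eventually (nin_ev G.cP k4)] with p hp
    obtain ⟨f₁, f₂, f', a, b⟩ := p
    have e : β f₂ * γ a = 0 := hβγ.inc _ _ hp
    have e' : β f₁ * μ h * β f₂ * βt f' * γ a * δ b =
        β f₁ * μ h * (β f₂ * γ a) * (βt f' * δ b) := by
      have h1 := (htγ.com f' a).eq
      calc _ = β f₁ * μ h * β f₂ * (βt f' * γ a) * δ b := by simp only [mul_assoc]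
        _ = _ := by rw [h1]; simp only [mul_assoc]
    rw [e', e, mul_zero, zero_mul]
  by_cases k5 : Pp x z
  swap
  · filter_upwards [(t3.prodMk t4).eventually (nin_ev G.cP k5)] with p hp
    obtain ⟨f₁, f₂, f', a, b⟩ := p
    have e : βt f' * γ a = 0 := htγ.inc _ _ hp
    change β f₁ * μ h * β f₂ * βt f' * γ a * δ b = 0
    rw [mul_assoc _ (βt f'), e, mul_zero, zero_mul]
  by_cases k6 : Pp x z'
  swap
  · filter_upwards [(t3.prodMk t5).eventually (nin_ev G.cP k6)] with p hp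
    obtain ⟨f₁, f₂, f', a, b⟩ := p
    have e : βt f' * δ b = 0 := htδ.inc _ _ hp
    have e' : β f₁ * μ h * β f₂ * βt f' * γ a * δ b =
        β f₁ * μ h * β f₂ * γ a * (βt f' * δ b) := by
      have h1 := (htγ.com f' a).eq
      calc _ = β f₁ * μ h * β f₂ * (βt f' * γ a) * δ b := by simp only [mul_assoc]
        _ = _ := by rw [h1]; simp only [mul_assoc]
    rw [e', e, mul_zero]
  exact (hn x₁ hx₁ x₂ hx₂ x hx (G.reg x₁ x₂ x z z' hxx hzz k3 k1 k4 k2 k5 k6)).elim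

end kill

section main

variable {In : X → Z → Prop} {Pp : X → X → Prop} {Pl : X → X → X → Prop}
  {β β₀ β₁ γ δ₀ δ₁ : C(X, ℂ) →⋆ₐ[ℂ] (K →L[ℂ] K)} {μ : C(Z, ℂ) →⋆ₐ[ℂ] (K →L[ℂ] K)}

/-- Values which are not collinear. -/
theorem hyp_zero (G : PGeo Pp Pl) (h01 : PL Pp β₀ β₁)
    (agr : ∀ ξ, (∀ f, β₀ f ξ = β₁ f ξ) → ξ = 0)
    (s0 : ∀ (f₁ f₂ f' : C(X, ℂ)) (h : C(Z, ℂ)), Disjoint (tsupport ⇑f₁) (tsupport ⇑f₂) →
      (∀ x₁ ∈ tsupport ⇑f₁, ∀ x₂ ∈ tsupport ⇑f₂, ∀ x ∈ tsupport ⇑f', ¬ Pl x₁ x₂ x) →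
      β f₁ * μ h * β f₂ * β₀ f' = 0)
    (s1 : ∀ (f₁ f₂ f' : C(X, ℂ)) (h : C(Z, ℂ)), Disjoint (tsupport ⇑f₁) (tsupport ⇑f₂) →
      (∀ x₁ ∈ tsupport ⇑f₁, ∀ x₂ ∈ tsupport ⇑f₂, ∀ x ∈ tsupport ⇑f', ¬ Pl x₁ x₂ x) →
      β f₁ * μ h * β f₂ * β₁ f' = 0) {f₁ f₂ : C(X, ℂ)} (h : C(Z, ℂ))
    (hd : Disjoint (tsupport ⇑f₁) (tsupport ⇑f₂)) (hn : Nin Pp f₁ f₂) :
    β f₁ * μ h * β f₂ = 0 := by
  refine tot_right β₀ β₁ agr _ fun a b hab => ?_
  refine ind5 (fun f₁ f₂ a b h => β f₁ * μ h * β f₂ * β₀ a * β₁ b) ?_ ?_ ?_ ?_ ?_ ?_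
  · intros; simp only [map_add, add_mul, mul_add]
  · intros; simp only [map_add, add_mul, mul_add]
  · intros; simp only [map_add, add_mul, mul_add]
  · intros; simp only [map_add, add_mul, mul_add]
  · intros; simp only [map_add, add_mul, mul_add]
  intro x₁ hx₁ x₂ hx₂ x hx x' hx' l hl
  have hxx : x₁ ≠ x₂ := fun e => disjoint_left.1 hd hx₁ (e ▸ hx₂)
  have hzz : x ≠ x' := fun e => disjoint_left.1 hab hx (e ▸ hx')
  have t1 : Tendsto (fun p : C(X, ℂ) × C(X, ℂ) × C(X, ℂ) × C(X, ℂ) × C(Z, ℂ) => p.1)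
    (sm {x₁} ×ˢ sm {x₂} ×ˢ sm {x} ×ˢ sm {x'} ×ˢ sm {l}) (sm {x₁}) := tendsto_fst
  have t2 : Tendsto (fun p : C(X, ℂ) × C(X, ℂ) × C(X, ℂ) × C(X, ℂ) × C(Z, ℂ) => p.2.1)
    (sm {x₁} ×ˢ sm {x₂} ×ˢ sm {x} ×ˢ sm {x'} ×ˢ sm {l}) (sm {x₂}) :=
    tendsto_fst.comp tendsto_snd
  have t3 : Tendsto (fun p : C(X, ℂ) × C(X, ℂ) × C(X, ℂ) × C(X, ℂ) × C(Z, ℂ) => p.2.2.1)
    (sm {x₁} ×ˢ sm {x₂} ×ˢ sm {x} ×ˢ sm {x'} ×ˢ sm {l}) (sm {x}) :=
    tendsto_fst.comp (tendsto_snd.comp tendsto_snd)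
  have t4 : Tendsto (fun p : C(X, ℂ) × C(X, ℂ) × C(X, ℂ) × C(X, ℂ) × C(Z, ℂ) => p.2.2.2.1)
    (sm {x₁} ×ˢ sm {x₂} ×ˢ sm {x} ×ˢ sm {x'} ×ˢ sm {l}) (sm {x'}) :=
    tendsto_fst.comp (tendsto_snd.comp (tendsto_snd.comp tendsto_snd))
  by_cases k1 : Pl x₁ x₂ x
  swap
  · filter_upwards [(t1.prodMk (t2.prodMk t3)).eventually (nin3_ev G.cPl k1),
      (t1.prodMk t2).eventually (dis_ev hxx)] with p hp hq
    obtain ⟨f₁, f₂, a, b, h⟩ := p
    change β f₁ * μ h * β f₂ * β₀ a * β₁ b = 0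
    rw [s0 f₁ f₂ a h hq hp, zero_mul]
  by_cases k2 : Pl x₁ x₂ x'
  swap
  · filter_upwards [(t1.prodMk (t2.prodMk t4)).eventually (nin3_ev G.cPl k2),
      (t1.prodMk t2).eventually (dis_ev hxx)] with p hp hq
    obtain ⟨f₁, f₂, a, b, h⟩ := p
    change β f₁ * μ h * β f₂ * β₀ a * β₁ b = 0
    rw [mul_assoc _ (β₀ a), (h01.com a b).eq, ← mul_assoc, s1 f₁ f₂ b h hq hp, zero_mul]
  by_cases k3 : Pp x x'
  swap
  · filter_upwards [(t3.prodMk t4).eventually (nin_ev G.cP k3)] with p hp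
    obtain ⟨f₁, f₂, a, b, h⟩ := p
    change β f₁ * μ h * β f₂ * β₀ a * β₁ b = 0
    rw [mul_assoc _ (β₀ a), h01.inc _ _ hp, mul_zero]
  exact (hn x₁ hx₁ x₂ hx₂ (G.two x₁ x₂ x x' hxx hzz k1 k2 k3)).elim

/-- **AN OPPOSITE FLAG COMMUTES.** -/
theorem opp_pl (hI : IsClosed {q : X × Z | In q.1 q.2})
    (uniq : ∀ x x' y y', x ≠ x' → In x y → In x' y → In x y' → In x' y' → y = y')
    (G : PGeo Pp Pl) (hβγ : PL Pp β γ) (hβδ₀ : PL Pp β δ₀) (hβδ₁ : PL Pp β δ₁)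
    (h0γ : PL Pp β₀ γ) (h1γ : PL Pp β₁ γ) (h0δ : PL Pp β₀ δ₀) (h1δ : PL Pp β₁ δ₁)
    (h01 : PL Pp β₀ β₁) (h0μ : PL In β₀ μ) (h1μ : PL In β₁ μ) (hγμ : PL In γ μ)
    (ag0 : ∀ ξ, (∀ f, β₀ f ξ = γ f ξ) → ξ = 0) (ag1 : ∀ ξ, (∀ f, β₁ f ξ = γ f ξ) → ξ = 0)
    (ad0 : ∀ ξ, (∀ f, γ f ξ = δ₀ f ξ) → ξ = 0) (ad1 : ∀ ξ, (∀ f, γ f ξ = δ₁ f ξ) → ξ = 0)
    (a01 : ∀ ξ, (∀ f, β₀ f ξ = β₁ f ξ) → ξ = 0)
    (np : ∀ ζ, (∀ f' f : C(X, ℂ), Nin Pp f' f → β₀ f' (β f ζ) = 0) → ζ = 0)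
    (f : C(X, ℂ)) (h : C(Z, ℂ)) : Commute (β f) (μ h) := by
  have j0 : ∀ W : K →L[ℂ] K, (∀ u, Commute W (β₀ u)) → (∀ u, Commute W (γ u)) →
      ∀ g, Commute W (μ g) := fun W w1 w2 g =>
    join_comm hI uniq β₀ γ μ h0γ.com h0μ.com hγμ.com h0μ.inc hγμ.inc ag0 W w1 w2 g
  have j1 : ∀ W : K →L[ℂ] K, (∀ u, Commute W (β₁ u)) → (∀ u, Commute W (γ u)) →
      ∀ g, Commute W (μ g) := fun W w1 w2 g =>
    join_comm hI uniq β₁ γ μ h1γ.com h1μ.com hγμ.com h1μ.inc hγμ.inc ag1 W w1 w2 g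
  have s0 : ∀ (f₁ f₂ f' : C(X, ℂ)) (h : C(Z, ℂ)), Disjoint (tsupport ⇑f₁) (tsupport ⇑f₂) →
      (∀ x₁ ∈ tsupport ⇑f₁, ∀ x₂ ∈ tsupport ⇑f₂, ∀ x ∈ tsupport ⇑f', ¬ Pl x₁ x₂ x) →
      β f₁ * μ h * β f₂ * β₀ f' = 0 := fun f₁ f₂ f' h hd hn =>
    span_kill G hβγ hβδ₀ h0γ h0δ hγμ.com j0 ad0 h hd hn
  have s1 : ∀ (f₁ f₂ f' : C(X, ℂ)) (h : C(Z, ℂ)), Disjoint (tsupport ⇑f₁) (tsupport ⇑f₂) →
      (∀ x₁ ∈ tsupport ⇑f₁, ∀ x₂ ∈ tsupport ⇑f₂, ∀ x ∈ tsupport ⇑f', ¬ Pl x₁ x₂ x) →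
      β f₁ * μ h * β f₂ * β₁ f' = 0 := fun f₁ f₂ f' h hd hn =>
    span_kill G hβγ hβδ₁ h1γ h1δ hγμ.com j1 ad1 h hd hn
  have z0 : ∀ (f₁ f₂ : C(X, ℂ)) (h : C(Z, ℂ)), Disjoint (tsupport ⇑f₁) (tsupport ⇑f₂) →
      Nin Pp f₁ f₂ → β f₁ * μ h * β f₂ = 0 := fun f₁ f₂ h hd hn =>
    hyp_zero G h01 a01 s0 s1 h hd hn
  have z1 : ∀ (f₁ f₂ : C(X, ℂ)) (h : C(Z, ℂ)), Disjoint (tsupport ⇑f₁) (tsupport ⇑f₂) →
      β f₁ * μ h * β f₂ = 0 := by
    intro f₁ f₂ h hd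
    ext ξ
    refine np _ fun f' f hf => ?_
    have main : ∀ f₁ : C(X, ℂ), Disjoint (tsupport ⇑f₁) (tsupport ⇑f₂) → Nin Pp f' f₁ →
        β₀ f' * (β f₁ * μ h * β f₂) = 0 := by
      intro f₁ hd hf
      have h5 : β₀ f' * (β f₁ * μ h * β f₂) * β₀ 1 = 0 := by
        refine ind5 (fun f₁ f₂ f' (h : C(Z, ℂ)) (d : C(X, ℂ)) =>
          β₀ f' * (β f₁ * μ h * β f₂) * β₀ d) ?_ ?_ ?_ ?_ ?_ ?_
        · intros; simp only [map_add, add_mul, mul_add]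
        · intros; simp only [map_add, add_mul, mul_add]
        · intros; simp only [map_add, add_mul, mul_add]
        · intros; simp only [map_add, add_mul, mul_add]
        · intros; simp only [map_add, add_mul, mul_add]
        intro x₁ hx₁ x₂ hx₂ x hx l hl y hy
        have hxx : x₁ ≠ x₂ := fun e => disjoint_left.1 hd hx₁ (e ▸ hx₂)
        have t1 : Tendsto (fun p : C(X, ℂ) × C(X, ℂ) × C(X, ℂ) × C(Z, ℂ) × C(X, ℂ) => p.1)
          (sm {x₁} ×ˢ sm {x₂} ×ˢ sm {x} ×ˢ sm {l} ×ˢ sm {y}) (sm {x₁}) := tendsto_fst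
        have t2 : Tendsto (fun p : C(X, ℂ) × C(X, ℂ) × C(X, ℂ) × C(Z, ℂ) × C(X, ℂ) => p.2.1)
          (sm {x₁} ×ˢ sm {x₂} ×ˢ sm {x} ×ˢ sm {l} ×ˢ sm {y}) (sm {x₂}) :=
          tendsto_fst.comp tendsto_snd
        have t3 : Tendsto (fun p : C(X, ℂ) × C(X, ℂ) × C(X, ℂ) × C(Z, ℂ) × C(X, ℂ) => p.2.2.1)
          (sm {x₁} ×ˢ sm {x₂} ×ˢ sm {x} ×ˢ sm {l} ×ˢ sm {y}) (sm {x}) :=
          tendsto_fst.comp (tendsto_snd.comp tendsto_snd)
        by_cases k1 : Pp x₁ x₂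
        swap
        · filter_upwards [(t1.prodMk t2).eventually (nin_ev G.cP k1),
            (t1.prodMk t2).eventually (dis_ev hxx)] with p hp hq
          obtain ⟨f₁, f₂, f', h, d⟩ := p
          change β₀ f' * (β f₁ * μ h * β f₂) * β₀ d = 0
          rw [z0 f₁ f₂ h hq hp, mul_zero, zero_mul]
        by_cases k2 : Pl x₂ x₁ x
        swap
        · filter_upwards [(t2.prodMk (t1.prodMk t3)).eventually (nin3_ev G.cPl k2),
            (t1.prodMk t2).eventually (dis_ev hxx)] with p hp hq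
          obtain ⟨f₁, f₂, f', h, d⟩ := p
          have e := s0 (star f₂) (star f₁) (star f') (star h) (by
            rw [ts_star, ts_star]; exact hq.symm) (by
            rw [ts_star, ts_star, ts_star]; exact hp)
          have e' := congrArg star e
          simp only [star_mul, map_star, star_star, star_zero] at e'
          change β₀ f' * (β f₁ * μ h * β f₂) * β₀ d = 0
          rw [mul_assoc (β f₁), e', zero_mul]
        exact (hf x hx x₁ hx₁ (G.iso x₂ x₁ x hxx.symm k2 (G.sym _ _ k1)).2).elim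
      rwa [map_one, mul_one] at h5
    have e1 : β₀ f' * (β (f * f₁) * μ h * β f₂) = 0 := by
      refine main (f * f₁) ?_ ?_
      · exact disjoint_left.2 fun x hx hx' => disjoint_left.1 hd (tsupport_mul_r _ _ hx) hx'
      · exact fun x hx y hy => hf x hx y (tsupport_mul_l _ _ hy)
    have e2 := congrArg (fun S : K →L[ℂ] K => S ξ) e1
    rw [map_mul] at e2
    exact e2
  have := loc_op β β (μ h) (fun f₁ f₂ hd => by
    have := z1 f₁ f₂ h hd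
    rw [mul_assoc] at this
    exact this) f
  exact this.symm

end main

end opp

end Vale.Agent.P092.H796
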