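import Vale.Agent.P092.H796.OppQ

/-!
P092 (helper796), Team P: ONE KEY IS ENOUGH, with a zero-one law for single pairs (no transitivity).
-/

set_option linter.all false

namespace Vale.Agent.P092.H796

open Set Topology Filter
open Vale.Agent.P092.H218 (loc loc_op mul_ap)
open Vale.Agent.P092.H232 (Nin two_ind split_fun split_inc tsupport_mul_l tsupport_mul_r)
open Vale.Agent.P092.H677 (sm ev_sm ev_sub ind1 ind2 ind5 nin_ev Col isClosed_col)
open Vale.Agent.P092.H831 (ts_star tot_vec tot_left tot_right join_comm comm_of_inv)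
open Vale.Agent.P092.SP (GQ pl_flip comm_self)

section gq

variable {P L X Z K : Type*} [TopologicalSpace X] [CompactSpace X] [T2Space X]
  [TopologicalSpace Z] [CompactSpace Z] [T2Space Z]
  [NormedAddCommGroup K] [InnerProductSpace ℂ K] [CompleteSpace K]
  {In : P → L → Prop} {IT : X → Z → Prop}

/-- A calculus `β` which is everywhere collinear with two points `b₀`, `b₁` of a line `μ` is on
`μ`. -/
theorem inc_of_perp (T : TQ IT) (hI : IsClosed {q : X × Z | IT q.1 q.2})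
    {β b₀ b₁ : C(X, ℂ) →⋆ₐ[ℂ] (K →L[ℂ] K)} {μ : C(Z, ℂ) →⋆ₐ[ℂ] (K →L[ℂ] K)}
    (c01 : ∀ f g, Commute (b₀ f) (b₁ g)) (p0 : PL IT b₀ μ) (p1 : PL IT b₁ μ)
    (a01 : ∀ ξ, (∀ φ, b₀ φ ξ = b₁ φ ξ) → ξ = 0)
    (q0 : ∀ f f', Nin (Col IT) f f' → β f * b₀ f' = 0)
    (q1 : ∀ f f', Nin (Col IT) f f' → β f * b₁ f' = 0) (f : C(X, ℂ)) (h : C(Z, ℂ))
    (hn : Nin IT f h) : β f * μ h = 0 := by
  refine tot_right b₀ b₁ a01 _ fun a a' haa => ?_
  have h5 : β f * μ h * b₀ a * b₁ a' * b₁ 1 = 0 := by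
    refine ind5 (fun f h a a' (d : C(X, ℂ)) => β f * μ h * b₀ a * b₁ a' * b₁ d) ?_ ?_ ?_ ?_ ?_ ?_
    · intros; simp only [map_add, add_mul, mul_add]
    · intros; simp only [map_add, add_mul, mul_add]
    · intros; simp only [map_add, add_mul, mul_add]
    · intros; simp only [map_add, add_mul, mul_add]
    · intros; simp only [map_add, add_mul, mul_add]
    intro x hx z hz y hy y' hy' d hd
    have hyy : y ≠ y' := fun e => disjoint_left.1 haa hy (e ▸ hy')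
    have t1 : Tendsto (fun p : C(X, ℂ) × C(Z, ℂ) × C(X, ℂ) × C(X, ℂ) × C(X, ℂ) => p.1)
      (sm {x} ×ˢ sm {z} ×ˢ sm {y} ×ˢ sm {y'} ×ˢ sm {d}) (sm {x}) := tendsto_fst
    have t2 : Tendsto (fun p : C(X, ℂ) × C(Z, ℂ) × C(X, ℂ) × C(X, ℂ) × C(X, ℂ) => p.2.1)
      (sm {x} ×ˢ sm {z} ×ˢ sm {y} ×ˢ sm {y'} ×ˢ sm {d}) (sm {z}) :=
      tendsto_fst.comp tendsto_snd
    have t3 : Tendsto (fun p : C(X, ℂ) × C(Z, ℂ) × C(X, ℂ) × C(X, ℂ) × C(X, ℂ) => p.2.2.1)
      (sm {x} ×ˢ sm {z} ×ˢ sm {y} ×ˢ sm {y'} ×ˢ sm {d}) (sm {y}) :=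
      tendsto_fst.comp (tendsto_snd.comp tendsto_snd)
    have t4 : Tendsto (fun p : C(X, ℂ) × C(Z, ℂ) × C(X, ℂ) × C(X, ℂ) × C(X, ℂ) => p.2.2.2.1)
      (sm {x} ×ˢ sm {z} ×ˢ sm {y} ×ˢ sm {y'} ×ˢ sm {d}) (sm {y'}) :=
      tendsto_fst.comp (tendsto_snd.comp (tendsto_snd.comp tendsto_snd))
    have hC := isClosed_col hI
    by_cases k1 : IT y z
    swap
    · filter_upwards [(t3.prodMk t2).eventually (nin_ev hI k1)] with p hp
      obtain ⟨f, h, a, a', d⟩ := p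
      change β f * μ h * b₀ a * b₁ a' * b₁ d = 0
      have i1 : μ h * b₀ a = 0 := by
        rw [← (p0.com a h).eq]; exact p0.inc _ _ hp
      rw [mul_assoc (β f), i1, mul_zero, zero_mul, zero_mul]
    by_cases k2 : IT y' z
    swap
    · filter_upwards [(t4.prodMk t2).eventually (nin_ev hI k2)] with p hp
      obtain ⟨f, h, a, a', d⟩ := p
      change β f * μ h * b₀ a * b₁ a' * b₁ d = 0
      have i1 : μ h * b₁ a' = 0 := by
        rw [← (p1.com a' h).eq]; exact p1.inc _ _ hp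
      rw [mul_assoc _ (b₀ a), (c01 a a').eq, ← mul_assoc, mul_assoc (β f), i1, mul_zero, zero_mul,
        zero_mul]
    by_cases k3 : Col IT x y
    swap
    · filter_upwards [(t1.prodMk t3).eventually (nin_ev hC k3)] with p hp
      obtain ⟨f, h, a, a', d⟩ := p
      change β f * μ h * b₀ a * b₁ a' * b₁ d = 0
      rw [mul_assoc (β f), ← (p0.com a h).eq, ← mul_assoc, q0 _ _ hp, zero_mul, zero_mul,
        zero_mul]
    by_cases k4 : Col IT x y'
    swap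
    · filter_upwards [(t1.prodMk t4).eventually (nin_ev hC k4)] with p hp
      obtain ⟨f, h, a, a', d⟩ := p
      change β f * μ h * b₀ a * b₁ a' * b₁ d = 0
      rw [mul_assoc _ (b₀ a), (c01 a a').eq, ← mul_assoc, mul_assoc (β f), ← (p1.com a' h).eq,
        ← mul_assoc, q1 _ _ hp, zero_mul, zero_mul, zero_mul]
    obtain ⟨q, hq1, hq2⟩ := k3
    obtain ⟨q', hq1', hq2'⟩ := k4
    exact (hyy (T.tri y y' x z q q' (hn x hx z hz) hq2 hq1 hq2' hq1' k1 k2)).elim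
  rwa [map_one, mul_one] at h5

/-- Two lines `μ`, `ν` on two points `β`, `γ` are equal somewhere. -/
theorem lines_absurd (T : TQ IT) (hI : IsClosed {q : X × Z | IT q.1 q.2})
    {β γ : C(X, ℂ) →⋆ₐ[ℂ] (K →L[ℂ] K)} {μ ν : C(Z, ℂ) →⋆ₐ[ℂ] (K →L[ℂ] K)}
    (cβγ : ∀ f g, Commute (β f) (γ g)) (pβ : PL IT β ν) (pγ : PL IT γ ν)
    (abc : ∀ ξ, (∀ φ, β φ ξ = γ φ ξ) → ξ = 0) (amn : ∀ ξ, (∀ φ, μ φ ξ = ν φ ξ) → ξ = 0)
    (q0 : ∀ f h, Nin IT f h → β f * μ h = 0) (q1 : ∀ f h, Nin IT f h → γ f * μ h = 0) (ζ : K) :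
    ζ = 0 := by
  refine tot_vec ν μ (fun ξ h => amn ξ fun φ => (h φ).symm) ζ fun a' a haa => ?_
  have q0' : ∀ (u : C(X, ℂ)) (a : C(Z, ℂ)), Nin IT u a → μ a * β u = 0 := by
    intro u a hn
    have h1 := q0 (star u) (star a) (by
      intro x hx y hy
      rw [ts_star] at hx hy
      exact hn x hx y hy)
    have h2 := congrArg star h1
    simpa only [star_mul, map_star, star_star, star_zero] using h2
  have q1' : ∀ (u : C(X, ℂ)) (a : C(Z, ℂ)), Nin IT u a → μ a * γ u = 0 := by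
    intro u a hn
    have h1 := q1 (star u) (star a) (by
      intro x hx y hy
      rw [ts_star] at hx hy
      exact hn x hx y hy)
    have h2 := congrArg star h1
    simpa only [star_mul, map_star, star_star, star_zero] using h2
  have main : μ a * ν a' = 0 := by
    refine tot_right β γ abc _ fun u u' huu => ?_
    have h5 : μ a * ν a' * β u * γ u' * γ 1 = 0 := by
      refine ind5 (fun a a' u u' (d : C(X, ℂ)) => μ a * ν a' * β u * γ u' * γ d)
        ?_ ?_ ?_ ?_ ?_ ?_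
      · intros; simp only [map_add, add_mul, mul_add]
      · intros; simp only [map_add, add_mul, mul_add]
      · intros; simp only [map_add, add_mul, mul_add]
      · intros; simp only [map_add, add_mul, mul_add]
      · intros; simp only [map_add, add_mul, mul_add]
      intro z hz z' hz' y hy y' hy' d hd
      have hyy : y ≠ y' := fun e => disjoint_left.1 huu hy (e ▸ hy')
      have hzz : z ≠ z' := fun e => disjoint_left.1 haa hz' (e ▸ hz)
      have t1 : Tendsto (fun p : C(Z, ℂ) × C(Z, ℂ) × C(X, ℂ) × C(X, ℂ) × C(X, ℂ) => p.1)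
        (sm {z} ×ˢ sm {z'} ×ˢ sm {y} ×ˢ sm {y'} ×ˢ sm {d}) (sm {z}) := tendsto_fst
      have t2 : Tendsto (fun p : C(Z, ℂ) × C(Z, ℂ) × C(X, ℂ) × C(X, ℂ) × C(X, ℂ) => p.2.1)
        (sm {z} ×ˢ sm {z'} ×ˢ sm {y} ×ˢ sm {y'} ×ˢ sm {d}) (sm {z'}) :=
        tendsto_fst.comp tendsto_snd
      have t3 : Tendsto (fun p : C(Z, ℂ) × C(Z, ℂ) × C(X, ℂ) × C(X, ℂ) × C(X, ℂ) => p.2.2.1)
        (sm {z} ×ˢ sm {z'} ×ˢ sm {y} ×ˢ sm {y'} ×ˢ sm {d}) (sm {y}) :=
        tendsto_fst.comp (tendsto_snd.comp tendsto_snd)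
      have t4 : Tendsto (fun p : C(Z, ℂ) × C(Z, ℂ) × C(X, ℂ) × C(X, ℂ) × C(X, ℂ) => p.2.2.2.1)
        (sm {z} ×ˢ sm {z'} ×ˢ sm {y} ×ˢ sm {y'} ×ˢ sm {d}) (sm {y'}) :=
        tendsto_fst.comp (tendsto_snd.comp (tendsto_snd.comp tendsto_snd))
      have cc : ∀ u u', β u * γ u' = γ u' * β u := fun u u' => (cβγ u u').eq
      by_cases k1 : IT y z
      swap
      · filter_upwards [(t3.prodMk t1).eventually (nin_ev hI k1)] with p hp
        obtain ⟨a, a', u, u', d⟩ := p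
        change μ a * ν a' * β u * γ u' * γ d = 0
        rw [mul_assoc (μ a), ← (pβ.com u a').eq, ← mul_assoc, q0' u a hp, zero_mul, zero_mul,
          zero_mul]
      by_cases k2 : IT y' z
      swap
      · filter_upwards [(t4.prodMk t1).eventually (nin_ev hI k2)] with p hp
        obtain ⟨a, a', u, u', d⟩ := p
        change μ a * ν a' * β u * γ u' * γ d = 0
        rw [mul_assoc _ (β u), cc, ← mul_assoc, mul_assoc (μ a), ← (pγ.com u' a').eq,
          ← mul_assoc, q1' u' a hp, zero_mul, zero_mul, zero_mul]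
      by_cases k3 : IT y z'
      swap
      · filter_upwards [(t3.prodMk t2).eventually (nin_ev hI k3)] with p hp
        obtain ⟨a, a', u, u', d⟩ := p
        change μ a * ν a' * β u * γ u' * γ d = 0
        rw [mul_assoc (μ a), ← (pβ.com u a').eq, pβ.inc _ _ hp, mul_zero, zero_mul, zero_mul]
      by_cases k4 : IT y' z'
      swap
      · filter_upwards [(t4.prodMk t2).eventually (nin_ev hI k4)] with p hp
        obtain ⟨a, a', u, u', d⟩ := p
        change μ a * ν a' * β u * γ u' * γ d = 0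
        rw [mul_assoc _ (β u), cc, ← mul_assoc, mul_assoc (μ a), ← (pγ.com u' a').eq,
          pγ.inc _ _ hp, mul_zero, zero_mul, zero_mul]
      exact (hzz (T.uniq y y' z z' hyy k1 k2 k3 k4)).elim
    rwa [map_one, mul_one] at h5
  exact congrArg (fun S : K →L[ℂ] K => S ζ) main

variable {e : P → (C(X, ℂ) →⋆ₐ[ℂ] (K →L[ℂ] K))} {F : L → (C(Z, ℂ) →⋆ₐ[ℂ] (K →L[ℂ] K))}

/-- **ONE KEY IS ENOUGH**, zero-one law for single pairs. `af`: lines through a common point. -/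
theorem gq_one_p (S : GQ In)
    (p3 : ∀ l x, In x l → ∃ y z, y ≠ x ∧ z ≠ x ∧ y ≠ z ∧ In y l ∧ In z l) (T : TQ IT)
    (hI : IsClosed {q : X × Z | IT q.1 q.2}) {Pl : X → X → X → Prop} (G : PGeo (Col IT) Pl)
    (pl : ∀ c l, In c l → PL IT (e c) (F l))
    (ae : ∀ v v', v ≠ v' → ∀ ξ, (∀ φ, e v φ ξ = e v' φ ξ) → ξ = 0)
    (af : ∀ c v v', In c v → In c v' → v ≠ v' → ∀ ξ, (∀ φ, F v φ ξ = F v' φ ξ) → ξ = 0)
    (cp : ∀ l c c', In c l → In c' l → ∀ g g', Commute (e c' g) (e c g'))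
    (di : ∀ x x', (∀ l, In x l → ¬ In x' l) → (∀ f f', Nin (Col IT) f f' →
        e x f * e x' f' = 0) ∨
      ∀ ζ, (∀ f f', Nin (Col IT) f f' → e x f (e x' f' ζ) = 0) → ζ = 0) :
    (∀ c c' g g', Commute (e c g) (e c' g')) ∧ (∀ l l' g g', Commute (F l g) (F l' g')) ∧
      ∀ c l g h, Commute (e c g) (F l h) := by
  have pc : ∀ l c c', In c l → In c' l → PL (Col IT) (e c) (e c') := fun l c c' h h' =>
    ⟨fun f g => cp l c' c h' h f g, fun f g hn => col_inc hI (pl c l h) (pl c' l h') f g hn⟩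
  have csym : ∀ {f f' : C(X, ℂ)}, Nin (Col IT) f f' → Nin (Col IT) f' f :=
    fun hn x hx y hy ⟨z, h1, h2⟩ => hn y hy x hx ⟨z, h2, h1⟩
  have ef : ∀ c l g h, Commute (e c g) (F l h) := by
    intro b m f h
    by_cases hbm : In b m
    · exact (pl b m hbm).com f h
    obtain ⟨c, n, hbn, hcn, hcm⟩ := S.foot b m hbm
    obtain ⟨b₀, b₁, n0, n1, n01, h0, h1⟩ := p3 m c hcm
    have opp : ∀ y, y ≠ c → In y m → ∀ l, In b l → ¬ In y l := by
      intro y hy hym l hbl hyl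
      exact hy (S.tri y c b m l n hbm hyl hbl hcn hbn hym hcm)
    have hbc : b ≠ c := by rintro rfl; exact hbm hcm
    have hmn : m ≠ n := by rintro rfl; exact hbm hbn
    obtain ⟨l', hl', hbl'⟩ : ∃ l', l' ≠ n ∧ In b l' := by
      obtain ⟨l₁, l₂, h12, h3, h4⟩ := S.ln2 b
      by_cases hn : l₁ = n
      · exact ⟨l₂, fun h => h12 (hn.trans h.symm), h4⟩
      · exact ⟨l₁, hn, h3⟩
    have dd : ∀ y, y ≠ c → In y m → ∃ d k, d ≠ c ∧ In y k ∧ In d k ∧ In d l' := by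
      intro y hy hym
      obtain ⟨d, k, a1, a2, a3⟩ := S.foot y l' (opp y hy hym l' hbl')
      refine ⟨d, k, ?_, a1, a2, a3⟩
      rintro rfl
      exact hl' (S.uniq b d l' n hbc hbl' a3 hbn hcn)
    obtain ⟨d₀, k₀, e0, e1, e2, e3⟩ := dd b₀ n0 h0
    obtain ⟨d₁, k₁, e0', e1', e2', e3'⟩ := dd b₁ n1 h1
    rcases di b₀ b (fun l hl hl' => opp b₀ n0 h0 l hl' hl) with q0 | q0
    swap
    · exact opp_pl hI T.uniq G (pc n b c hbn hcn) (pc l' b d₀ hbl' e3) (pc l' b d₁ hbl' e3')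
        (pc m b₀ c h0 hcm) (pc m b₁ c h1 hcm) (pc k₀ b₀ d₀ e1 e2) (pc k₁ b₁ d₁ e1' e2')
        (pc m b₀ b₁ h0 h1) (pl b₀ m h0) (pl b₁ m h1) (pl c m hcm) (ae b₀ c n0) (ae b₁ c n1)
        (ae c d₀ e0.symm) (ae c d₁ e0'.symm) (ae b₀ b₁ n01) q0 f h
    rcases di b₁ b (fun l hl hl' => opp b₁ n1 h1 l hl' hl) with q1 | q1
    swap
    · exact opp_pl hI T.uniq G (pc n b c hbn hcn) (pc l' b d₁ hbl' e3') (pc l' b d₀ hbl' e3)
        (pc m b₁ c h1 hcm) (pc m b₀ c h0 hcm) (pc k₁ b₁ d₁ e1' e2') (pc k₀ b₀ d₀ e1 e2)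
        (pc m b₁ b₀ h1 h0) (pl b₁ m h1) (pl b₀ m h0) (pl c m hcm) (ae b₁ c n1) (ae b₀ c n0)
        (ae c d₁ e0'.symm) (ae c d₀ e0.symm) (ae b₁ b₀ n01.symm) q1 f h
    have st : ∀ y, (∀ f f', Nin (Col IT) f f' → e y f * e b f' = 0) →
        ∀ f f', Nin (Col IT) f f' → e b f * e y f' = 0 := by
      intro y hq f f' hn
      have h1 := hq (star f') (star f) (by
        intro x hx y hy hxy
        rw [ts_star] at hx hy
        exact csym hn x hx y hy hxy)
      have h2 := congrArg star h1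
      simpa only [star_mul, map_star, star_star, star_zero] using h2
    have hin := inc_of_perp T hI (fun f g => cp m b₁ b₀ h1 h0 f g) (pl b₀ m h0) (pl b₁ m h1)
      (ae b₀ b₁ n01) (st b₀ q0) (st b₁ q1)
    have hz := lines_absurd T hI (fun f g => cp n c b hcn hbn f g) (pl b n hbn) (pl c n hcn)
      (ae b c hbc) (af c m n hcm hcn hmn) hin (pl c m hcm).inc
    change e b f * F m h = F m h * e b f
    ext ζ
    rw [hz ((e b f * F m h) ζ), hz ((F m h * e b f) ζ)]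
  have ff : ∀ l l' g g', Commute (F l g) (F l' g') := by
    intro l l' g g'
    obtain ⟨b, b', hbb, hb, hb'⟩ := S.pt2 l'
    exact join_comm hI T.uniq (e b) (e b') (F l') (fun u v => cp l' b' b hb' hb u v)
      (pl b l' hb).com (pl b' l' hb').com (pl b l' hb).inc (pl b' l' hb').inc (ae b b' hbb)
      (F l g) (fun u => (ef b l u g).symm) (fun u => (ef b' l u g).symm) g'
  refine ⟨fun c c' g g' => ?_, ff, ef⟩
  obtain ⟨m, m', hmm, hm, hm'⟩ := S.ln2 c'
  have hI' : IsClosed {p : Z × X | flip IT p.1 p.2} :=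
    hI.preimage (f := fun q : Z × X => (q.2, q.1)) (by fun_prop)
  have q1 := pl_flip (pl c' m hm)
  have q2 := pl_flip (pl c' m' hm')
  exact join_comm hI' T.uniq' (F m) (F m') (e c') (fun u v => ff m m' u v) q1.com q2.com
    q1.inc q2.inc (af c' m m' hm hm' hmm) (e c g) (fun u => ef c m g u) (fun u => ef c m' g u) g'

end gq

end Vale.Agent.P092.H796
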