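import Vale.Agent.P092.H796.Opp
import Vale.Agent.P092.SP.Gq

/-!
P092 (helper796), Team P: ONE KEY IS ENOUGH, for a generalised quadrangle.

`gq_one`: the source is a generalised quadrangle (at least three points on a line), the target a
quadrangle with regular points. If collinear points commute, then everything commutes.
`gq_one_t`: the same for a target with `TQ` only (no feet), e.g. the singular subspaces of
dimensions `r - 1`, `r` of a symplectic space of dimension `2 r`.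
-/

set_option linter.all false

namespace Vale.Agent.P092.H796

open Set Topology Filter
open Vale.Agent.P092.H218 (loc loc_op mul_ap)
open Vale.Agent.P092.H232 (Nin two_ind split_fun split_inc tsupport_mul_l tsupport_mul_r)
open Vale.Agent.P092.H677 (sm ev_sm ev_sub ind1 ind2 ind5 nin_ev Col isClosed_col)
open Vale.Agent.P092.H831 (ts_star tot_vec tot_left tot_right join_comm comm_of_inv)
open Vale.Agent.P092.SP (GQ pl_flip comm_self)

section gq

variable {P L X Z K : Type*} [TopologicalSpace X] [CompactSpace X] [T2Space X]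
  [TopologicalSpace Z] [CompactSpace Z] [T2Space Z]
  [NormedAddCommGroup K] [InnerProductSpace ℂ K] [CompleteSpace K]
  {In : P → L → Prop} {IT : X → Z → Prop}
  {e : P → (C(X, ℂ) →⋆ₐ[ℂ] (K →L[ℂ] K))} {F : L → (C(Z, ℂ) →⋆ₐ[ℂ] (K →L[ℂ] K))}

/-- What is used of the target: two points are on at most one line, no triangles. -/
structure TQ (IT : X → Z → Prop) : Prop where
  uniq : ∀ x x' y y', x ≠ x' → IT x y → IT x' y → IT x y' → IT x' y' → y = y'
  tri : ∀ x x' z n m m', ¬ IT z n → IT x m → IT z m → IT x' m' → IT z m' → IT x n →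
    IT x' n → x = x'

theorem TQ.of_gq (T : GQ IT) : TQ IT := ⟨T.uniq, T.tri⟩

theorem TQ.uniq' (T : TQ IT) (y y' : Z) (x x' : X) (h : y ≠ y') (h1 : IT x y) (h2 : IT x y')
    (h3 : IT x' y) (h4 : IT x' y') : x = x' := by
  by_contra hx
  exact h (T.uniq x x' y y' hx h1 h3 h2 h4)

/-- Two points of a line are exactly collinear. -/
theorem col_inc (hI : IsClosed {q : X × Z | IT q.1 q.2}) {b c : C(X, ℂ) →⋆ₐ[ℂ] (K →L[ℂ] K)}
    {l : C(Z, ℂ) →⋆ₐ[ℂ] (K →L[ℂ] K)} (hb : PL IT b l) (hc : PL IT c l) (f g : C(X, ℂ))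
    (hn : Nin (Col IT) f g) : b f * c g = 0 := by
  refine two_ind (A := K →L[ℂ] K) (S₁ := tsupport ⇑f) (S₂ := tsupport ⇑g)
    (fun f g => b f * c g) (fun u' u'' h' => by simp only [map_add, add_mul])
    (fun u' h' h'' => by simp only [mul_add, map_add])
    (isClosed_tsupport _).isCompact (isClosed_tsupport _).isCompact
    (fun x hx y hy => ?_) f g subset_rfl subset_rfl
  obtain ⟨v₁, v₂, hv, O, V, hO, hxO, hV, hyV, h1, h2⟩ := split_inc hI hI (x := x) (y := y)
    (1 : C(Z, ℂ)) (fun z _ hz hz' => hn x hx y hy ⟨z, hz, hz'⟩)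
  refine ⟨O, V, hO, hxO, hV, hyV, fun u a hu ha => ?_⟩
  have e1 : b u * l v₁ = 0 := hb.inc _ _ (h1 u hu)
  have e2 : l v₂ * c a = 0 := by rw [← (hc.com a v₂).eq]; exact hc.inc _ _ (h2 a ha)
  calc b u * c a = b u * l 1 * c a := by rw [map_one, mul_one]
    _ = b u * l v₁ * c a + b u * (l v₂ * c a) := by
        rw [hv, map_add, mul_add, add_mul, mul_assoc (b u) (l v₂)]
    _ = 0 := by rw [e1, e2, zero_mul, mul_zero, add_zero]

/-- Opposite points which are everywhere collinear: a point and a line which are not incident are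
exactly incident. -/
theorem flag_of_perp (S : GQ In)
    (p3 : ∀ l x, In x l → ∃ y z, y ≠ x ∧ z ≠ x ∧ y ≠ z ∧ In y l ∧ In z l) (T : TQ IT)
    (hI : IsClosed {q : X × Z | IT q.1 q.2}) (pl : ∀ c l, In c l → PL IT (e c) (F l))
    (ae : ∀ v v', v ≠ v' → ∀ ξ, (∀ φ, e v φ ξ = e v' φ ξ) → ξ = 0)
    (cp : ∀ l c c', In c l → In c' l → ∀ g g', Commute (e c' g) (e c g'))
    (pp : ∀ x x', (∀ l, In x l → ¬ In x' l) → ∀ f f', Nin (Col IT) f f' → e x f * e x' f' = 0)
    (b : P) (m : L) (f : C(X, ℂ)) (h : C(Z, ℂ)) (hn : Nin IT f h) : e b f * F m h = 0 := by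
  by_cases hbm : In b m
  · exact (pl b m hbm).inc _ _ hn
  obtain ⟨c, n, hbn, hcn, hcm⟩ := S.foot b m hbm
  obtain ⟨b₀, b₁, n0, n1, n01, h0, h1⟩ := p3 m c hcm
  have opp : ∀ y, y ≠ c → In y m → ∀ l, In b l → ¬ In y l := by
    intro y hy hym l hbl hyl
    exact hy (S.tri y c b m l n hbm hyl hbl hcn hbn hym hcm)
  refine tot_right (e b₀) (e b₁) (ae b₀ b₁ n01) _ fun a a' haa => ?_
  have h5 : e b f * F m h * e b₀ a * e b₁ a' * e b₁ 1 = 0 := by
    refine ind5 (fun f h a a' (d : C(X, ℂ)) => e b f * F m h * e b₀ a * e b₁ a' * e b₁ d)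
      ?_ ?_ ?_ ?_ ?_ ?_
    · intros; simp only [map_add, add_mul, mul_add]
    · intros; simp only [map_add, add_mul, mul_add]
    · intros; simp only [map_add, add_mul, mul_add]
    · intros; simp only [map_add, add_mul, mul_add]
    · intros; simp only [map_add, add_mul, mul_add]
    intro x hx z hz y hy y' hy' d hd
    have hyy : y ≠ y' := fun e => disjoint_left.1 haa hy (e ▸ hy')
    have t1 : Tendsto (fun p : C(X, ℂ) × C(Z, ℂ) × C(X, ℂ) × C(X, ℂ) × C(X, ℂ) => p.1)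
      (sm {x} ×ˢ sm {z} ×ˢ sm {y} ×ˢ sm {y'} ×ˢ sm {d}) (sm {x}) := tendsto_fst
    have t2 : Tendsto (fun p : C(X, ℂ) × C(Z, ℂ) × C(X, ℂ) × C(X, ℂ) × C(X, ℂ) => p.2.1)
      (sm {x} ×ˢ sm {z} ×ˢ sm {y} ×ˢ sm {y'} ×ˢ sm {d}) (sm {z}) :=
      tendsto_fst.comp tendsto_snd
    have t3 : Tendsto (fun p : C(X, ℂ) × C(Z, ℂ) × C(X, ℂ) × C(X, ℂ) × C(X, ℂ) => p.2.2.1)
      (sm {x} ×ˢ sm {z} ×ˢ sm {y} ×ˢ sm {y'} ×ˢ sm {d}) (sm {y}) :=
      tendsto_fst.comp (tendsto_snd.comp tendsto_snd)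
    have t4 : Tendsto (fun p : C(X, ℂ) × C(Z, ℂ) × C(X, ℂ) × C(X, ℂ) × C(X, ℂ) => p.2.2.2.1)
      (sm {x} ×ˢ sm {z} ×ˢ sm {y} ×ˢ sm {y'} ×ˢ sm {d}) (sm {y'}) :=
      tendsto_fst.comp (tendsto_snd.comp (tendsto_snd.comp tendsto_snd))
    have hC := isClosed_col hI
    by_cases k1 : IT y z
    swap
    · filter_upwards [(t3.prodMk t2).eventually (nin_ev hI k1)] with p hp
      obtain ⟨f, h, a, a', d⟩ := p
      change e b f * F m h * e b₀ a * e b₁ a' * e b₁ d = 0
      have i1 : F m h * e b₀ a = 0 := by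
        rw [← ((pl b₀ m h0).com a h).eq]; exact (pl b₀ m h0).inc _ _ hp
      rw [mul_assoc (e b f), i1, mul_zero, zero_mul, zero_mul]
    by_cases k2 : IT y' z
    swap
    · filter_upwards [(t4.prodMk t2).eventually (nin_ev hI k2)] with p hp
      obtain ⟨f, h, a, a', d⟩ := p
      change e b f * F m h * e b₀ a * e b₁ a' * e b₁ d = 0
      have i1 : F m h * e b₁ a' = 0 := by
        rw [← ((pl b₁ m h1).com a' h).eq]; exact (pl b₁ m h1).inc _ _ hp
      have i2 := (cp m b₁ b₀ h1 h0 a a').eq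
      rw [mul_assoc _ (e b₀ a), i2, ← mul_assoc, mul_assoc (e b f), i1, mul_zero, zero_mul,
        zero_mul]
    by_cases k3 : Col IT x y
    swap
    · filter_upwards [(t1.prodMk t3).eventually (nin_ev hC k3)] with p hp
      obtain ⟨f, h, a, a', d⟩ := p
      change e b f * F m h * e b₀ a * e b₁ a' * e b₁ d = 0
      have i1 : e b f * e b₀ a = 0 := pp b b₀ (opp b₀ n0 h0) _ _ hp
      rw [mul_assoc (e b f), ← ((pl b₀ m h0).com a h).eq, ← mul_assoc, i1, zero_mul, zero_mul,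
        zero_mul]
    by_cases k4 : Col IT x y'
    swap
    · filter_upwards [(t1.prodMk t4).eventually (nin_ev hC k4)] with p hp
      obtain ⟨f, h, a, a', d⟩ := p
      change e b f * F m h * e b₀ a * e b₁ a' * e b₁ d = 0
      have i1 : e b f * e b₁ a' = 0 := pp b b₁ (opp b₁ n1 h1) _ _ hp
      have i2 := (cp m b₁ b₀ h1 h0 a a').eq
      rw [mul_assoc _ (e b₀ a), i2, ← mul_assoc, mul_assoc (e b f),
        ← ((pl b₁ m h1).com a' h).eq, ← mul_assoc, i1, zero_mul, zero_mul, zero_mul]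
    obtain ⟨q, hq1, hq2⟩ := k3
    obtain ⟨q', hq1', hq2'⟩ := k4
    exact (hyy (T.tri y y' x z q q' (hn x hx z hz) hq2 hq1 hq2' hq1' k1 k2)).elim
  rwa [map_one, mul_one] at h5

/-- **No quadrangle** in which opposite points are everywhere collinear. -/
theorem perp_absurd (S : GQ In)
    (p3 : ∀ l x, In x l → ∃ y z, y ≠ x ∧ z ≠ x ∧ y ≠ z ∧ In y l ∧ In z l) (T : TQ IT)
    (hI : IsClosed {q : X × Z | IT q.1 q.2}) (pl : ∀ c l, In c l → PL IT (e c) (F l))
    (ae : ∀ v v', v ≠ v' → ∀ ξ, (∀ φ, e v φ ξ = e v' φ ξ) → ξ = 0)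
    (af : ∀ v v', v ≠ v' → ∀ ξ, (∀ φ, F v φ ξ = F v' φ ξ) → ξ = 0)
    (cp : ∀ l c c', In c l → In c' l → ∀ g g', Commute (e c' g) (e c g'))
    (pp : ∀ x x', (∀ l, In x l → ¬ In x' l) → ∀ f f', Nin (Col IT) f f' → e x f * e x' f' = 0)
    (x₀ : P) (ζ : K) : ζ = 0 := by
  have fl := flag_of_perp S p3 T hI pl ae cp pp
  obtain ⟨m, m', hmm, -, -⟩ := S.ln2 x₀
  obtain ⟨b, b', hbb, hb, hb'⟩ := S.pt2 m'
  refine tot_vec (F m') (F m) (af m' m hmm.symm) ζ fun a' a haa => ?_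
  have main : F m a * F m' a' = 0 := by
    refine tot_right (e b) (e b') (ae b b' hbb) _ fun u u' huu => ?_
    have h5 : F m a * F m' a' * e b u * e b' u' * e b' 1 = 0 := by
      refine ind5 (fun a a' u u' (d : C(X, ℂ)) => F m a * F m' a' * e b u * e b' u' * e b' d)
        ?_ ?_ ?_ ?_ ?_ ?_
      · intros; simp only [map_add, add_mul, mul_add]
      · intros; simp only [map_add, add_mul, mul_add]
      · intros; simp only [map_add, add_mul, mul_add]
      · intros; simp only [map_add, add_mul, mul_add]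
      · intros; simp only [map_add, add_mul, mul_add]
      intro z hz z' hz' y hy y' hy' d hd
      have hyy : y ≠ y' := fun e => disjoint_left.1 huu hy (e ▸ hy')
      have hzz : z ≠ z' := fun e => disjoint_left.1 haa hz' (e ▸ hz)
      have t1 : Tendsto (fun p : C(Z, ℂ) × C(Z, ℂ) × C(X, ℂ) × C(X, ℂ) × C(X, ℂ) => p.1)
        (sm {z} ×ˢ sm {z'} ×ˢ sm {y} ×ˢ sm {y'} ×ˢ sm {d}) (sm {z}) := tendsto_fst
      have t2 : Tendsto (fun p : C(Z, ℂ) × C(Z, ℂ) × C(X, ℂ) × C(X, ℂ) × C(X, ℂ) => p.2.1)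
        (sm {z} ×ˢ sm {z'} ×ˢ sm {y} ×ˢ sm {y'} ×ˢ sm {d}) (sm {z'}) :=
        tendsto_fst.comp tendsto_snd
      have t3 : Tendsto (fun p : C(Z, ℂ) × C(Z, ℂ) × C(X, ℂ) × C(X, ℂ) × C(X, ℂ) => p.2.2.1)
        (sm {z} ×ˢ sm {z'} ×ˢ sm {y} ×ˢ sm {y'} ×ˢ sm {d}) (sm {y}) :=
        tendsto_fst.comp (tendsto_snd.comp tendsto_snd)
      have t4 : Tendsto (fun p : C(Z, ℂ) × C(Z, ℂ) × C(X, ℂ) × C(X, ℂ) × C(X, ℂ) => p.2.2.2.1)
        (sm {z} ×ˢ sm {z'} ×ˢ sm {y} ×ˢ sm {y'} ×ˢ sm {d}) (sm {y'}) :=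
        tendsto_fst.comp (tendsto_snd.comp (tendsto_snd.comp tendsto_snd))
      have fl' : ∀ (c : P) (u : C(X, ℂ)) (a : C(Z, ℂ)), Nin IT u a → F m a * e c u = 0 := by
        intro c u a hn
        have h1 := fl c m (star u) (star a) (by
          intro x hx y hy
          rw [ts_star] at hx hy
          exact hn x hx y hy)
        have h2 := congrArg star h1
        simpa only [star_mul, map_star, star_star, star_zero] using h2
      have pb := pl b m' hb
      have pb' := pl b' m' hb'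
      have cc : ∀ u u', e b u * e b' u' = e b' u' * e b u := fun u u' => (cp m' b' b hb' hb u u').eq
      by_cases k1 : IT y z
      swap
      · filter_upwards [(t3.prodMk t1).eventually (nin_ev hI k1)] with p hp
        obtain ⟨a, a', u, u', d⟩ := p
        change F m a * F m' a' * e b u * e b' u' * e b' d = 0
        have i1 : F m a * e b u = 0 := fl' b u a hp
        rw [mul_assoc (F m a), ← (pb.com u a').eq, ← mul_assoc, i1, zero_mul, zero_mul, zero_mul]
      by_cases k2 : IT y' z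
      swap
      · filter_upwards [(t4.prodMk t1).eventually (nin_ev hI k2)] with p hp
        obtain ⟨a, a', u, u', d⟩ := p
        change F m a * F m' a' * e b u * e b' u' * e b' d = 0
        have i1 : F m a * e b' u' = 0 := fl' b' u' a hp
        rw [mul_assoc _ (e b u), cc, ← mul_assoc, mul_assoc (F m a), ← (pb'.com u' a').eq,
          ← mul_assoc, i1, zero_mul, zero_mul, zero_mul]
      by_cases k3 : IT y z'
      swap
      · filter_upwards [(t3.prodMk t2).eventually (nin_ev hI k3)] with p hp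
        obtain ⟨a, a', u, u', d⟩ := p
        change F m a * F m' a' * e b u * e b' u' * e b' d = 0
        have i1 : e b u * F m' a' = 0 := pb.inc _ _ hp
        rw [mul_assoc (F m a), ← (pb.com u a').eq, i1, mul_zero, zero_mul, zero_mul]
      by_cases k4 : IT y' z'
      swap
      · filter_upwards [(t4.prodMk t2).eventually (nin_ev hI k4)] with p hp
        obtain ⟨a, a', u, u', d⟩ := p
        change F m a * F m' a' * e b u * e b' u' * e b' d = 0
        have i1 : e b' u' * F m' a' = 0 := pb'.inc _ _ hp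
        rw [mul_assoc _ (e b u), cc, ← mul_assoc, mul_assoc (F m a), ← (pb'.com u' a').eq, i1,
          mul_zero, zero_mul, zero_mul]
      exact (hzz (T.uniq y y' z z' hyy k1 k2 k3 k4)).elim
    rwa [map_one, mul_one] at h5
  exact congrArg (fun S : K →L[ℂ] K => S ζ) main

/-- **ONE KEY IS ENOUGH**: if collinear points commute, then everything commutes. -/
theorem gq_one_t (S : GQ In)
    (p3 : ∀ l x, In x l → ∃ y z, y ≠ x ∧ z ≠ x ∧ y ≠ z ∧ In y l ∧ In z l) (T : TQ IT)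
    (hI : IsClosed {q : X × Z | IT q.1 q.2}) {Pl : X → X → X → Prop} (G : PGeo (Col IT) Pl)
    (pl : ∀ c l, In c l → PL IT (e c) (F l))
    (ae : ∀ v v', v ≠ v' → ∀ ξ, (∀ φ, e v φ ξ = e v' φ ξ) → ξ = 0)
    (af : ∀ v v', v ≠ v' → ∀ ξ, (∀ φ, F v φ ξ = F v' φ ξ) → ξ = 0)
    (cp : ∀ l c c', In c l → In c' l → ∀ g g', Commute (e c' g) (e c g'))
    (di : (∀ x x', (∀ l, In x l → ¬ In x' l) → ∀ f f', Nin (Col IT) f f' →
        e x f * e x' f' = 0) ∨
      ∀ x x', (∀ l, In x l → ¬ In x' l) → ∀ ζ, (∀ f f', Nin (Col IT) f f' →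
        e x f (e x' f' ζ) = 0) → ζ = 0) :
    (∀ c c' g g', Commute (e c g) (e c' g')) ∧ (∀ l l' g g', Commute (F l g) (F l' g')) ∧
      ∀ c l g h, Commute (e c g) (F l h) := by
  have pc : ∀ l c c', In c l → In c' l → PL (Col IT) (e c) (e c') := fun l c c' h h' =>
    ⟨fun f g => cp l c' c h' h f g, fun f g hn => col_inc hI (pl c l h) (pl c' l h') f g hn⟩
  have ef : ∀ c l g h, Commute (e c g) (F l h) := by
    intro b m f h
    by_cases hbm : In b m
    · exact (pl b m hbm).com f h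
    rcases di with di | di
    · have h0 := perp_absurd S p3 T hI pl ae af cp di b
      change e b f * F m h = F m h * e b f
      ext ζ
      rw [h0 ((e b f * F m h) ζ), h0 ((F m h * e b f) ζ)]
    obtain ⟨c, n, hbn, hcn, hcm⟩ := S.foot b m hbm
    obtain ⟨b₀, b₁, n0, n1, n01, h0, h1⟩ := p3 m c hcm
    have opp : ∀ y, y ≠ c → In y m → ∀ l, In b l → ¬ In y l := by
      intro y hy hym l hbl hyl
      exact hy (S.tri y c b m l n hbm hyl hbl hcn hbn hym hcm)
    have hbc : b ≠ c := by rintro rfl; exact hbm hcm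
    obtain ⟨l', hl', hbl'⟩ : ∃ l', l' ≠ n ∧ In b l' := by
      obtain ⟨l₁, l₂, h12, h3, h4⟩ := S.ln2 b
      by_cases hn : l₁ = n
      · exact ⟨l₂, fun h => h12 (hn.trans h.symm), h4⟩
      · exact ⟨l₁, hn, h3⟩
    have dd : ∀ y, y ≠ c → In y m → ∃ d k, d ≠ c ∧ In y k ∧ In d k ∧ In d l' := by
      intro y hy hym
      obtain ⟨d, k, a1, a2, a3⟩ := S.foot y l' (opp y hy hym l' hbl')
      refine ⟨d, k, ?_, a1, a2, a3⟩
      rintro rfl
      exact hl' (S.uniq b d l' n hbc hbl' a3 hbn hcn)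
    obtain ⟨d₀, k₀, e0, e1, e2, e3⟩ := dd b₀ n0 h0
    obtain ⟨d₁, k₁, e0', e1', e2', e3'⟩ := dd b₁ n1 h1
    exact opp_pl hI T.uniq G (pc n b c hbn hcn) (pc l' b d₀ hbl' e3) (pc l' b d₁ hbl' e3')
      (pc m b₀ c h0 hcm) (pc m b₁ c h1 hcm) (pc k₀ b₀ d₀ e1 e2) (pc k₁ b₁ d₁ e1' e2')
      (pc m b₀ b₁ h0 h1) (pl b₀ m h0) (pl b₁ m h1) (pl c m hcm) (ae b₀ c n0) (ae b₁ c n1)
      (ae c d₀ e0.symm) (ae c d₁ e0'.symm) (ae b₀ b₁ n01)
      (fun ζ hζ => di b₀ b (fun l hl hl' => opp b₀ n0 h0 l hl' hl) ζ hζ) f h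
  have ff : ∀ l l' g g', Commute (F l g) (F l' g') := by
    intro l l' g g'
    obtain ⟨b, b', hbb, hb, hb'⟩ := S.pt2 l'
    exact join_comm hI T.uniq (e b) (e b') (F l') (fun u v => cp l' b' b hb' hb u v)
      (pl b l' hb).com (pl b' l' hb').com (pl b l' hb).inc (pl b' l' hb').inc (ae b b' hbb)
      (F l g) (fun u => (ef b l u g).symm) (fun u => (ef b' l u g).symm) g'
  refine ⟨fun c c' g g' => ?_, ff, ef⟩
  obtain ⟨m, m', hmm, hm, hm'⟩ := S.ln2 c'
  have hI' : IsClosed {p : Z × X | flip IT p.1 p.2} :=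
    hI.preimage (f := fun q : Z × X => (q.2, q.1)) (by fun_prop)
  have q1 := pl_flip (pl c' m hm)
  have q2 := pl_flip (pl c' m' hm')
  exact join_comm hI' T.uniq' (F m) (F m') (e c') (fun u v => ff m m' u v) q1.com q2.com
    q1.inc q2.inc (af m m' hmm) (e c g) (fun u => ef c m g u) (fun u => ef c m' g u) g'

/-- **ONE KEY IS ENOUGH**, the target is a quadrangle. -/
theorem gq_one (S : GQ In)
    (p3 : ∀ l x, In x l → ∃ y z, y ≠ x ∧ z ≠ x ∧ y ≠ z ∧ In y l ∧ In z l) (T : GQ IT)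
    (hI : IsClosed {q : X × Z | IT q.1 q.2}) {Pl : X → X → X → Prop} (G : PGeo (Col IT) Pl)
    (pl : ∀ c l, In c l → PL IT (e c) (F l))
    (ae : ∀ v v', v ≠ v' → ∀ ξ, (∀ φ, e v φ ξ = e v' φ ξ) → ξ = 0)
    (af : ∀ v v', v ≠ v' → ∀ ξ, (∀ φ, F v φ ξ = F v' φ ξ) → ξ = 0)
    (cp : ∀ l c c', In c l → In c' l → ∀ g g', Commute (e c' g) (e c g'))
    (di : (∀ x x', (∀ l, In x l → ¬ In x' l) → ∀ f f', Nin (Col IT) f f' →
        e x f * e x' f' = 0) ∨
      ∀ x x', (∀ l, In x l → ¬ In x' l) → ∀ ζ, (∀ f f', Nin (Col IT) f f' →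
        e x f (e x' f' ζ) = 0) → ζ = 0) :
    (∀ c c' g g', Commute (e c g) (e c' g')) ∧ (∀ l l' g g', Commute (F l g) (F l' g')) ∧
      ∀ c l g h, Commute (e c g) (F l h) :=
  gq_one_t S p3 (TQ.of_gq T) hI G pl ae af cp di

end gq

end Vale.Agent.P092.H796
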