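import Vale.Agent.P092.H796.OppQ
import Vale.Agent.P092.SP.Blocks
import Vale.Agent.P092.H631.P0Core
import Vale.Agent.P092.H714.SpM5

/-!
P092 (helper796), Team P: ONE KEY IS ENOUGH, in the letters of SP/Defs.

`comS'`: in a straight leg `Key2` implies that everything commutes.
`comF'`: in a flipped leg `Key1` implies that everything commutes.
`one_of'`: [P-1] from two keys instead of four.
-/

set_option linter.all false

open scoped InnerProductSpace ENNReal LinearAlgebra.Projectivization Matrix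
open Filter Topology ContinuousLinearMap MeasureTheory TopologicalSpace Module

namespace Vale.Agent.P092.H796

open Vale.Agent.P092.SP4
open Vale.Agent.P092.SP
open Vale.Agent.P092.RC (Cm Moore GG PG YY y0)
open Vale.Agent.P092.H232 (Nin)
open Vale.Agent.P092.H677 (Col)
open Vale.Agent.P092.H644.Gr3 (p1)
open Vale.Agent.P092.H100.Gr (Gr)

/-! ### Geometry -/

section geo

variable {k : Type} [NontriviallyNormedField k]

theorem col_iff {x y : YY k 3} : Col on x y ↔ prp x y := by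
  constructor
  · rintro ⟨z, h1, h2⟩
    exact prp_of_on h1 h2
  · intro h
    by_cases hne : x = y
    · subst hne
      obtain ⟨l, m, -, hl, -⟩ := exists_two_ln x
      exact ⟨l, hl, hl⟩
    · exact exists_ln hne h

/-- the span relation -/
def Pl4 (x₁ x₂ x : YY k 3) : Prop :=
  ∃ W : Gr k (Fin 4) 2, (p1 x₁).1 ≤ W.1 ∧ (p1 x₂).1 ≤ W.1 ∧ (p1 x).1 ≤ W.1

theorem rk_le {X Z : Submodule k (Fin 4 → k)} (h : ∀ x ∈ X, ∀ z ∈ Z, om x z = 0) :
    finrank k X + finrank k Z ≤ 4 := by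
  let Φ : (Fin 4 → k) →ₗ[k] Module.Dual k X :=
    { toFun := fun y =>
        { toFun := fun x => om x.1 y
          map_add' := fun a b => om_add_left a.1 b.1 y
          map_smul' := fun c a => om_smul_left c a.1 y }
      map_add' := fun a b => LinearMap.ext fun x => om_add_right x.1 a b
      map_smul' := fun c a => LinearMap.ext fun x => om_smul_right c x.1 a }
  have h1 : LinearMap.range Φ = ⊤ := by
    rw [LinearMap.range_eq_top]
    intro φ
    obtain ⟨y, hy⟩ := H370.Po.exists_prod frm4 X φ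
    exact ⟨y, LinearMap.ext fun x => hy x⟩
  have h2 : Z ≤ LinearMap.ker Φ := fun y hy => by
    rw [LinearMap.mem_ker]
    exact LinearMap.ext fun x => h x.1 x.2 y hy
  have h3 := LinearMap.finrank_range_add_finrank_ker Φ
  rw [h1, finrank_top, Subspace.dual_finrank_eq, Module.finrank_fin_fun] at h3
  have h4 := Submodule.finrank_mono h2
  omega

theorem two_le {x y : YY k 3} (hne : x ≠ y) : 2 ≤ finrank k ↥((p1 x).1 ⊔ (p1 y).1) :=
  H100.Gr.lt_sup (fun h => hne (H644.Gr3.p1_inj h))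

theorem plane_eq {x y : YY k 3} (hne : x ≠ y) {W : Gr k (Fin 4) 2} (h1 : (p1 x).1 ≤ W.1)
    (h2 : (p1 y).1 ≤ W.1) : (p1 x).1 ⊔ (p1 y).1 = W.1 := by
  have h5 : finrank k ↥((p1 x).1 ⊔ (p1 y).1) = 2 :=
    le_antisymm ((Submodule.finrank_mono (sup_le h1 h2)).trans_eq W.2) (two_le hne)
  exact Submodule.eq_of_le_of_finrank_eq (sup_le h1 h2) (h5.trans W.2.symm)

theorem mem_p1' {x : YY k 3} {a : Fin 4 → k} : a ∈ (p1 x).1 ↔ ∃ c : k, c • x.rep = a := by
  have hx : (p1 x).1 = Submodule.span k {x.rep} := by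
    change x.submodule = _
    rw [Projectivization.submodule_eq]
  rw [hx, Submodule.mem_span_singleton]

theorem om_sup {x y x' y' : YY k 3} (h1 : prp x x') (h2 : prp x y') (h3 : prp y x')
    (h4 : prp y y') : ∀ a ∈ (p1 x).1 ⊔ (p1 y).1, ∀ b ∈ (p1 x').1 ⊔ (p1 y').1, om a b = 0 := by
  intro a ha b hb
  obtain ⟨a₁, ha₁, a₂, ha₂, rfl⟩ := Submodule.mem_sup.1 ha
  obtain ⟨b₁, hb₁, b₂, hb₂, rfl⟩ := Submodule.mem_sup.1 hb
  obtain ⟨c₁, rfl⟩ := mem_p1'.1 ha₁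
  obtain ⟨c₂, rfl⟩ := mem_p1'.1 ha₂
  obtain ⟨d₁, rfl⟩ := mem_p1'.1 hb₁
  obtain ⟨d₂, rfl⟩ := mem_p1'.1 hb₂
  have e1 : om x.rep x'.rep = 0 := h1
  have e2 : om x.rep y'.rep = 0 := h2
  have e3 : om y.rep x'.rep = 0 := h3
  have e4 : om y.rep y'.rep = 0 := h4
  rw [om_add_left, om_add_right, om_add_right, om_smul_left, om_smul_left, om_smul_left,
    om_smul_left, om_smul_right, om_smul_right, om_smul_right, om_smul_right, e1, e2, e3, e4]
  ring

theorem prp_of_mem {x y : YY k 3} (h : om x.rep y.rep = 0) : prp x y := h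

theorem mk_mem {v : Fin 4 → k} (hv : v ≠ 0) :
    v ∈ (p1 (Projectivization.mk k v hv : YY k 3)).1 := by
  rw [H644.Gr3.p1_mk]
  exact Submodule.mem_span_singleton_self v

theorem rep_mem (x : YY k 3) : x.rep ∈ (p1 x).1 := mem_p1'.2 ⟨1, one_smul _ _⟩

theorem Pl4_closed [ProperSpace k] :
    IsClosed {q : YY k 3 × YY k 3 × YY k 3 | Pl4 q.1 q.2.1 q.2.2} := by
  have hc : IsClosed {p : YY k 3 × Gr k (Fin 4) 2 | (p1 p.1).1 ≤ p.2.1} := H644.Gr3.p1_le_closed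
  have h1 : IsClosed {q : (YY k 3 × YY k 3 × YY k 3) × Gr k (Fin 4) 2 |
      (p1 q.1.1).1 ≤ q.2.1 ∧ (p1 q.1.2.1).1 ≤ q.2.1 ∧ (p1 q.1.2.2).1 ≤ q.2.1} :=
    (hc.preimage (f := fun q : (YY k 3 × YY k 3 × YY k 3) × Gr k (Fin 4) 2 => (q.1.1, q.2))
      (by fun_prop)).inter
      ((hc.preimage (f := fun q : (YY k 3 × YY k 3 × YY k 3) × Gr k (Fin 4) 2 => (q.1.2.1, q.2))
        (by fun_prop)).inter
        (hc.preimage (f := fun q : (YY k 3 × YY k 3 × YY k 3) × Gr k (Fin 4) 2 =>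
          (q.1.2.2, q.2)) (by fun_prop)))
  have h2 := isClosedMap_fst_of_compactSpace _ h1
  convert h2 using 1
  ext q
  constructor
  · rintro ⟨z, h⟩; exact ⟨(q, z), h, rfl⟩
  · rintro ⟨⟨q', z⟩, h, rfl⟩; exact ⟨z, h⟩

/-- the points of `Sp_4` are regular -/
theorem pgeo4 [ProperSpace k] : PGeo (Col (on : YY k 3 → LL k → Prop)) (Pl4 (k := k)) where
  cP := H677.isClosed_col on_closed
  cPl := Pl4_closed
  sym x y := fun ⟨z, h1, h2⟩ => ⟨z, h2, h1⟩
  reg x₁ x₂ x z z' hx hz h1 h2 h3 h4 h5 h6 := by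
    rw [col_iff] at h1 h2 h3 h4 h5 h6
    obtain ⟨X, hX⟩ : ∃ X : Submodule k (Fin 4 → k), X = (p1 x₁).1 ⊔ (p1 x₂).1 ⊔ (p1 x).1 :=
      ⟨_, rfl⟩
    obtain ⟨Z, hZ⟩ : ∃ Z : Submodule k (Fin 4 → k), Z = (p1 z).1 ⊔ (p1 z').1 := ⟨_, rfl⟩
    have e1 : ∀ a ∈ X, ∀ b ∈ Z, om a b = 0 := by
      intro a ha b hb
      rw [hX] at ha
      rw [hZ] at hb
      obtain ⟨a₁, ha₁, a₂, ha₂, rfl⟩ := Submodule.mem_sup.1 ha
      rw [om_add_left, om_sup h1 h2 h3 h4 a₁ ha₁ b hb,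
        om_sup h5 h6 h5 h6 a₂ ((le_sup_left : (p1 x).1 ≤ (p1 x).1 ⊔ (p1 x).1) ha₂) b hb, add_zero]
    have e2 := rk_le e1
    have e3 : 2 ≤ finrank k Z := by rw [hZ]; exact two_le hz
    have e4 : 2 ≤ finrank k X := by
      refine (two_le hx).trans (Submodule.finrank_mono ?_)
      rw [hX]; exact le_sup_left
    have e6 : finrank k X = 2 := by omega
    refine ⟨(⟨X, e6⟩ : Gr k (Fin 4) 2), ?_, ?_, ?_⟩
    · change (p1 x₁).1 ≤ X
      rw [hX]; exact le_sup_left.trans le_sup_left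
    · change (p1 x₂).1 ≤ X
      rw [hX]; exact le_sup_right.trans le_sup_left
    · change (p1 x).1 ≤ X
      rw [hX]; exact le_sup_right
  two x₁ x₂ x x' hx hx' := by
    rintro ⟨W, a1, a2, a3⟩ ⟨W', b1, b2, b3⟩ h
    rw [col_iff] at h ⊢
    have e1 := plane_eq hx a1 a2
    have e2 := plane_eq hx b1 b2
    rw [← e1] at a3
    rw [← e2] at b3
    have e3 := plane_eq hx' (W := W) (by rw [← e1]; exact a3) (by rw [← e1]; exact b3)
    refine om_sup (prp_refl x) h (prp_symm h) (prp_refl x') _ ?_ _ ?_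
    · rw [e3]; exact a1 (rep_mem x₁)
    · rw [e3]; exact a2 (rep_mem x₂)
  iso x₁ x₂ x hx := by
    rintro ⟨W, a1, a2, a3⟩ h
    rw [col_iff] at h ⊢
    rw [col_iff]
    have e1 := plane_eq hx a1 a2
    rw [← e1] at a3
    exact ⟨om_sup (prp_refl x₁) h (prp_symm h) (prp_refl x₂) _ (a3 (rep_mem x)) _
      ((le_sup_left : (p1 x₁).1 ≤ _) (rep_mem x₁)),
      om_sup (prp_refl x₁) h (prp_symm h) (prp_refl x₂) _ (a3 (rep_mem x)) _
      ((le_sup_right : (p1 x₂).1 ≤ _) (rep_mem x₂))⟩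

theorem rep_ne {x y : YY k 3} (hne : x ≠ y) {l : k} (h : l • x.rep = y.rep) : False :=
  hne (H644.Gr3.p1_inj (H100.Gr.eq_of_le (H644.Gr3.mem_p1.2 (mem_p1'.2 ⟨l, h⟩)))).symm

/-- at least three points on a line -/
theorem three_pt (l : LL k) (x : YY k 3) (hx : on x l) :
    ∃ y z, y ≠ x ∧ z ≠ x ∧ y ≠ z ∧ on y l ∧ on z l := by
  obtain ⟨y, hy, hyl⟩ := exists_on_ne l x
  have h1 := on_iff.1 hx
  have h2 := on_iff.1 hyl
  have h0 : x.rep + y.rep ≠ 0 := by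
    intro h
    refine rep_ne hy.symm (l := -1) ?_
    rw [neg_smul, one_smul]
    exact neg_eq_of_add_eq_zero_right h
  refine ⟨y, Projectivization.mk k (x.rep + y.rep) h0, hy, ?_, ?_, hyl,
    (on_mk h0).2 (Submodule.add_mem _ h1 h2)⟩
  · intro h
    have h3 : x.rep + y.rep ∈ (p1 x).1 := by
      have := mk_mem h0
      rwa [h] at this
    obtain ⟨c, hc⟩ := mem_p1'.1 h3
    refine rep_ne hy.symm (l := c - 1) ?_
    rw [sub_smul, hc, one_smul]
    abel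
  · intro h
    have h3 : x.rep + y.rep ∈ (p1 y).1 := by
      have := mk_mem h0
      rwa [← h] at this
    obtain ⟨c, hc⟩ := mem_p1'.1 h3
    refine rep_ne hy (l := c - 1) ?_
    rw [sub_smul, hc, one_smul]
    abel

/-- at least three lines through a point -/
theorem three_ln (x : YY k 3) (l : LL k) (hx : on x l) :
    ∃ m n, m ≠ l ∧ n ≠ l ∧ m ≠ n ∧ on x m ∧ on x n := by
  obtain ⟨m, hm, hxm⟩ : ∃ m, m ≠ l ∧ on x m := by
    obtain ⟨l₁, l₂, h12, h3, h4⟩ := exists_two_ln x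
    by_cases hn : l₁ = l
    · exact ⟨l₂, fun h => h12 (hn.trans h.symm), h4⟩
    · exact ⟨l₁, hn, h3⟩
  obtain ⟨y, hy, hyl⟩ := exists_on_ne l x
  obtain ⟨z, hz, hzm⟩ := exists_on_ne m x
  have hzl : z.rep ∉ l.1.1 := fun h => hm (on_unique hz hzm hxm (on_iff.2 h) hx)
  have hym : y.rep ∉ m.1.1 := fun h => hm.symm (on_unique hy hyl hx (on_iff.2 h) hxm)
  have h0 : y.rep + z.rep ≠ 0 := by
    intro h
    refine hzl ?_
    rw [← neg_eq_of_add_eq_zero_right h]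
    exact Submodule.neg_mem _ (on_iff.1 hyl)
  have hzl' : y.rep + z.rep ∉ l.1.1 := fun h =>
    hzl ((Submodule.add_mem_iff_right _ (on_iff.1 hyl)).1 h)
  have hym' : y.rep + z.rep ∉ m.1.1 := fun h =>
    hym ((Submodule.add_mem_iff_left _ (on_iff.1 hzm)).1 h)
  have hp : prp x (Projectivization.mk k (y.rep + z.rep) h0) := by
    have hx0 := x.rep_nonzero
    have e : x = Projectivization.mk k x.rep hx0 := (Projectivization.mk_rep x).symm
    have e1 : om x.rep y.rep = 0 := prp_of_on hx hyl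
    have e2 : om x.rep z.rep = 0 := prp_of_on hxm hzm
    rw [e, prp_mk hx0 h0, om_add_right, e1, e2, add_zero]
  have hne : x ≠ Projectivization.mk k (y.rep + z.rep) h0 := by
    intro h
    refine hzl' ?_
    have h3 : y.rep + z.rep ∈ (p1 x).1 := by
      have := mk_mem h0
      rwa [← h] at this
    exact hx h3
  obtain ⟨n, hn1, hn2⟩ := exists_ln hne hp
  have hn3 := (on_mk h0).1 hn2
  refine ⟨m, n, hm, ?_, ?_, hxm, hn1⟩
  · rintro rfl; exact hzl' hn3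
  · rintro rfl; exact hym' hn3

theorem col_smul (g : S4 k) {x y : YY k 3} :
    Col (on : YY k 3 → LL k → Prop) (g • x) (g • y) ↔ Col on x y := by
  rw [col_iff, col_iff, prp_smul]

end geo

/-! ### The zero-one law -/

section zo

variable {k : Type} [NontriviallyNormedField k] [ProperSpace k] {E Γ K : Type} [Group E]
  [TopologicalSpace E] [Group Γ] [NormedAddCommGroup K] [InnerProductSpace ℂ K] [CompleteSpace K]
  {𝒰 : Ultrafilter ℕ} {ι : S4 k →* E} {a : E →* PG k 4} {π : E →* (K →L[ℂ] K)}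
  {lam : Γ →* (K →L[ℂ] K)} {W : Set (K →L[ℂ] K)} {Ω : K} {m : Set Γ → (K →L[ℂ] K)}
  {q : Γ → S4 k} {V Y : Type} [MulAction (S4 k) V] [TopologicalSpace Y] [CompactSpace Y]
  [MulAction (S4 k) Y] [ContinuousConstSMul (S4 k) Y] {R : Y → Y → Prop}

/-- the space on which the values of two calculi are in relation `R` -/
def RelSp (R : Y → Y → Prop) (b b' : C(Y, ℂ) →⋆ₐ[ℂ] (K →L[ℂ] K)) : Submodule ℂ K where
  carrier := {ζ | ∀ f f' : C(Y, ℂ), Nin R f f' → b f (b' f' ζ) = 0}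
  add_mem' {x y} hx hy f f' h := by rw [map_add, map_add, hx f f' h, hy f f' h, add_zero]
  zero_mem' f f' _ := by rw [map_zero, map_zero]
  smul_mem' c x hx f f' h := by rw [map_smul, map_smul, hx f f' h, smul_zero]

theorem mem_RelSp {b b' : C(Y, ℂ) →⋆ₐ[ℂ] (K →L[ℂ] K)} {ζ : K} :
    ζ ∈ RelSp R b b' ↔ ∀ f f' : C(Y, ℂ), Nin R f f' → b f (b' f' ζ) = 0 := Iff.rfl

theorem RelSp_closed (b b' : C(Y, ℂ) →⋆ₐ[ℂ] (K →L[ℂ] K)) :
    IsClosed (RelSp R b b' : Set K) := by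
  have e : (RelSp R b b' : Set K) = ⋂ (f : C(Y, ℂ)) (f' : C(Y, ℂ)) (_ : Nin R f f'),
      {ζ | b f (b' f' ζ) = 0} := by
    ext ζ
    simp only [Set.mem_iInter, Set.mem_setOf_eq]
    rfl
  rw [e]
  exact isClosed_iInter fun f => isClosed_iInter fun f' => isClosed_iInter fun _ =>
    isClosed_eq ((b f).continuous.comp (b' f').continuous) continuous_const

theorem ts_act (g : S4 k) (f : C(Y, ℂ)) {y : Y} (hy : y ∈ tsupport ⇑(act g f)) :
    g⁻¹ • y ∈ tsupport ⇑f := by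
  have hc : IsClosed ((fun y : Y => g⁻¹ • y) ⁻¹' tsupport ⇑f) :=
    (isClosed_tsupport _).preimage (continuous_const_smul g⁻¹)
  refine closure_minimal (fun z hz => ?_) hc hy
  exact subset_tsupport _ hz

theorem nin_act (hR : ∀ (g : S4 k) x y, R (g • x) (g • y) ↔ R x y) (g : S4 k) {f f' : C(Y, ℂ)}
    (h : Nin R f f') : Nin R (act g f) (act g f') := fun x hx y hy hxy =>
  h _ (ts_act g f hx) _ (ts_act g f' hy) ((hR g⁻¹ x y).2 hxy)

variable {F : V → (C(Y, ℂ) →⋆ₐ[ℂ] (K →L[ℂ] K))}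

/-- **zero-one law** for a pair with unbounded stabiliser -/
theorem rel_zo (adm : Adm ι a) (pic : RC.Pic π lam W Ω)
    (hR : ∀ (g : S4 k) x y, R (g • x) (g • y) ↔ R x y) (cm : ∀ v f, Cm W (F v f))
    (cov : ∀ γ v f, lam γ * F v f * lam γ⁻¹ = F v (act (q γ) f))
    (pcov : ∀ g v f, π (ι g) * F v f * π (ι g)⁻¹ = F (g • v) f) {v v' : V}
    (unb : ∀ C : ℝ, ∃ g : S4 k, (g • v = v ∧ g • v' = v') ∧ C ≤ nm g) :
    RelSp R (F v) (F v') = ⊥ ∨ RelSp R (F v) (F v') = ⊤ := by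
  have swap : ∀ {A B : K →L[ℂ] K}, A * B = B * A → ∀ ζ, A (B ζ) = B (A ζ) := fun h ζ =>
    congrArg (fun S : K →L[ℂ] K => S ζ) h
  refine (H631.P0.Bas.of_pic pic).zo
    (S := ι '' {g | g • v = v ∧ g • v' = v'}) (adm.moore _ fun C => ?_) (RelSp_closed _ _)
    ?_ ?_ ?_
  · obtain ⟨g, hg, hC⟩ := unb C
    exact ⟨g, hg, hC⟩
  · intro w hw ζ hζ f f' hf
    rw [swap (cm v' f' w hw), swap (cm v f w hw), hζ f f' hf, map_zero]
  · intro γ ζ hζ f f' hf
    have l1 : lam γ * lam γ⁻¹ = 1 := by rw [← map_mul, mul_inv_cancel, map_one]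
    have key : ∀ (u : V) (f : C(Y, ℂ)), F u f * lam γ = lam γ * F u (act (q γ⁻¹) f) := by
      intro u f
      have h1 := cov γ⁻¹ u f
      rw [inv_inv] at h1
      rw [← h1, mul_assoc (lam γ⁻¹), ← mul_assoc (lam γ), l1, one_mul]
    have k1 : F v' f' (lam γ ζ) = lam γ (F v' (act (q γ⁻¹) f') ζ) :=
      congrArg (fun S : K →L[ℂ] K => S ζ) (key v' f')
    have k2 : ∀ η, F v f (lam γ η) = lam γ (F v (act (q γ⁻¹) f) η) := fun η =>
      congrArg (fun S : K →L[ℂ] K => S η) (key v f)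
    rw [k1, k2, hζ _ _ (nin_act hR _ hf), map_zero]
  · rintro _ ⟨g, ⟨h1, h2⟩, rfl⟩ ζ hζ
    have p1 : π (ι g)⁻¹ * π (ι g) = 1 := by rw [← map_mul, inv_mul_cancel, map_one]
    have p2 : π (ι g) * π (ι g)⁻¹ = 1 := by rw [← map_mul, mul_inv_cancel, map_one]
    have key : ∀ (u : V), g • u = u → ∀ f : C(Y, ℂ), F u f * π (ι g) = π (ι g) * F u f := by
      intro u hu f
      have h3 := pcov g u f
      rw [hu] at h3
      calc F u f * π (ι g) = π (ι g) * F u f * π (ι g)⁻¹ * π (ι g) := by rw [h3]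
        _ = π (ι g) * F u f := by rw [mul_assoc, p1, mul_one]
    have key' : ∀ (u : V), g • u = u → ∀ f : C(Y, ℂ),
        F u f * π (ι g)⁻¹ = π (ι g)⁻¹ * F u f := by
      intro u hu f
      have h3 := pcov g u f
      rw [hu] at h3
      calc F u f * π (ι g)⁻¹ = π (ι g)⁻¹ * π (ι g) * (F u f * π (ι g)⁻¹) := by
            rw [p1, one_mul]
        _ = π (ι g)⁻¹ * (π (ι g) * F u f * π (ι g)⁻¹) := by simp only [mul_assoc]
        _ = _ := by rw [h3]
    refine ⟨fun f f' hf => ?_, fun f f' hf => ?_⟩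
    · rw [swap (key v' h2 f'), swap (key v h1 f), hζ f f' hf, map_zero]
    · rw [swap (key' v' h2 f'), swap (key' v h1 f), hζ f f' hf, map_zero]

/-- the zero-one law for all pairs of one orbit -/
theorem rel_di (adm : Adm ι a) (pic : RC.Pic π lam W Ω)
    (hR : ∀ (g : S4 k) x y, R (g • x) (g • y) ↔ R x y) (cm : ∀ v f, Cm W (F v f))
    (cov : ∀ γ v f, lam γ * F v f * lam γ⁻¹ = F v (act (q γ) f))
    (pcov : ∀ g v f, π (ι g) * F v f * π (ι g)⁻¹ = F (g • v) f) {O : V → V → Prop}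
    (unb : ∀ v v' : V, ∀ C : ℝ, ∃ g : S4 k, (g • v = v ∧ g • v' = v') ∧ C ≤ nm g)
    (tr : ∀ v v' u u', O v v' → O u u' → ∃ g : S4 k, g • v = u ∧ g • v' = u') :
    (∀ v v', O v v' → ∀ f f', Nin R f f' → F v f * F v' f' = 0) ∨
      ∀ v v', O v v' → ∀ ζ, (∀ f f', Nin R f f' → F v f (F v' f' ζ) = 0) → ζ = 0 := by
  by_cases hex : ∃ v v', O v v' ∧ RelSp R (F v) (F v') = ⊤
  · left
    obtain ⟨v, v', hO, ht⟩ := hex
    intro u u' hu f f' hf
    obtain ⟨g, rfl, rfl⟩ := tr v v' u u' hO hu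
    have p1 : π (ι g)⁻¹ * π (ι g) = 1 := by rw [← map_mul, inv_mul_cancel, map_one]
    have h0 : F v f * F v' f' = 0 := by
      ext ζ
      have : ζ ∈ RelSp R (F v) (F v') := by rw [ht]; trivial
      exact this f f' hf
    rw [← pcov, ← pcov]
    calc π (ι g) * F v f * π (ι g)⁻¹ * (π (ι g) * F v' f' * π (ι g)⁻¹)
        = π (ι g) * F v f * (π (ι g)⁻¹ * π (ι g)) * F v' f' * π (ι g)⁻¹ := by
          simp only [mul_assoc]
      _ = π (ι g) * (F v f * F v' f') * π (ι g)⁻¹ := by rw [p1, mul_one]; simp only [mul_assoc]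
      _ = 0 := by rw [h0, mul_zero, zero_mul]
  · right
    intro v v' hO ζ hζ
    rcases rel_zo adm pic hR cm cov pcov (unb v v') with h | h
    · have : ζ ∈ RelSp R (F v) (F v') := hζ
      rw [h] at this
      exact (Submodule.mem_bot ℂ).1 this
    · exact (hex ⟨v, v', hO, h⟩).elim

end zo

/-! ### The legs -/

section legs

variable {k : Type} [NontriviallyNormedField k] [ProperSpace k] {E Γ K : Type} [Group E]
  [TopologicalSpace E] [Group Γ] [NormedAddCommGroup K] [InnerProductSpace ℂ K] [CompleteSpace K]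
  [MeasurableSpace k] {μ : Measure k} {w : kˣ} {𝒰 : Ultrafilter ℕ} {ι : S4 k →* E}
  {a : E →* PG k 4} {π : E →* (K →L[ℂ] K)} {lam : Γ →* (K →L[ℂ] K)} {W : Set (K →L[ℂ] K)}
  {Ω : K} {m : Set Γ → (K →L[ℂ] K)} {q : Γ → S4 k}

theorem nm_unb_pp (x y : YY k 3) (C : ℝ) : ∃ g : S4 k, (g • x = x ∧ g • y = y) ∧ C ≤ nm g := by
  obtain ⟨g, hg, hC⟩ := H714.S4M.unb_pp x y C
  exact ⟨g, hg, hC.le⟩

theorem nm_unb_ll (x y : LL k) (C : ℝ) : ∃ g : S4 k, (g • x = x ∧ g • y = y) ∧ C ≤ nm g := by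
  obtain ⟨g, hg, hC⟩ := H714.S4M.unb_ll x y C
  exact ⟨g, hg, hC.le⟩

/-- **[P-COM'], straight types: the second key alone.** -/
theorem comS' (syn : SynStmt k) {Ec : YY k 3 → (C(YY k 3, ℂ) →⋆ₐ[ℂ] (K →L[ℂ] K))}
    {F : LL k → (C(LL k, ℂ) →⋆ₐ[ℂ] (K →L[ℂ] K))} (h : LegS μ w 𝒰 ι a π lam W Ω m q Ec F)
    (k2 : Key2 on Ec F) : Com Ec F := by
  have cp : ∀ l c c', on c l → on c' l → ∀ g g', Commute (Ec c' g) (Ec c g') :=
    fun l c c' h1 h2 g g' => col_points gq_on gq_on on_closed h.pl h.f.agr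
      (fun c l hc => (syn _ _ (h.pl c l hc)).2) k2 h1 h2 g g'
  have di := rel_di (R := Col on) (F := Ec) (O := fun x x' => ∀ l, on x l → ¬ on x' l) h.base.adm
    h.base.pic (fun g x y => col_smul g) h.e.cm h.e.cov h.e.pcov nm_unb_pp
    (fun v v' u u' h1 h2 => trans_opp
      (fun hp => by
        obtain ⟨l, h3, h4⟩ := col_iff.2 hp
        exact h1 l h3 h4)
      (fun hp => by
        obtain ⟨l, h3, h4⟩ := col_iff.2 hp
        exact h2 l h3 h4))
  obtain ⟨h1, h2, h3⟩ := gq_one gq_on three_pt gq_on on_closed pgeo4 h.pl h.e.agr h.f.agr cp di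
  exact ⟨h1, h2, h3⟩

/-- **[P-COM'], flipped types: the first key alone.** -/
theorem comF' (syn : SynStmt k) {Ec : YY k 3 → (C(LL k, ℂ) →⋆ₐ[ℂ] (K →L[ℂ] K))}
    {F : LL k → (C(YY k 3, ℂ) →⋆ₐ[ℂ] (K →L[ℂ] K))} (h : LegF μ w 𝒰 ι a π lam W Ω m q Ec F)
    (k1 : Key1 (flip on) Ec F) : Com Ec F := by
  have hI' : IsClosed {p : LL k × YY k 3 | flip on p.1 p.2} :=
    (on_closed (k := k)).preimage (f := fun q : LL k × YY k 3 => (q.2, q.1)) (by fun_prop)
  have cl : ∀ (c : YY k 3) (l l' : LL k), on c l → on c l' →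
      ∀ g g', Commute (F l' g) (F l g') := fun c l l' h1 h2 g g' =>
    conc_lines gq_on (gq_on (k := k)).dual hI' h.pl h.e.agr
      (fun c l hc => (syn _ _ (pl_flip (h.pl c l hc))).2) k1 h1 h2 g g'
  have di := rel_di (R := Col on) (F := F) (O := fun l l' => ∀ x : YY k 3, flip on l x →
      ¬ flip on l' x) h.base.adm
    h.base.pic (fun g x y => col_smul g) h.f.cm h.f.cov h.f.pcov nm_unb_ll
    (fun v v' u u' h1 h2 => trans_oppL h1 h2)
  obtain ⟨h1, h2, h3⟩ := gq_one (In := flip on) (e := F) (F := Ec) (gq_on (k := k)).dual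
    (fun x l hx => three_ln x l hx) gq_on on_closed pgeo4 (fun l c hc => pl_flip (h.pl c l hc))
    h.f.agr h.e.agr cl di
  exact ⟨h2, h1, fun c l g h => (h3 l c h g).symm⟩

/-- **[P-1] from two keys** -/
theorem one_of' (hP : PurStmt k μ) (h0 : ZeroStmt k μ) (h0' : ZeroStmt' k μ)
    (h2 : Key2Stmt k μ) (h1' : Key1Stmt' k μ) (syn : SynStmt k) (hF : FlipStmt k) :
    OneStmt k μ := by
  intro E Γ K _ _ _ _ _ _ w 𝒰 ι a π lam W Ω m q h
  obtain ⟨U11, p11, U12, p12, U21, p21, U22, p22, h⟩ := h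
  rcases hP w 𝒰 ι a π lam W Ω m q U11 p11 U12 p12 U21 p21 U22 p22 h with ⟨e1, e2⟩ | ⟨e1, e2⟩
  · obtain ⟨Ec, F, -, -, hl⟩ := h0 w 𝒰 ι a π lam W Ω m q U11 p11 U12 p12 U21 p21 U22 p22 h e1 e2
    exact ⟨Ec, F, hl, comS' syn hl (h2 w 𝒰 ι a π lam W Ω m q Ec F hl)⟩
  · obtain ⟨Ec, F, -, -, hl⟩ := h0' w 𝒰 ι a π lam W Ω m q U11 p11 U12 p12 U21 p21 U22 p22 h e1 e2
    have hn : Nontrivial K := ⟨Ω, 0, fun h0 => by
      have := h.base.pic.nΩ
      rw [h0, norm_zero] at this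
      exact zero_ne_one this⟩
    exact (hF Ec F hl.pl hl.e.agr hl.f.agr (comF' syn hl
      (h1' w 𝒰 ι a π lam W Ω m q Ec F hl))).elim

end legs

end Vale.Agent.P092.H796
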