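import Vale.Agent.P092.H796.Sos
import Vale.Agent.P092.H734.FullPA

/-!
P092 (helper796), block A-POS: positivity.
-/

set_option linter.all false

open scoped InnerProductSpace Topology ENNReal
open Filter ContinuousLinearMap MeasureTheory
open Vale.Agent.P092.H160
open Vale.Agent.P092.H156.Sm
open Vale.Agent.P092.H650
open Vale.Agent.P092.H325 (Pos iv PosOp kp)
open Vale.Agent.P092.H734 (SF OrIn TrIn)

namespace Vale.Agent.P092.H796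

section one

variable {Γ Λ G H K : Type} [Group Γ] [Countable Γ] [Group Λ]
  [NormedAddCommGroup K] [InnerProductSpace ℂ K] [CompleteSpace K]
  [Group G] [TopologicalSpace G] [IsTopologicalGroup G] [SecondCountableTopology G]
  [MeasurableSpace G] [BorelSpace G]
  [Group H] [TopologicalSpace H] [IsTopologicalGroup H]
  {ρ : Γ →* (K →L[ℂ] K)} {V : Λ →* (K →L[ℂ] K)} {ω : K} {ι : Γ →* G}
  {κ : Λ →* H} {μ : Measure G} [μ.IsMulLeftInvariant]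

theorem orIn' (h : TFrm ρ V ω)
    (hO : ∀ a b, Smo ι κ ρ V ω μ a → Smo ι κ ρ V ω μ b → Ort V ω μ a b) :
    OrIn ι κ ρ V ω μ := by
  intro b hb ζ
  have ho := hO b b hb hb
  refine ⟨memLp_apply h hb.toFd hb.l2 ho ζ, ?_⟩
  rw [H734.el2, H734.el2, lintegral_sq_apply h hb.toFd hb.l2 ho ζ,
    ENNReal.mul_rpow_of_nonneg _ _ (by norm_num)]
  rw [mul_comm, nsq]
  refine le_of_eq ?_
  congr 1
  rw [← ENNReal.rpow_natCast, ← ENNReal.rpow_mul]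
  norm_num

/-- the algebra of the fields in the span of `b V v` -/
theorem falg (h : TFrm ρ V ω)
    (hO : ∀ a b, Smo ι κ ρ V ω μ a → Smo ι κ ρ V ω μ b → Ort V ω μ a b) :
    FAlg μ ω (SF ι κ ρ V ω μ : Set (G → K →L[ℂ] K)) where
  add := fun x hx y hy => Submodule.add_mem _ hx hy
  smul := fun c x hx => Submodule.smul_mem _ c hx
  mul := fun x hx y hy => H734.sf_mul h (orIn' h hO) hx hy
  star_mem := fun x hx => H734.sf_adj h (H734.trIn h.reg) (orIn' h hO) hx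
  bdd := fun x hx => (H734.sf_fd h hx).bdd
  l2 := fun x hx => H734.sf_ap (orIn' h hO) hx ω
  tr := fun x hx => by
    have h1 := H734.sf_fd h hx
    have h2 : L2 ω μ x := H734.sf_ap (orIn' h hO) hx ω
    have h3 := L2.adj h.reg h1 h2
    change ∫ g, ‖adjoint (x g) ω‖ ^ 2 ∂μ = _
    rw [integral_sq h3, integral_sq h2, nsq_adj h.reg h1.continuous h1.equiv]

/-- the totality of the vectors `x ↦ a x (V v ω)` -/
def FullU (ι : Γ →* G) (κ : Λ →* H) (ρ : Γ →* (K →L[ℂ] K)) (V : Λ →* (K →L[ℂ] K)) (ω : K)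
    (μ : Measure G) : Prop :=
  ∀ ξ : Lp K 2 μ, (∀ a, Smo ι κ ρ V ω μ a → ∀ v, ∫ x, ⟪a x (V v ω), ξ x⟫_ℂ ∂μ = 0) → ξ = 0

theorem sp_dense (h : TFrm ρ V ω)
    (hO : ∀ a b, Smo ι κ ρ V ω μ a → Smo ι κ ρ V ω μ b → Ort V ω μ a b)
    (hF : FullU ι κ ρ V ω μ) : (H734.SP ι κ ρ V ω μ).topologicalClosure = ⊤ := by
  rw [Submodule.topologicalClosure_eq_top_iff, Submodule.eq_bot_iff]
  intro ξ hξ
  refine hF ξ fun a ha v => ?_
  rw [Submodule.mem_orthogonal] at hξ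
  have hm := memLp_apply h ha.toFd ha.l2 (hO a a ha ha) (V v ω)
  have h1 := hξ (hm.toLp _) ⟨fun x => a x * V v, H734.sf_gen ha v, hm.coeFn_toLp⟩
  rw [L2.inner_def] at h1
  rw [← h1]
  refine integral_congr_ae ?_
  filter_upwards [hm.coeFn_toLp] with x e1
  rw [e1]

theorem sf_approx (h : TFrm ρ V ω)
    (hO : ∀ a b, Smo ι κ ρ V ω μ a → Smo ι κ ρ V ω μ b → Ort V ω μ a b)
    (hF : FullU ι κ ρ V ω μ) {f : G → ℝ} (hf : MemLp (fun g => (f g : ℂ) • ω) 2 μ) :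
    ∀ ε > 0, ∃ x ∈ (SF ι κ ρ V ω μ : Set (G → K →L[ℂ] K)),
      ∫ g, ‖x g ω - (f g : ℂ) • ω‖ ^ 2 ∂μ ≤ ε := by
  intro ε hε
  have h1 : hf.toLp _ ∈ (H734.SP ι κ ρ V ω μ).topologicalClosure := by
    rw [sp_dense h hO hF]; trivial
  have h2 : hf.toLp _ ∈ closure ((H734.SP ι κ ρ V ω μ : Submodule ℂ (Lp K 2 μ)) :
    Set (Lp K 2 μ)) := h1
  rw [Metric.mem_closure_iff] at h2
  obtain ⟨η, ⟨x, hx, hxe⟩, hd⟩ := h2 (Real.sqrt ε) (Real.sqrt_pos.2 hε)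
  refine ⟨x, hx, ?_⟩
  have hxm : MemLp (fun g => x g ω) 2 μ := H734.sf_ap (orIn' h hO) hx ω
  have e1 : η = hxm.toLp _ := by
    apply Lp.ext
    exact hxe.trans hxm.coeFn_toLp.symm
  have e2 : ‖(hxm.sub hf).toLp _‖ ^ 2 = ∫ g, ‖x g ω - (f g : ℂ) • ω‖ ^ 2 ∂μ :=
    H156.Sm.norm_sq_toLp (hxm.sub hf)
  have e3 : ‖(hxm.sub hf).toLp _‖ ≤ Real.sqrt ε := by
    rw [MemLp.toLp_sub hxm hf, ← e1, ← dist_eq_norm, dist_comm]
    exact hd.le
  have e4 : ∫ g, ‖x g ω - (f g : ℂ) • ω‖ ^ 2 ∂μ = ‖(hxm.sub hf).toLp _‖ ^ 2 := e2.symm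
  rw [e4]
  calc ‖(hxm.sub hf).toLp _‖ ^ 2 ≤ (Real.sqrt ε) ^ 2 := by gcongr
    _ = ε := Real.sq_sqrt hε.le

/-- representation of the elements of `SF` -/
theorem sf_rep {x : G → K →L[ℂ] K} (hx : x ∈ SF ι κ ρ V ω μ) :
    ∃ (F : Finset Λ) (a : Λ → G → K →L[ℂ] K), (∀ v, Smo ι κ ρ V ω μ (a v)) ∧
      (∀ v, v ∉ F → a v = fun _ => 0) ∧ ∀ g, x g = ∑ v ∈ F, a v g * V v := by
  classical
  induction hx using Submodule.span_induction with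
  | mem c hc =>
    obtain ⟨b, w, hb, rfl⟩ := hc
    refine ⟨{w}, fun v => if v = w then b else fun _ => 0, fun v => ?_, fun v hv => ?_, fun g => ?_⟩
    · by_cases hvw : v = w
      · simp only [if_pos hvw]; exact hb
      · simp only [if_neg hvw]; exact Smo.zero
    · rw [Finset.mem_singleton] at hv
      simp only [if_neg hv]
    · simp
  | zero =>
    exact ⟨∅, fun _ _ => 0, fun v => Smo.zero, fun v _ => rfl, fun g => by simp⟩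
  | add c d _ _ h1 h2 =>
    obtain ⟨F, a, ha, ha0, hx⟩ := h1
    obtain ⟨F', a', ha', ha0', hx'⟩ := h2
    refine ⟨F ∪ F', fun v g => a v g + a' v g, fun v => (ha v).add (ha' v), fun v hv => ?_,
      fun g => ?_⟩
    · rw [Finset.mem_union, not_or] at hv
      funext g
      simp [ha0 v hv.1, ha0' v hv.2]
    · simp only [Pi.add_apply, hx g, hx' g, add_mul]
      rw [Finset.sum_add_distrib]
      congr 1
      · refine Finset.sum_subset Finset.subset_union_left fun v _ hv => ?_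
        rw [ha0 v hv, zero_mul]
      · refine Finset.sum_subset Finset.subset_union_right fun v _ hv => ?_
        rw [ha0' v hv, zero_mul]
  | smul r c _ h1 =>
    obtain ⟨F, a, ha, ha0, hx⟩ := h1
    refine ⟨F, fun v g => r • a v g, fun v => (ha v).smul r, fun v hv => ?_, fun g => ?_⟩
    · funext g
      simp [ha0 v hv]
    · simp only [Pi.smul_apply, hx g, Finset.smul_sum, smul_mul_assoc]

/-- the vector of a smooth field at `ζ` -/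
noncomputable def ef (h : TFrm ρ V ω)
    (hO : ∀ a b, Smo ι κ ρ V ω μ a → Smo ι κ ρ V ω μ b → Ort V ω μ a b)
    {a : G → K →L[ℂ] K} (ha : Smo ι κ ρ V ω μ a) (ζ : K) : Lp K 2 μ :=
  (memLp_apply h ha.toFd ha.l2 (hO a a ha ha) ζ).toLp (fun x => a x ζ)

theorem ef_ae (h : TFrm ρ V ω)
    (hO : ∀ a b, Smo ι κ ρ V ω μ a → Smo ι κ ρ V ω μ b → Ort V ω μ a b)
    {a : G → K →L[ℂ] K} (ha : Smo ι κ ρ V ω μ a) (ζ : K) :
    (ef h hO ha ζ : G → K) =ᵐ[μ] fun x => a x ζ :=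
  (memLp_apply h ha.toFd ha.l2 (hO a a ha ha) ζ).coeFn_toLp

theorem sum_ae {I : Type*} (s : Finset I) (f : I → Lp K 2 μ) (g : I → G → K)
    (hfg : ∀ i ∈ s, (f i : G → K) =ᵐ[μ] g i) :
    ((∑ i ∈ s, f i : Lp K 2 μ) : G → K) =ᵐ[μ] fun x => ∑ i ∈ s, g i x := by
  classical
  induction s using Finset.induction_on with
  | empty =>
    simp only [Finset.sum_empty]
    exact Lp.coeFn_zero _ _ _
  | insert i s hi ih =>
    simp only [Finset.sum_insert hi]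
    filter_upwards [Lp.coeFn_add (f i) (∑ i ∈ s, f i), hfg i (Finset.mem_insert_self _ _),
      ih fun j hj => hfg j (Finset.mem_insert_of_mem hj)] with x e1 e2 e3
    rw [e1, Pi.add_apply, e2, e3]

end one

section two

variable {Γ Λ G₁ G₂ H₁ H₂ K : Type} [Group Γ] [Countable Γ] [Group Λ]
  [NormedAddCommGroup K] [InnerProductSpace ℂ K] [CompleteSpace K]
  [Group G₁] [TopologicalSpace G₁] [IsTopologicalGroup G₁] [SecondCountableTopology G₁]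
  [MeasurableSpace G₁] [BorelSpace G₁]
  [Group G₂] [TopologicalSpace G₂] [IsTopologicalGroup G₂] [SecondCountableTopology G₂]
  [MeasurableSpace G₂] [BorelSpace G₂]
  [Group H₁] [TopologicalSpace H₁] [IsTopologicalGroup H₁]
  [MeasurableSpace H₁] [BorelSpace H₁] [SecondCountableTopology H₁]
  [Group H₂] [TopologicalSpace H₂] [IsTopologicalGroup H₂]
  [MeasurableSpace H₂] [BorelSpace H₂] [SecondCountableTopology H₂]
  {ρ : Γ →* (K →L[ℂ] K)} {V : Λ →* (K →L[ℂ] K)} {ω : K} {ι₁ : Γ →* G₁} {ι₂ : Γ →* G₂}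
  {κ₁ : Λ →* H₁} {κ₂ : Λ →* H₂} {μ₁ : Measure G₁} {μ₂ : Measure G₂}
  [μ₁.IsMulLeftInvariant] [μ₂.IsMulLeftInvariant] [SFinite μ₁] [SFinite μ₂]
  {b : G₂ → K →L[ℂ] K} {m : Measure (H₁ × H₂)} {S : Lp K 2 μ₁ →L[ℂ] Lp K 2 μ₁}

/-- the operator of the form `qq` -/
def HS (ι₁ : Γ →* G₁) (κ₁ : Λ →* H₁) (κ₂ : Λ →* H₂) (ρ : Γ →* (K →L[ℂ] K))
    (V : Λ →* (K →L[ℂ] K)) (ω : K) (μ₁ : Measure G₁) (μ₂ : Measure G₂) (m : Measure (H₁ × H₂))
    (b : G₂ → K →L[ℂ] K) (S : Lp K 2 μ₁ →L[ℂ] Lp K 2 μ₁) : Prop :=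
  ∀ a' a, Smo ι₁ κ₁ ρ V ω μ₁ a' → Smo ι₁ κ₁ ρ V ω μ₁ a → ∀ (ζ' ζ : K) (f' f : Lp K 2 μ₁),
    (f' : G₁ → K) =ᵐ[μ₁] (fun x => a' x ζ') → (f : G₁ → K) =ᵐ[μ₁] (fun x => a x ζ) →
    ⟪f', S f⟫_ℂ = qq κ₁ κ₂ V ω μ₁ μ₂ m b a' a * ⟪ζ', ζ⟫_ℂ

theorem adj_cj (h : Frm ρ V ω) (u : Λ) (T : K →L[ℂ] K) (ζ : K) :
    adjoint (V u * T * V u⁻¹) (V u ζ) = V u (adjoint T ζ) := by
  have e : adjoint (V u * T * V u⁻¹) = V u * adjoint T * V u⁻¹ := by
    change star (V u * T * V u⁻¹) = _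
    rw [star_mul, star_mul, star_eq_adjoint (V u⁻¹), h.adj, inv_inv, star_eq_adjoint (V u), h.adj,
      star_eq_adjoint, mul_assoc]
  rw [e, mul_ap, mul_ap, h.inv_apply]

theorem adj_mV (h : Frm ρ V ω) (u : Λ) (T : K →L[ℂ] K) (ζ : K) :
    adjoint (T * V u) ζ = V u⁻¹ (adjoint T ζ) := by
  have e : adjoint (T * V u) = V u⁻¹ * adjoint T := by
    change star (T * V u) = _
    rw [star_mul, star_eq_adjoint (V u), h.adj, star_eq_adjoint]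
  rw [e, mul_ap]

/-- the expansion of `x x* ω` -/
theorem expand_X (h : TFrm ρ V ω)
    (hO : ∀ a b, Smo ι₁ κ₁ ρ V ω μ₁ a → Smo ι₁ κ₁ ρ V ω μ₁ b → Ort V ω μ₁ a b)
    {I : Type} [Fintype I] {a : I → G₁ → K →L[ℂ] K} (v : I → Λ)
    (ha : ∀ i, Smo ι₁ κ₁ ρ V ω μ₁ (a i)) {x : G₁ → K →L[ℂ] K}
    (hx : ∀ g, x g = ∑ i, a i g * V (v i)) {X : Lp K 2 μ₁}
    (hX : (X : G₁ → K) =ᵐ[μ₁] fun g => x g (adjoint (x g) ω)) :
    X = ∑ i, ∑ i', ef h hO (Smo.mul h.toFrm (ha i) (Smo.adj h.toFrm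
      (Smo.conj h.toFrm (ha i') (v i * (v i')⁻¹)))) (V (v i * (v i')⁻¹) ω) := by
  apply Lp.ext
  refine hX.trans ?_
  refine Filter.EventuallyEq.symm ?_
  refine (sum_ae Finset.univ _ _ fun i _ => sum_ae Finset.univ _ _ fun i' _ =>
    ef_ae h hO _ _).trans ?_
  refine Eventually.of_forall fun g => ?_
  simp only [mul_ap]
  rw [hx g, map_sum, sum_apply]
  simp only [sum_apply, map_sum, mul_ap]
  refine Finset.sum_congr rfl fun i _ => Finset.sum_congr rfl fun i' _ => ?_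
  rw [adj_cj h.toFrm, adj_mV h.toFrm, map_mul, mul_ap]

/-- the expansion of `y* y ω` -/
theorem expand_Y (h : TFrm ρ V ω)
    (hO : ∀ a b, Smo ι₁ κ₁ ρ V ω μ₁ a → Smo ι₁ κ₁ ρ V ω μ₁ b → Ort V ω μ₁ a b)
    {J : Type} [Fintype J] {c : J → G₁ → K →L[ℂ] K} (w : J → Λ)
    (hc : ∀ i, Smo ι₁ κ₁ ρ V ω μ₁ (c i)) {y : G₁ → K →L[ℂ] K}
    (hy : ∀ g, y g = ∑ i, c i g * V (w i)) {Y : Lp K 2 μ₁}
    (hY : (Y : G₁ → K) =ᵐ[μ₁] fun g => adjoint (y g) (y g ω)) :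
    Y = ∑ j, ∑ j', ef h hO (Smo.conj h.toFrm (Smo.mul h.toFrm (Smo.adj h.toFrm (hc j))
      (hc j')) (w j)⁻¹) (V ((w j)⁻¹ * w j') ω) := by
  apply Lp.ext
  refine hY.trans ?_
  refine Filter.EventuallyEq.symm ?_
  refine (sum_ae Finset.univ _ _ fun i _ => sum_ae Finset.univ _ _ fun i' _ =>
    ef_ae h hO _ _).trans ?_
  refine Eventually.of_forall fun g => ?_
  simp only [mul_ap]
  rw [hy g, map_sum, sum_apply]
  simp only [sum_apply, adj_mV h.toFrm, map_sum, mul_ap, inv_inv]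
  refine Finset.sum_congr rfl fun i _ => Finset.sum_congr rfl fun i' _ => ?_
  rw [map_mul, mul_ap, h.toFrm.apply_inv]

theorem inner_sum4 {E I J : Type*} [NormedAddCommGroup E] [InnerProductSpace ℂ E]
    [Fintype I] [Fintype J] (S : E →L[ℂ] E) (Y : J → J → E) (X : I → I → E) :
    ⟪∑ j, ∑ j', Y j j', S (∑ i, ∑ i', X i i')⟫_ℂ =
      ∑ j, ∑ i, ∑ j', ∑ i', ⟪Y j j', S (X i i')⟫_ℂ := by
  rw [sum_inner]
  refine Finset.sum_congr rfl fun j _ => ?_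
  rw [sum_inner]
  refine Eq.trans ?_ Finset.sum_comm
  refine Finset.sum_congr rfl fun j' _ => ?_
  simp only [map_sum, inner_sum]

/-- **Positivity on squares.** -/
theorem pos_sq (h : TFrm ρ V ω) (hd : DenseRange κ₁) (hd₂ : DenseRange κ₂)
    (hO : ∀ a b, Smo ι₁ κ₁ ρ V ω μ₁ a → Smo ι₁ κ₁ ρ V ω μ₁ b → Ort V ω μ₁ a b)
    (hO₂ : ∀ a b, Smo ι₂ κ₂ ρ V ω μ₂ a → Smo ι₂ κ₂ ρ V ω μ₂ b → Ort V ω μ₂ a b)
    (hA : Avg ι₁ κ₁ κ₂ ρ V ω μ₁ μ₂ b) (hm : PA.Lat (κ₁.prod κ₂) m)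
    (hb : Smo ι₂ κ₂ ρ V ω μ₂ b) (hS : HS ι₁ κ₁ κ₂ ρ V ω μ₁ μ₂ m b S)
    {x y : G₁ → K →L[ℂ] K} (hx : x ∈ SF ι₁ κ₁ ρ V ω μ₁) (hy : y ∈ SF ι₁ κ₁ ρ V ω μ₁)
    {X Y : Lp K 2 μ₁} (hX : (X : G₁ → K) =ᵐ[μ₁] fun g => x g (adjoint (x g) ω))
    (hY : (Y : G₁ → K) =ᵐ[μ₁] fun g => adjoint (y g) (y g ω)) : Pos ⟪Y, S X⟫_ℂ := by
  classical
  obtain ⟨F, a, ha, -, hxe⟩ := sf_rep hx
  obtain ⟨F', c, hc, -, hye⟩ := sf_rep hy
  have hx' : ∀ g, x g = ∑ i : F, a i g * V i := fun g => by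
    rw [hxe g, ← Finset.sum_coe_sort]
  have hy' : ∀ g, y g = ∑ i : F', c i g * V i := fun g => by
    rw [hye g, ← Finset.sum_coe_sort]
  rw [expand_X h hO (fun i : F => (i : Λ)) (fun i : F => ha i) hx' hX,
    expand_Y h hO (fun i : F' => (i : Λ)) (fun i : F' => hc i) hy' hY]
  have h1 := sos h hd hd₂ hO hO₂ hA hm hb (fun i : F => (i : Λ)) (fun j : F' => (j : Λ))
    (fun i => ha i) (fun j => hc j)
  simp only [Fintype.sum_prod_type] at h1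
  rw [inner_sum4]
  have key : ∀ z w : ℂ, z = w → Pos w → Pos z := fun z w e hw => e ▸ hw
  refine key _ _ ?_ h1
  refine Finset.sum_congr rfl fun j _ => Finset.sum_congr rfl fun i _ =>
    Finset.sum_congr rfl fun j' _ =>
    Finset.sum_congr rfl fun i' _ => ?_
  exact hS _ _ (Smo.conj h.toFrm (Smo.mul h.toFrm (Smo.adj h.toFrm (hc j)) (hc j')) _)
    (Smo.mul h.toFrm (ha i) (Smo.adj h.toFrm (Smo.conj h.toFrm (ha i') _))) _ _ _ _
    (ef_ae h hO _ _) (ef_ae h hO _ _)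

end two

end Vale.Agent.P092.H796
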