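import Vale.Agent.P092.H796.Pos

/-!
P092 (helper796), block A-POS: the operator on the scalar functions preserves positivity.
-/

set_option linter.all false

open scoped InnerProductSpace Topology ENNReal
open Filter ContinuousLinearMap MeasureTheory
open Vale.Agent.P092.H160
open Vale.Agent.P092.H156.Sm
open Vale.Agent.P092.H650
open Vale.Agent.P092.H325 (Pos iv PosOp kp iv_ae)
open Vale.Agent.P092.H734 (SF OrIn TrIn)

namespace Vale.Agent.P092.H796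

section one

variable {Γ Λ G H K : Type} [Group Γ] [Countable Γ] [Group Λ]
  [NormedAddCommGroup K] [InnerProductSpace ℂ K] [CompleteSpace K]
  [Group G] [TopologicalSpace G] [IsTopologicalGroup G] [SecondCountableTopology G]
  [MeasurableSpace G] [BorelSpace G]
  [Group H] [TopologicalSpace H] [IsTopologicalGroup H]
  {ρ : Γ →* (K →L[ℂ] K)} {V : Λ →* (K →L[ℂ] K)} {ω : K} {ι : Γ →* G}
  {κ : Λ →* H} {μ : Measure G} [μ.IsMulLeftInvariant]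
  {e : Lp ℂ 2 μ →L[ℂ] Lp K 2 μ}

theorem inner_e (hω : ‖ω‖ = 1) (he : ∀ f : Lp ℂ 2 μ, (e f : G → K) =ᵐ[μ] fun x => f x • ω)
    (f g : Lp ℂ 2 μ) : ⟪e f, e g⟫_ℂ = ⟪f, g⟫_ℂ := by
  rw [L2.inner_def, L2.inner_def]
  refine integral_congr_ae ?_
  filter_upwards [he f, he g] with x e1 e2
  rw [e1, e2, inner_smul_left, inner_smul_right, inner_self_eq_norm_sq_to_K, hω]
  simp [mul_comm]

theorem norm_sub_sq_of {f : G → K} {ξ : Lp K 2 μ} {η : Lp K 2 μ} {g : G → K}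
    (hξ : (ξ : G → K) =ᵐ[μ] f) (hη : (η : G → K) =ᵐ[μ] g) :
    ‖ξ - η‖ ^ 2 = ∫ x, ‖f x - g x‖ ^ 2 ∂μ := by
  have h1 : (((ξ - η : Lp K 2 μ)) : G → K) =ᵐ[μ] fun x => f x - g x := by
    filter_upwards [Lp.coeFn_sub ξ η, hξ, hη] with x e1 e2 e3
    rw [e1, Pi.sub_apply, e2, e3]
  have hm : MemLp (fun x => f x - g x) 2 μ := (Lp.memLp (ξ - η)).ae_eq h1
  have h2 : ξ - η = hm.toLp _ := Lp.ext (h1.trans hm.coeFn_toLp.symm)
  rw [h2]
  exact H156.Sm.norm_sq_toLp hm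

/-- approximation of the indicator functions by bounded fields -/
theorem approx_iv (h : TFrm ρ V ω)
    (hO : ∀ a b, Smo ι κ ρ V ω μ a → Smo ι κ ρ V ω μ b → Ort V ω μ a b)
    (hF : FullU ι κ ρ V ω μ)
    (he : ∀ f : Lp ℂ 2 μ, (e f : G → K) =ᵐ[μ] fun x => f x • ω)
    {A : Set G} (hA : MeasurableSet A) (hμ : μ A ≠ ⊤) {ε : ℝ} (hε : 0 < ε) :
    ∃ x ∈ SF ι κ ρ V ω μ, (∀ g, IsSelfAdjoint (x g)) ∧
      (∃ X : Lp K 2 μ, (X : G → K) =ᵐ[μ] (fun g => x g (x g ω)) ∧ ‖X - e (iv μ A)‖ ≤ ε) ∧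
      ∃ X' : Lp K 2 μ, (X' : G → K) =ᵐ[μ] (fun g => x g ω) ∧ ‖X' - e (iv μ A)‖ ≤ ε := by
  obtain ⟨f, hf⟩ : ∃ f : G → ℝ, f = A.indicator fun _ => (1 : ℝ) := ⟨_, rfl⟩
  have hf2 : ∀ g, (f g) ^ 2 = f g := fun g => by
    rw [hf]
    by_cases hg : g ∈ A
    · simp [Set.indicator_of_mem hg]
    · simp [Set.indicator_of_notMem hg]
  have hf1 : ∀ g, |f g| ≤ 1 := fun g => by
    rw [hf]
    by_cases hg : g ∈ A
    · simp [Set.indicator_of_mem hg]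
    · simp [Set.indicator_of_notMem hg]
  have hfe : (e (iv μ A) : G → K) =ᵐ[μ] fun g => (f g : ℂ) • ω := by
    filter_upwards [he (iv μ A), iv_ae μ hA hμ] with g e1 e2
    rw [e1, e2, hf]
    by_cases hg : g ∈ A
    · simp [Set.indicator_of_mem hg]
    · simp [Set.indicator_of_notMem hg]
  have hfm : MemLp (fun g => (f g : ℂ) • ω) 2 μ := (Lp.memLp (e (iv μ A))).ae_eq hfe
  have hal := falg h hO
  obtain ⟨y, hy, hsa, hb, hyd⟩ := hal.appr hfm hf1 (sf_approx h hO hF hfm)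
    (ε := (ε / 3) ^ 2) (by positivity)
  refine ⟨y, hy, hsa, ?_, ?_⟩
  · have hm : MemLp (fun g => y g (y g ω)) 2 μ := hal.l2 _ (hal.mul _ hy _ hy)
    refine ⟨hm.toLp _, hm.coeFn_toLp, ?_⟩
    refine abs_le_of_sq_le_sq' ?_ hε.le |>.2
    rw [norm_sub_sq_of hm.coeFn_toLp hfe]
    have i1 := sq_integrable (hal.sub_l2 hfm hy)
    have h3 : ∀ g, ‖y g (y g ω) - (f g : ℂ) • ω‖ ^ 2 ≤ 9 * ‖y g ω - (f g : ℂ) • ω‖ ^ 2 := by
      intro g
      have h4 := sq_close (hb g) (hf1 g) ω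
      rw [hf2 g] at h4
      have h5 := pow_le_pow_left₀ (norm_nonneg _) h4 2
      calc _ ≤ (3 * ‖y g ω - (f g : ℂ) • ω‖) ^ 2 := h5
        _ = _ := by ring
    refine (integral_mono_of_nonneg (Eventually.of_forall fun g => by positivity)
      (i1.const_mul 9) (Eventually.of_forall h3)).trans ?_
    rw [integral_const_mul]
    calc 9 * ∫ g, ‖y g ω - (f g : ℂ) • ω‖ ^ 2 ∂μ ≤ 9 * (ε / 3) ^ 2 := by gcongr
      _ = ε ^ 2 := by ring
  · have hm : MemLp (fun g => y g ω) 2 μ := hal.l2 _ hy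
    refine ⟨hm.toLp _, hm.coeFn_toLp, ?_⟩
    refine abs_le_of_sq_le_sq' ?_ hε.le |>.2
    rw [norm_sub_sq_of hm.coeFn_toLp hfe]
    refine hyd.trans ?_
    rw [div_pow]
    have : 0 ≤ ε ^ 2 := by positivity
    linarith

end one

section two

variable {Γ Λ G₁ G₂ H₁ H₂ K : Type} [Group Γ] [Countable Γ] [Group Λ]
  [NormedAddCommGroup K] [InnerProductSpace ℂ K] [CompleteSpace K]
  [Group G₁] [TopologicalSpace G₁] [IsTopologicalGroup G₁] [SecondCountableTopology G₁]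
  [MeasurableSpace G₁] [BorelSpace G₁]
  [Group G₂] [TopologicalSpace G₂] [IsTopologicalGroup G₂] [SecondCountableTopology G₂]
  [MeasurableSpace G₂] [BorelSpace G₂]
  [Group H₁] [TopologicalSpace H₁] [IsTopologicalGroup H₁]
  [MeasurableSpace H₁] [BorelSpace H₁] [SecondCountableTopology H₁]
  [Group H₂] [TopologicalSpace H₂] [IsTopologicalGroup H₂]
  [MeasurableSpace H₂] [BorelSpace H₂] [SecondCountableTopology H₂]
  {ρ : Γ →* (K →L[ℂ] K)} {V : Λ →* (K →L[ℂ] K)} {ω : K} {ι₁ : Γ →* G₁} {ι₂ : Γ →* G₂}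
  {κ₁ : Λ →* H₁} {κ₂ : Λ →* H₂} {μ₁ : Measure G₁} {μ₂ : Measure G₂}
  [μ₁.IsMulLeftInvariant] [μ₂.IsMulLeftInvariant] [SigmaFinite μ₁] [SFinite μ₂]
  {b : G₂ → K →L[ℂ] K} {m : Measure (H₁ × H₂)} {S : Lp K 2 μ₁ →L[ℂ] Lp K 2 μ₁}
  {e : Lp ℂ 2 μ₁ →L[ℂ] Lp K 2 μ₁} {T : Lp ℂ 2 μ₁ →L[ℂ] Lp ℂ 2 μ₁}

/-- **(POS)** -/
theorem posOp (h : TFrm ρ V ω) (hd : DenseRange κ₁) (hd₂ : DenseRange κ₂)
    (hO : ∀ a b, Smo ι₁ κ₁ ρ V ω μ₁ a → Smo ι₁ κ₁ ρ V ω μ₁ b → Ort V ω μ₁ a b)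
    (hO₂ : ∀ a b, Smo ι₂ κ₂ ρ V ω μ₂ a → Smo ι₂ κ₂ ρ V ω μ₂ b → Ort V ω μ₂ a b)
    (hF : FullU ι₁ κ₁ ρ V ω μ₁)
    (hA : Avg ι₁ κ₁ κ₂ ρ V ω μ₁ μ₂ b) (hm : PA.Lat (κ₁.prod κ₂) m)
    (hb : Smo ι₂ κ₂ ρ V ω μ₂ b) (hS : HS ι₁ κ₁ κ₂ ρ V ω μ₁ μ₂ m b S)
    (he : ∀ f : Lp ℂ 2 μ₁, (e f : G₁ → K) =ᵐ[μ₁] fun x => f x • ω)
    (hT : ∀ f, S (e f) = e (T f)) : PosOp μ₁ T := by
  intro A B hA' hAμ hB' hBμ
  rw [← inner_e h.toFrm.norm_omega he, ← hT]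
  choose x hx hxsa hX _ using fun n : ℕ => approx_iv h hO hF he hA' hAμ
    (ε := 1 / ((n : ℝ) + 1)) (by positivity)
  choose y hy hysa hY _ using fun n : ℕ => approx_iv h hO hF he hB' hBμ
    (ε := 1 / ((n : ℝ) + 1)) (by positivity)
  choose X hXe hXd using hX
  choose Y hYe hYd using hY
  have lX : Tendsto X atTop (𝓝 (e (iv μ₁ A))) := by
    rw [tendsto_iff_norm_sub_tendsto_zero]
    exact squeeze_zero (fun n => norm_nonneg _) hXd tendsto_one_div_add_atTop_nhds_zero_nat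
  have lY : Tendsto Y atTop (𝓝 (e (iv μ₁ B))) := by
    rw [tendsto_iff_norm_sub_tendsto_zero]
    exact squeeze_zero (fun n => norm_nonneg _) hYd tendsto_one_div_add_atTop_nhds_zero_nat
  have lim : Tendsto (fun n => ⟪Y n, S (X n)⟫_ℂ) atTop (𝓝 ⟪e (iv μ₁ B), S (e (iv μ₁ A))⟫_ℂ) :=
    lY.inner ((S.continuous.tendsto _).comp lX)
  refine isClosed_pos.mem_of_tendsto lim (Eventually.of_forall fun n => ?_)
  refine pos_sq h hd hd₂ hO hO₂ hA hm hb hS (hx n) (hy n) ?_ ?_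
  · refine (hXe n).trans (Eventually.of_forall fun g => ?_)
    have : adjoint (x n g) = x n g := by
      rw [← star_eq_adjoint]; exact hxsa n g
    simp only [this]
  · refine (hYe n).trans (Eventually.of_forall fun g => ?_)
    have : adjoint (y n g) = y n g := by
      rw [← star_eq_adjoint]; exact hysa n g
    simp only [this]

end two

end Vale.Agent.P092.H796
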