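import Vale.Agent.P092.H796.OppP
import Vale.Agent.P092.H631.P2Opp
import Vale.Agent.P092.H631.P3Geo

/-!
P092 (helper796), Team P, stage 2, row [P2-II], part 1: geometry.

* `gq_res`: the residue of a singular `(r-2)`-space of a polar space of rank `r` is a generalised
  quadrangle (any form `Frm σ ε J`), `three_res`: three points on a line.
* `tq_top`, `pgeo_top`: the singular spaces of dimensions `r - 1`, `r` of a space of dimension
  `2 r` satisfy `TQ` and `PGeo` (regular points).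
-/

set_option linter.all false

open TopologicalSpace Topology Module Set Filter
open scoped Matrix

namespace Vale.Agent.P092.H796

open Vale.Agent.P092.H303 (FormGroup)
open Vale.Agent.P092.H370.Po
open Vale.Agent.P092.H714.Cl
open Vale.Agent.P092.H702.PG (sup_eq ort_join)
open Vale.Agent.P092.H702.Pol (ad inc_ad mem_ad ad_inc_ad)
open Vale.Agent.P092.H100.Gr (Gr)
open Vale.Agent.P092.SP (GQ)

section alg

variable {n : Type} [Fintype n] [DecidableEq n] {k : Type} [Field k]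
  {σ : k →+* k} {ε : k} {J : Matrix n n k} {i j l : ℕ}

/-- a maximal singular space contains the singular vectors orthogonal to it -/
theorem mem_of_max (hF : Frm σ ε J) {r : ℕ} (hW : WI σ J r) (N : SGr σ J r) {v : n → k}
    (hvv : hf σ J v v = 0) (hp : ∀ x ∈ N.S, hf σ J x v = 0) : v ∈ N.S := by
  by_contra hv
  have h1 := hW.2 _ (sing_sup_span hF N.sing hvv hp)
  rw [finrank_sup_span hv, N.dim] at h1
  omega

/-- no triangles -/
theorem tri_top (hF : Frm σ ε J) (hW : WI σ J (j + 1)) {x x' z : SGr σ J j}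
    {N m m' : SGr σ J (j + 1)} (hn : ¬ Inc z N) (h1 : Inc x m) (h2 : Inc z m) (h3 : Inc x' m')
    (h4 : Inc z m') (h5 : Inc x N) (h6 : Inc x' N) : x = x' := by
  by_contra hne
  refine hn ?_
  have h7 : Col N z := ort_join hne h5 h6 (fun a ha b hb => m.sing a (h1 ha) b (h2 hb))
    (fun a ha b hb => m'.sing a (h3 ha) b (h4 hb))
  intro v hv
  exact mem_of_max hF hW N (z.sing.zero hv) fun x hx => h7 x hx v hv

/-- the points of the residue -/
def RP (A : SGr σ J j) : Type := {Y : SGr σ J (j + 1) // Inc A Y}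

/-- the lines of the residue -/
def RL (A : SGr σ J j) : Type := {Y : SGr σ J (j + 1 + 1) // Inc A Y}

/-- incidence in the residue -/
def RI (A : SGr σ J j) (Y : RP A) (N : RL A) : Prop := Inc Y.1 N.1

/-- the foot of a point of the residue on a line -/
theorem foot_res (hF : Frm σ ε J) (A : SGr σ J j) (x : RP A) (l : RL A) (h : ¬ RI A x l) :
    ∃ (y : RP A) (m : RL A), RI A x m ∧ RI A y m ∧ RI A y l := by
  obtain ⟨b, hbA, hbe⟩ := exists_gen x.2 A.dim x.1.dim
  have hbx : b ∈ x.1.S := by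
    rw [hbe]
    exact (le_sup_right : Submodule.span k {b} ≤ _) (Submodule.mem_span_singleton_self b)
  have hbl : b ∉ l.1.S := by
    intro hb
    refine h ?_
    change x.1.S ≤ l.1.S
    rw [hbe]
    exact sup_le l.2 ((Submodule.span_singleton_le_iff_mem _ _).2 hb)
  let φ : l.1.S →ₗ[k] k :=
    { toFun := fun v => hf σ J v.1 b
      map_add' := fun v w => hf_add_left σ J v.1 w.1 b
      map_smul' := fun c v => hf_smul_left σ J c v.1 b }
  set Z : Submodule k (n → k) := (LinearMap.ker φ).map l.1.S.subtype with hZ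
  have hZl : Z ≤ l.1.S := by
    rintro _ ⟨v, -, rfl⟩
    exact v.2
  have hZb : ∀ v ∈ Z, hf σ J v b = 0 := by
    rintro _ ⟨v, hv, rfl⟩
    exact hv
  have hAZ : A.S ≤ Z := by
    intro v hv
    exact ⟨⟨v, l.2 hv⟩, x.1.sing v (x.2 hv) b hbx, rfl⟩
  have hZd : j + 1 ≤ finrank k Z := by
    have h1 := LinearMap.finrank_range_add_finrank_ker φ
    have h2 : finrank k (LinearMap.range φ) ≤ 1 := by
      have := Submodule.finrank_le (LinearMap.range φ)
      rwa [finrank_self] at this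
    have h3 : finrank k Z = finrank k (LinearMap.ker φ) :=
      (Submodule.equivMapOfInjective _ l.1.S.injective_subtype _).finrank_eq.symm
    have h4 : finrank k l.1.S = j + 1 + 1 := l.1.dim
    omega
  obtain ⟨Y, hY1, hY2, hY3⟩ := exists_between hAZ (j := j + 1) (by rw [A.dim]; omega) hZd
  have hYs : Sing σ J Y := l.1.sing.mono (hY2.trans hZl)
  set y : SGr σ J (j + 1) := SGr.mk' Y hYs hY3 with hy
  have hyb : ∀ v ∈ y.S, hf σ J v b = 0 := fun v hv => hZb v (hY2 hv)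
  have hbb : hf σ J b b = 0 := x.1.sing.zero hbx
  have hby : b ∉ y.S := fun hb => hbl (hZl (hY2 hb))
  have hAy : Inc A y := hY1
  refine ⟨⟨y, hAy⟩, ⟨ad hF y hbb hyb hby, hAy.trans (inc_ad hF y hbb hyb hby)⟩, ?_,
    inc_ad hF y hbb hyb hby, hY2.trans hZl⟩
  change x.1.S ≤ (ad hF y hbb hyb hby).S
  rw [hbe]
  exact sup_le (hAy.trans (inc_ad hF y hbb hyb hby))
    ((Submodule.span_singleton_le_iff_mem _ _).2 (mem_ad hF y hbb hyb hby))

/-- three points on a line of the residue -/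
theorem three_res (hF : Frm σ ε J) (A : SGr σ J j) (l : RL A) (x : RP A) (hx : RI A x l) :
    ∃ y z : RP A, y ≠ x ∧ z ≠ x ∧ y ≠ z ∧ RI A y l ∧ RI A z l := by
  obtain ⟨b, hbA, hbe⟩ := exists_gen x.2 A.dim x.1.dim
  obtain ⟨c, hcx, hce⟩ := exists_gen hx x.1.dim l.1.dim
  have hbx : b ∈ x.1.S := by
    rw [hbe]
    exact (le_sup_right : Submodule.span k {b} ≤ _) (Submodule.mem_span_singleton_self b)
  have hbl : b ∈ l.1.S := hx hbx
  have hcl : c ∈ l.1.S := by
    rw [hce]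
    exact (le_sup_right : Submodule.span k {c} ≤ _) (Submodule.mem_span_singleton_self c)
  have key : ∀ v ∈ l.1.S, v ∉ A.S → ∃ y : RP A, v ∈ y.1.S ∧ RI A y l ∧
      y.1.S = A.S ⊔ Submodule.span k {v} := by
    intro v hv hvA
    have h1 : hf σ J v v = 0 := l.1.sing.zero hv
    have h2 : ∀ x ∈ A.S, hf σ J x v = 0 := fun x hx => l.1.sing x (l.2 hx) v hv
    exact ⟨⟨ad hF A h1 h2 hvA, inc_ad hF A h1 h2 hvA⟩, mem_ad hF A h1 h2 hvA,
      sup_le l.2 ((Submodule.span_singleton_le_iff_mem _ _).2 hv), rfl⟩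
  obtain ⟨y, hy1, hy2, hy3⟩ := key c hcl fun h => hcx (x.2 h)
  have hbc : b + c ∉ x.1.S := fun h => hcx ((Submodule.add_mem_iff_right _ hbx).1 h)
  obtain ⟨z, hz1, hz2, hz3⟩ := key (b + c) (Submodule.add_mem _ hbl hcl) fun h => hbc (x.2 h)
  refine ⟨y, z, ?_, ?_, ?_, hy2, hz2⟩
  · rintro rfl; exact hcx hy1
  · rintro rfl; exact hbc hz1
  · rintro rfl
    have hby : b ∈ y.1.S := (Submodule.add_mem_iff_left _ hy1).1 hz1
    have hxy : x.1.S ≤ y.1.S := by
      rw [hbe]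
      exact sup_le y.2 ((Submodule.span_singleton_le_iff_mem _ _).2 hby)
    rw [SGr.eq_of_le hxy] at hcx
    exact hcx hy1

/-- **the residue of a space of codimension two is a generalised quadrangle** -/
theorem gq_res (hF : Frm σ ε J) (hW : WI σ J (j + 1 + 1)) (A : SGr σ J j) : GQ (RI A) where
  uniq x x' y y' h h1 h2 h3 h4 := by
    refine Subtype.ext (H702.PG.uniq (x := x.1) (y := x'.1) (fun e => h (Subtype.ext e)) h1 h2
      h3 h4)
  tri x x' z N m m' hn h1 h2 h3 h4 h5 h6 :=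
    Subtype.ext (tri_top hF hW hn h1 h2 h3 h4 h5 h6)
  foot x l h := foot_res hF A x l h
  pt2 l := by
    obtain ⟨Y, h1, h2⟩ := exists_inc_between (i := j) (j := j + 1 + 1) (l := j + 1) (by omega)
      (by omega) l.2
    obtain ⟨y, z, -, -, h5, h6, h7⟩ := three_res hF A l ⟨Y, h1⟩ h2
    exact ⟨y, z, h5, h6, h7⟩
  ln2 x := by
    obtain ⟨⟨Y, hY, hd⟩, -⟩ := hW
    obtain ⟨N, N', h1, h2, h3⟩ := H631.P3.two_up hF (SGr.mk' Y hY hd) x.1
    exact ⟨⟨N, x.2.trans h1⟩, ⟨N', x.2.trans h2⟩, fun e => h3 (congrArg Subtype.val e), h1, h2⟩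

/-- the dimension of the orthogonal space, the other inequality -/
theorem perp_le (hF : Frm σ ε J) (X : Submodule k (n → k)) :
    finrank k X + finrank k (perp σ J X) ≤ Fintype.card n := by
  classical
  let b := Module.finBasis k X
  let L : (n → k) →ₗ[k] (Fin (finrank k X) → k) :=
    LinearMap.pi fun i =>
      { toFun := fun v => hf σ J v (b i).1
        map_add' := fun v w => hf_add_left σ J v w _
        map_smul' := fun c v => by rw [hf_smul_left]; rfl }
  have hker : perp σ J X ≤ LinearMap.ker L := by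
    intro v hv
    rw [LinearMap.mem_ker]
    ext i
    exact (H631.P2.perp_symm hF).1 hv _ (b i).2
  have hsur : LinearMap.range L = ⊤ := by
    rw [LinearMap.range_eq_top]
    intro c
    obtain ⟨v, hv⟩ := exists_prod hF X (b.constr k fun i => σ (ε * c i))
    refine ⟨v, ?_⟩
    ext i
    change hf σ J v (b i).1 = c i
    rw [hF.herm (b i).1 v, hv (b i), Basis.constr_basis, hF.inv, ← mul_assoc, hF.eps, one_mul]
  have h1 := LinearMap.finrank_range_add_finrank_ker L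
  rw [hsur, finrank_top, finrank_fin_fun, finrank_fintype_fun_eq_card] at h1
  have h3 := Submodule.finrank_mono hker
  omega

theorem succ_le {x y : SGr σ J j} (hne : x ≠ y) : j + 1 ≤ finrank k ↥(x.S ⊔ y.S) := by
  by_contra hcon
  have h6 : finrank k x.S = finrank k ↥(x.S ⊔ y.S) := by
    refine le_antisymm (Submodule.finrank_mono le_sup_left) ?_
    rw [x.dim]
    omega
  have h7 : x.S = x.S ⊔ y.S := Submodule.eq_of_le_of_finrank_eq le_sup_left h6
  have h8 : y.S ≤ x.S := by rw [h7]; exact le_sup_right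
  exact hne (SGr.eq_of_le (X := y) (Y := x) h8).symm

end alg

section tgt

variable {n : Type} [Fintype n] [DecidableEq n] {k : Type} [NontriviallyNormedField k]
  [ProperSpace k] {σ : k →+* k} {ε : k} {J : Matrix n n k} {j : ℕ}

/-- the span relation -/
def PlS (x₁ x₂ x : SGr σ J j) : Prop :=
  ∃ W : Gr k n (j + 1), x₁.S ≤ W.1 ∧ x₂.S ≤ W.1 ∧ x.S ≤ W.1

theorem PlS_closed : IsClosed {q : SGr σ J j × SGr σ J j × SGr σ J j | PlS q.1 q.2.1 q.2.2} := by
  have hc : IsClosed {p : SGr σ J j × Gr k n (j + 1) | p.1.S ≤ p.2.1} :=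
    (H100.Gr.incG_closed (k := k) (ι := n) (i := j) (j := j + 1)).preimage
      ((SGr.val_cont.comp continuous_fst).prodMk continuous_snd)
  have h1 : IsClosed {q : (SGr σ J j × SGr σ J j × SGr σ J j) × Gr k n (j + 1) |
      q.1.1.S ≤ q.2.1 ∧ q.1.2.1.S ≤ q.2.1 ∧ q.1.2.2.S ≤ q.2.1} :=
    (hc.preimage (f := fun q : (SGr σ J j × SGr σ J j × SGr σ J j) × Gr k n (j + 1) =>
      (q.1.1, q.2)) (by fun_prop)).inter
      ((hc.preimage (f := fun q : (SGr σ J j × SGr σ J j × SGr σ J j) × Gr k n (j + 1) =>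
        (q.1.2.1, q.2)) (by fun_prop)).inter
        (hc.preimage (f := fun q : (SGr σ J j × SGr σ J j × SGr σ J j) × Gr k n (j + 1) =>
          (q.1.2.2, q.2)) (by fun_prop)))
  have h2 := isClosedMap_fst_of_compactSpace _ h1
  convert h2 using 1
  ext q
  constructor
  · rintro ⟨z, h⟩; exact ⟨(q, z), h, rfl⟩
  · rintro ⟨⟨q', z⟩, h, rfl⟩; exact ⟨z, h⟩

theorem tq_top (hF : Frm σ ε J) (hW : WI σ J (j + 1)) :
    TQ (fun (x : SGr σ J j) (y : SGr σ J (j + 1)) => Inc x y) where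
  uniq x x' y y' h h1 h2 h3 h4 := H702.PG.uniq h h1 h2 h3 h4
  tri x x' z N m m' hn h1 h2 h3 h4 h5 h6 := tri_top hF hW hn h1 h2 h3 h4 h5 h6

/-- **regular points**: singular spaces of dimension `r - 1` in dimension `2 r` -/
theorem pgeo_top [Fact (Continuous σ)] (hF : Frm σ ε J) (hW : WI σ J (j + 1))
    (hc : Fintype.card n = 2 * (j + 1)) :
    PGeo (H677.Col fun (x : SGr σ J j) (y : SGr σ J (j + 1)) => Inc x y) (PlS (J := J)) := by
  have plane : ∀ {x y : SGr σ J j}, x ≠ y → ∀ {W : Gr k n (j + 1)}, x.S ≤ W.1 → y.S ≤ W.1 →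
      x.S ⊔ y.S = W.1 := by
    intro x y hne W h1 h2
    refine Submodule.eq_of_le_of_finrank_le (sup_le h1 h2) ?_
    rw [W.2]
    exact succ_le hne
  have colP : ∀ {x y : SGr σ J j}, H677.Col (fun (x : SGr σ J j) (y : SGr σ J (j + 1)) =>
      Inc x y) x y → Col x y := by
    rintro x y ⟨z, h1, h2⟩ a ha b hb
    exact z.sing a (h1 ha) b (h2 hb)
  -- a plane spanned by two orthogonal spaces is singular
  have mk : ∀ {x y : SGr σ J j}, x ≠ y → ∀ {W : Gr k n (j + 1)}, x.S ≤ W.1 → y.S ≤ W.1 →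
      Col x y → Sing σ J W.1 := by
    intro x y hne W h1 h2 h
    rw [← plane hne h1 h2]
    exact ort_sup_left.2 ⟨ort_sup_right.2 ⟨x.sing, h⟩, ort_sup_right.2 ⟨Ort.symm hF h, y.sing⟩⟩
  refine ⟨H677.isClosed_col inc_closed, PlS_closed, fun x y => fun ⟨z, h1, h2⟩ => ⟨z, h2, h1⟩,
    ?_, ?_, ?_⟩
  · intro x₁ x₂ x z z' hx hz h1 h2 h3 h4 h5 h6
    have e1 : x₁.S ⊔ x₂.S ⊔ x.S ≤ perp σ J (z.S ⊔ z'.S) := by
      rw [← ort_iff_le_perp]
      exact ort_sup_left.2 ⟨ort_sup_right.2 ⟨ort_sup_right.2 ⟨Ort.symm hF (colP h1),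
        Ort.symm hF (colP h3)⟩, Ort.symm hF (colP h5)⟩, ort_sup_right.2 ⟨ort_sup_right.2
        ⟨Ort.symm hF (colP h2), Ort.symm hF (colP h4)⟩, Ort.symm hF (colP h6)⟩⟩
    have e2 := Submodule.finrank_mono e1
    have e3 := perp_le hF (z.S ⊔ z'.S)
    have e4 := succ_le hz
    have e5 : j + 1 ≤ finrank k ↥(x₁.S ⊔ x₂.S ⊔ x.S) :=
      (succ_le hx).trans (Submodule.finrank_mono le_sup_left)
    refine ⟨(⟨x₁.S ⊔ x₂.S ⊔ x.S, by omega⟩ : Gr k n (j + 1)), ?_, ?_, ?_⟩
    · exact (le_sup_left.trans le_sup_left : x₁.S ≤ x₁.S ⊔ x₂.S ⊔ x.S)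
    · exact (le_sup_right.trans le_sup_left : x₂.S ≤ x₁.S ⊔ x₂.S ⊔ x.S)
    · exact (le_sup_right : x.S ≤ x₁.S ⊔ x₂.S ⊔ x.S)
  · rintro x₁ x₂ x x' hx hx' ⟨W, a1, a2, a3⟩ ⟨W', b1, b2, b3⟩ h
    have e1 := plane hx a1 a2
    have e2 := plane hx b1 b2
    rw [← e2, e1] at b3
    have hs := mk hx' a3 b3 (colP h)
    exact ⟨SGr.mk' W.1 hs W.2, a1, a2⟩
  · rintro x₁ x₂ x hx ⟨W, a1, a2, a3⟩ h
    have hs := mk hx a1 a2 (colP h)
    exact ⟨⟨SGr.mk' W.1 hs W.2, a3, a1⟩, ⟨SGr.mk' W.1 hs W.2, a3, a2⟩⟩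

end tgt

end Vale.Agent.P092.H796
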