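import Vale.Agent.P092.SD.Defs

/-!
P092 (helper796), Team D, [RUL]: a closed set of points of the real projective plane which
contains a projective frame and is stable under the ruler (the intersection point of two lines,
each one through two different points of the set) is the whole plane.
-/

set_option linter.all false

open scoped LinearAlgebra.Projectivization Matrix
open Matrix Topology Filter

namespace Vale.Agent.P092.H796

open Vale.Agent.P092.SD
open Vale.Agent.P092.H820 (inc3)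

/-- `A` is stable under the ruler. -/
def Ruler (A : Set (PP ℝ)) : Prop :=
  ∀ a b a' b' l l' p : PP ℝ, a ∈ A → b ∈ A → a' ∈ A → b' ∈ A → a ≠ b → a' ≠ b' → l ≠ l' →
    (a, l) ∈ inc3 (k := ℝ) → (b, l) ∈ inc3 (k := ℝ) → (a', l') ∈ inc3 (k := ℝ) →
    (b', l') ∈ inc3 (k := ℝ) → (p, l) ∈ inc3 (k := ℝ) → (p, l') ∈ inc3 (k := ℝ) → p ∈ A

namespace Ruler

variable {A : Set (PP ℝ)}

theorem meet (hr : Ruler A) {a b a' b' p : Fin 3 → ℝ} {ha : a ≠ 0} {hb : b ≠ 0} {ha' : a' ≠ 0}
    {hb' : b' ≠ 0} (hp : p ≠ 0) (h1 : pt ℝ a ha ∈ A) (h2 : pt ℝ b hb ∈ A) (h3 : pt ℝ a' ha' ∈ A)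
    (h4 : pt ℝ b' hb' ∈ A)
    (hx : crossProduct (crossProduct a b) (crossProduct a' b') ≠ 0)
    (h5 : p ⬝ᵥ crossProduct a b = 0) (h6 : p ⬝ᵥ crossProduct a' b' = 0) : pt ℝ p hp ∈ A := by
  have n1 : crossProduct a b ≠ 0 := by
    intro h
    apply hx
    rw [h]
    simp
  have n2 : crossProduct a' b' ≠ 0 := by
    intro h
    apply hx
    rw [h]
    simp
  refine hr (pt ℝ a ha) (pt ℝ b hb) (pt ℝ a' ha') (pt ℝ b' hb') (pt ℝ _ n1) (pt ℝ _ n2) _ h1 h2 h3
    h4 ?_ ?_ ?_ ?_ ?_ ?_ ?_ ?_ ?_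
  · intro h
    exact n1 ((Projectivization.mk_eq_mk_iff_crossProduct_eq_zero ha hb).1 h)
  · intro h
    exact n2 ((Projectivization.mk_eq_mk_iff_crossProduct_eq_zero ha' hb').1 h)
  · intro h
    exact hx ((Projectivization.mk_eq_mk_iff_crossProduct_eq_zero n1 n2).1 h)
  · change a ⬝ᵥ crossProduct a b = 0
    simp
  · change b ⬝ᵥ crossProduct a b = 0
    simp
  · change a' ⬝ᵥ crossProduct a' b' = 0
    simp
  · change b' ⬝ᵥ crossProduct a' b' = 0
    simp
  · exact h5
  · exact h6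

end Ruler

theorem ne_aff (x y : ℝ) : (![1, x, y] : Fin 3 → ℝ) ≠ 0 := by
  intro h
  have := congrFun h 0
  simp at this

theorem ne_one {a b : ℝ} : (![a, 1, b] : Fin 3 → ℝ) ≠ 0 := by
  intro h
  have := congrFun h 1
  simp at this

theorem ne_two {a b : ℝ} : (![a, b, 1] : Fin 3 → ℝ) ≠ 0 := by
  intro h
  have := congrFun h 2
  simp at this

/-- the affine point `(x, y)` -/
noncomputable def aff (x y : ℝ) : PP ℝ := pt ℝ ![1, x, y] (ne_aff x y)

theorem continuous_aff : Continuous fun z : ℝ × ℝ => aff z.1 z.2 := by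
  have h : Continuous fun z : ℝ × ℝ =>
      (⟨![1, z.1, z.2], ne_aff z.1 z.2⟩ : {v : Fin 3 → ℝ // v ≠ 0}) := by
    refine Continuous.subtype_mk ?_ _
    refine continuous_pi fun i => ?_
    fin_cases i
    · exact continuous_const
    · exact continuous_fst
    · exact continuous_snd
  exact (H820.pj_continuous (k := ℝ) (ι := Fin 3)).comp h

section main

variable {A : Set (PP ℝ)} (hcl : IsClosed A) (hr : Ruler A)
  (h0 : aff 0 0 ∈ A) (h1 : pt ℝ ![0, 1, 0] ne_one ∈ A) (h2 : pt ℝ ![0, 0, 1] ne_two ∈ A)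
  (h3 : aff 1 1 ∈ A)

include hr h0 h1 h2 h3

theorem px {x y : ℝ} (h : aff x y ∈ A) : aff x 0 ∈ A := by
  refine hr.meet (ne_aff x 0) h h2 h0 h1 ?_ ?_ ?_
  · intro e
    have e0 := congrFun e 0
    simp [cross_apply] at e0
  · simp [cross_apply, dotProduct, Fin.sum_univ_three]
  · simp [cross_apply, dotProduct, Fin.sum_univ_three]

theorem py {x y : ℝ} (h : aff x y ∈ A) : aff 0 y ∈ A := by
  refine hr.meet (ne_aff 0 y) h h1 h0 h2 ?_ ?_ ?_
  · intro e
    have e0 := congrFun e 0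
    simp [cross_apply] at e0
  · simp [cross_apply, dotProduct, Fin.sum_univ_three]
  · simp [cross_apply, dotProduct, Fin.sum_univ_three]

theorem pxy {x y : ℝ} (h : aff x 0 ∈ A) (h' : aff 0 y ∈ A) : aff x y ∈ A := by
  refine hr.meet (ne_aff x y) h h2 h' h1 ?_ ?_ ?_
  · intro e
    have e0 := congrFun e 0
    simp [cross_apply] at e0
  · simp [cross_apply, dotProduct, Fin.sum_univ_three]
  · simp [cross_apply, dotProduct, Fin.sum_univ_three]

/-- direction `(1, -1)` -/
theorem dm : pt ℝ ![0, 1, -1] ne_one ∈ A := by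
  refine hr.meet ne_one (px hr h0 h1 h2 h3 h3) (py hr h0 h1 h2 h3 h3) h1 h2 ?_ ?_ ?_
  · intro e
    have e0 := congrFun e 1
    simp [cross_apply] at e0
  · simp [cross_apply, dotProduct, Fin.sum_univ_three]
  · simp [cross_apply, dotProduct, Fin.sum_univ_three]

/-- direction `(1, 1)` -/
theorem dp : pt ℝ ![0, 1, 1] ne_one ∈ A := by
  refine hr.meet ne_one h0 h3 h1 h2 ?_ ?_ ?_
  · intro e
    have e0 := congrFun e 1
    simp [cross_apply] at e0
  · simp [cross_apply, dotProduct, Fin.sum_univ_three]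
  · simp [cross_apply, dotProduct, Fin.sum_univ_three]

theorem swap1 {x : ℝ} (h : aff x 0 ∈ A) : aff 0 x ∈ A := by
  refine hr.meet (ne_aff 0 x) h (dm hr h0 h1 h2 h3) h0 h2 ?_ ?_ ?_
  · intro e
    have e0 := congrFun e 0
    simp [cross_apply] at e0
  · simp [cross_apply, dotProduct, Fin.sum_univ_three]
  · simp [cross_apply, dotProduct, Fin.sum_univ_three]

theorem swap2 {x : ℝ} (h : aff 0 x ∈ A) : aff x 0 ∈ A := by
  refine hr.meet (ne_aff x 0) h (dm hr h0 h1 h2 h3) h0 h1 ?_ ?_ ?_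
  · intro e
    have e0 := congrFun e 0
    simp [cross_apply] at e0
  · simp [cross_apply, dotProduct, Fin.sum_univ_three]
  · simp [cross_apply, dotProduct, Fin.sum_univ_three]

theorem add_mem {x y : ℝ} (h : aff x 0 ∈ A) (h' : aff y 0 ∈ A) : aff (x + y) 0 ∈ A := by
  have e := pxy hr h0 h1 h2 h3 h (swap1 hr h0 h1 h2 h3 h')
  refine hr.meet (ne_aff (x + y) 0) e (dm hr h0 h1 h2 h3) h0 h1 ?_ ?_ ?_
  · intro e
    have e0 := congrFun e 0
    simp [cross_apply] at e0
  · simp [cross_apply, dotProduct, Fin.sum_univ_three]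
  · simp [cross_apply, dotProduct, Fin.sum_univ_three]

theorem neg_mem {x : ℝ} (h : aff x 0 ∈ A) : aff (-x) 0 ∈ A := by
  refine swap2 hr h0 h1 h2 h3 ?_
  refine hr.meet (ne_aff 0 (-x)) h (dp hr h0 h1 h2 h3) h0 h2 ?_ ?_ ?_
  · intro e
    have e0 := congrFun e 0
    simp [cross_apply] at e0
  · simp [cross_apply, dotProduct, Fin.sum_univ_three]
  · simp [cross_apply, dotProduct, Fin.sum_univ_three]

theorem half_mem {x : ℝ} (h : aff x 0 ∈ A) : aff (x / 2) 0 ∈ A := by
  refine px hr h0 h1 h2 h3 (y := x / 2) ?_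
  refine hr.meet (ne_aff (x / 2) (x / 2)) h (dm hr h0 h1 h2 h3) h0 h3 ?_ ?_ ?_
  · intro e
    have e0 := congrFun e 0
    simp [cross_apply] at e0
  · simp [cross_apply, dotProduct, Fin.sum_univ_three]
    ring
  · simp [cross_apply, dotProduct, Fin.sum_univ_three]

include hcl

theorem all_aff (x : ℝ) : aff x 0 ∈ A := by
  let S : AddSubgroup ℝ :=
    { carrier := {x | aff x 0 ∈ A}
      add_mem' := fun {a b} h h' => add_mem hr h0 h1 h2 h3 h h'
      zero_mem' := h0
      neg_mem' := fun {a} h => neg_mem hr h0 h1 h2 h3 h }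
  have hS : IsClosed (S : Set ℝ) := by
    refine hcl.preimage (?_ : Continuous fun x : ℝ => aff x 0)
    exact continuous_aff.comp (continuous_id.prodMk continuous_const)
  have hp : ∀ n : ℕ, (1 / 2 : ℝ) ^ n ∈ S := by
    intro n
    induction n with
    | zero =>
      rw [pow_zero]
      exact px hr h0 h1 h2 h3 h3
    | succ n ih =>
      have e : (1 / 2 : ℝ) ^ (n + 1) = (1 / 2 : ℝ) ^ n / 2 := by ring
      rw [e]
      exact half_mem hr h0 h1 h2 h3 ih
  have hd : Dense (S : Set ℝ) := by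
    refine AddSubgroup.dense_of_not_isolated_zero S fun ε hε => ?_
    obtain ⟨n, hn⟩ := exists_pow_lt_of_lt_one hε (by norm_num : (1 / 2 : ℝ) < 1)
    exact ⟨_, hp n, by positivity, hn⟩
  have h : x ∈ closure (S : Set ℝ) := hd x
  rw [hS.closure_eq] at h
  exact h

theorem all_aff2 (x y : ℝ) : aff x y ∈ A :=
  pxy hr h0 h1 h2 h3 (all_aff hcl hr h0 h1 h2 h3 x)
    (swap1 hr h0 h1 h2 h3 (all_aff hcl hr h0 h1 h2 h3 y))

/-- **[RUL]** -/
theorem rul : A = Set.univ := by
  refine Set.eq_univ_of_forall fun p => ?_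
  induction p using Projectivization.ind with
  | h v hv =>
    by_cases hv0 : v 0 = 0
    · have hne : (![1, v 1, v 2] : Fin 3 → ℝ) ≠ 0 := ne_aff _ _
      refine hr.meet hv h0 (all_aff2 hcl hr h0 h1 h2 h3 (v 1) (v 2)) h1 h2 ?_ ?_ ?_
      · intro e
        apply hv
        have e1 := congrFun e 1
        have e2 := congrFun e 2
        simp [cross_apply] at e1 e2
        ext i
        fin_cases i
        · exact hv0
        · exact e1
        · exact e2
      · simp [cross_apply, dotProduct, Fin.sum_univ_three, hv0]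
        ring
      · simp [cross_apply, dotProduct, Fin.sum_univ_three, hv0]
    · have h := all_aff2 hcl hr h0 h1 h2 h3 (v 1 / v 0) (v 2 / v 0)
      have e : Projectivization.mk ℝ v hv = aff (v 1 / v 0) (v 2 / v 0) := by
        rw [aff, pt, Projectivization.mk_eq_mk_iff']
        refine ⟨v 0, ?_⟩
        ext i
        fin_cases i
        · simp
        · simp
          field_simp
        · simp
          field_simp
      rw [e]
      exact h

end main

/-- **[RUL]**, in the letters of H941/FrD: `src ℝ i` are the points `[1,0,0]`, `[0,1,0]`,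
`[0,0,1]`, `[1,1,1]`. -/
theorem rul_frame {A : Set (PP ℝ)} (hcl : IsClosed A) (hr : Ruler A)
    (v : Fin 4 → (Fin 3 → ℝ)) (hv : ∀ i, v i ≠ 0)
    (hv0 : v = ![![1, 0, 0], ![0, 1, 0], ![0, 0, 1], ![1, 1, 1]])
    (h : ∀ i, pt ℝ (v i) (hv i) ∈ A) : A = Set.univ := by
  subst hv0
  exact rul hcl hr (h 0) (h 1) (h 2) (h 3)

end Vale.Agent.P092.H796
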