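import Vale.Agent.P092.SD.Defs
import Vale.Agent.P092.H899.Simple

/-!
P092 (helper796), Team D, [SLG]: a subgroup of `SL_3(k)` which contains the transvections is
everything, and the plane is one orbit.
-/

set_option linter.all false

open scoped LinearAlgebra.Projectivization
open Matrix

namespace Vale.Agent.P092.H796

open Vale.Agent.P092.SD

/-- A subgroup which contains all transvections is everything. -/
theorem slg_top {k : Type} [Field k] (S : Subgroup (G3 k))
    (h : ∀ (i j : Fin 3) (hij : i ≠ j) (t : k), SpecialLinearGroup.transvection hij t ∈ S) :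
    S = ⊤ :=
  H899.eq_top_of_e S h

/-- The plane is one orbit. -/
theorem slg_orbit {k : Type} [Field k] (a b : PP k) : ∃ g : G3 k, g • a = b := by
  by_cases hab : a = b
  · exact ⟨1, by rw [one_smul, hab]⟩
  · obtain ⟨g, h1, _⟩ := MulAction.is_two_pretransitive_iff.1
      (inferInstance : MulAction.IsMultiplyPretransitive (G3 k) (PP k) 2) hab (Ne.symm hab)
    exact ⟨g, h1⟩

/-- The plane is doubly transitive. -/
theorem slg_two {k : Type} [Field k] {a b a' b' : PP k} (h : a ≠ b) (h' : a' ≠ b') :
    ∃ g : G3 k, g • a = a' ∧ g • b = b' :=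
  MulAction.is_two_pretransitive_iff.1
    (inferInstance : MulAction.IsMultiplyPretransitive (G3 k) (PP k) 2) h h'

end Vale.Agent.P092.H796
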