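import Vale.Agent.P092.H156.Int
import Vale.Agent.P092.H650.Alg2S
import Vale.Agent.P092.H325.KL
import Vale.Agent.P092.PA.Defs
import Vale.Agent.P092.H796.ProdF

/-!
P092 (helper796), block A-POS: the sum of squares.
-/

set_option linter.all false

open scoped InnerProductSpace Topology ENNReal
open Filter ContinuousLinearMap MeasureTheory
open Vale.Agent.P092.H160
open Vale.Agent.P092.H156.Sm
open Vale.Agent.P092.H650
open Vale.Agent.P092.H325 (Pos)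

namespace Vale.Agent.P092.H796

section pos

theorem pos_zero : Pos 0 := ⟨le_rfl, rfl⟩

theorem pos_add {z w : ℂ} (hz : Pos z) (hw : Pos w) : Pos (z + w) :=
  ⟨by rw [Complex.add_re]; exact add_nonneg hz.1 hw.1,
    by rw [Complex.add_im, hz.2, hw.2, add_zero]⟩

theorem pos_sum {I : Type*} (s : Finset I) (f : I → ℂ) (h : ∀ i ∈ s, Pos (f i)) :
    Pos (∑ i ∈ s, f i) := by
  refine ⟨?_, ?_⟩
  · rw [Complex.re_sum]
    exact Finset.sum_nonneg fun i hi => (h i hi).1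
  · rw [Complex.im_sum]
    exact Finset.sum_eq_zero fun i hi => (h i hi).2

theorem pos_integral {X : Type*} [MeasurableSpace X] {m : Measure X} {F : X → ℂ}
    (hF : ∀ x, Pos (F x)) : Pos (∫ x, F x ∂m) := by
  have e : ∫ x, F x ∂m = ((∫ x, (F x).re ∂m : ℝ) : ℂ) := by
    rw [← integral_complex_ofReal]
    refine integral_congr_ae (Eventually.of_forall fun x => ?_)
    apply Complex.ext
    · simp
    · simp [(hF x).2]
  rw [e]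
  exact ⟨by rw [Complex.ofReal_re]; exact integral_nonneg fun x => (hF x).1, Complex.ofReal_im _⟩

theorem pos_self {E : Type*} [NormedAddCommGroup E] [InnerProductSpace ℂ E] (x : E) :
    Pos ⟪x, x⟫_ℂ := by
  rw [inner_self_eq_norm_sq_to_K]
  have : ((‖x‖ : ℂ) ^ 2) = ((‖x‖ ^ 2 : ℝ) : ℂ) := by norm_cast
  refine ⟨?_, ?_⟩
  · change 0 ≤ ((‖x‖ : ℂ) ^ 2).re
    rw [this, Complex.ofReal_re]; positivity
  · change ((‖x‖ : ℂ) ^ 2).im = 0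
    rw [this, Complex.ofReal_im]

theorem pos_gram {E : Type*} [NormedAddCommGroup E] [InnerProductSpace ℂ E] {P Λ : Type*}
    [Fintype P] [DecidableEq Λ] (t : P → Λ) (f : P → E) :
    Pos (∑ p, ∑ p', if t p = t p' then ⟪f p, f p'⟫_ℂ else 0) := by
  have e : (∑ p, ∑ p', if t p = t p' then ⟪f p, f p'⟫_ℂ else 0) =
      ∑ s ∈ Finset.univ.image t, ⟪∑ p ∈ Finset.univ.filter (fun p => t p = s), f p,
        ∑ p ∈ Finset.univ.filter (fun p => t p = s), f p⟫_ℂ := by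
    rw [← Finset.sum_fiberwise_of_maps_to (s := Finset.univ) (t := Finset.univ.image t) (g := t)
      (fun p hp => Finset.mem_image_of_mem t hp)]
    refine Finset.sum_congr rfl fun s _ => ?_
    rw [sum_inner]
    refine Finset.sum_congr rfl fun p hp => ?_
    rw [Finset.mem_filter] at hp
    rw [inner_sum, Finset.sum_filter]
    refine Finset.sum_congr rfl fun p' _ => ?_
    rw [hp.2]
    by_cases h : s = t p'
    · rw [if_pos h, if_pos h.symm]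
    · rw [if_neg h, if_neg (Ne.symm h)]
  rw [e]
  exact pos_sum _ _ fun s _ => pos_self _

theorem isClosed_pos : IsClosed {z : ℂ | Pos z} := by
  have h1 : IsClosed {z : ℂ | 0 ≤ z.re} := isClosed_le continuous_const Complex.continuous_re
  have h2 : IsClosed {z : ℂ | z.im = 0} := isClosed_eq Complex.continuous_im continuous_const
  exact h1.inter h2

end pos

section tt

variable {Γ Λ G₁ G₂ H₁ H₂ K : Type} [Group Γ] [Countable Γ] [Group Λ]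
  [NormedAddCommGroup K] [InnerProductSpace ℂ K] [CompleteSpace K]
  [Group G₁] [TopologicalSpace G₁] [IsTopologicalGroup G₁] [SecondCountableTopology G₁]
  [MeasurableSpace G₁] [BorelSpace G₁]
  [Group G₂] [TopologicalSpace G₂] [IsTopologicalGroup G₂] [SecondCountableTopology G₂]
  [MeasurableSpace G₂] [BorelSpace G₂]
  [Group H₁] [TopologicalSpace H₁] [IsTopologicalGroup H₁]
  [Group H₂] [TopologicalSpace H₂] [IsTopologicalGroup H₂]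
  {ρ : Γ →* (K →L[ℂ] K)} {V : Λ →* (K →L[ℂ] K)} {ω : K} {ι₁ : Γ →* G₁} {ι₂ : Γ →* G₂}
  {κ₁ : Λ →* H₁} {κ₂ : Λ →* H₂} {μ₁ : Measure G₁} {μ₂ : Measure G₂}
  [μ₁.IsMulLeftInvariant] [μ₂.IsMulLeftInvariant] [SFinite μ₁] [SFinite μ₂]
  {a a' c c' : G₁ → K →L[ℂ] K} {b b' : G₂ → K →L[ℂ] K}

/-- `Gd` from `Smo`. -/
theorem gd_of_smo (h : TFrm ρ V ω) (hO : ∀ a b, Smo ι₁ κ₁ ρ V ω μ₁ a → Smo ι₁ κ₁ ρ V ω μ₁ b →
    Ort V ω μ₁ a b) (ha : Smo ι₁ κ₁ ρ V ω μ₁ a) : Gd ι₁ ρ ω μ₁ a where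
  fd := ha.toFd
  l2 := ha.l2
  iso := fun ζ => lintegral_sq_apply h ha.toFd ha.l2 (hO a a ha ha) ζ
  iso' := fun ζ => by
    have h1 := Smo.adj h.toFrm ha
    have h2 := lintegral_sq_apply h h1.toFd h1.l2 (hO _ _ h1 h1) ζ
    rw [h2, nsq_adj h.reg ha.toFd.continuous ha.toFd.equiv]

/-- the two vector fields in the trace identity are square integrable -/
theorem key_l2 (h : RegRep ρ ω) (hc : Fd ι₁ ρ c) (hc' : Gd ι₁ ρ ω μ₁ c')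
    (hb : Gd ι₂ ρ ω μ₂ b) (ha : Fd ι₁ ρ a) (ha' : Gd ι₁ ρ ω μ₁ a') :
    MemLp (fun z : G₁ × G₂ => adjoint (b z.2) (adjoint (c z.1) (c' z.1 ω))) 2 (μ₁.prod μ₂) ∧
    MemLp (fun z : G₁ × G₂ => a z.1 (adjoint (a' z.1) (adjoint (b z.2) ω))) 2 (μ₁.prod μ₂) := by
  have fa := fd_fst ι₂ ha
  have fa' := fd_fst ι₂ ha'.fd
  have fb := fd_snd ι₁ hb.fd
  constructor
  · exact l2_ba (ω := ω) (a := fun x => adjoint (c x) * c' x) (b := fun y => adjoint (b y))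
      (hb.fd.adj h).continuous ((hc.adj h).mul hc'.fd).continuous hb.iso' hb.ne_top
      (L2.mul_left (hc.adj h).continuous hc'.fd.continuous (hc.adj h).bdd hc'.l2)
  · exact L2.mul_left (ω := ω) (a := fun z : G₁ × G₂ => a z.1)
      (b := fun z : G₁ × G₂ => adjoint (a' z.1) * adjoint (b z.2)) fa.continuous
      ((fa'.adj h).mul (fb.adj h)).continuous fa.bdd
      (l2_ab (a := fun x => adjoint (a' x)) (b := fun y => adjoint (b y))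
      (hb.fd.adj h).continuous (ha'.fd.adj h).continuous ha'.iso' ha'.ne_top
      (L2.adj h hb.fd hb.l2))

/-- the pairing -/
noncomputable def Th (ω : K) (μ₁ : Measure G₁) (μ₂ : Measure G₂) (a : G₁ → K →L[ℂ] K)
    (b : G₂ → K →L[ℂ] K) (a' : G₁ → K →L[ℂ] K) (b' : G₂ → K →L[ℂ] K) : ℂ :=
  ∫ x, ∫ y, ⟪adjoint (b' y) (a' x ω), a x (adjoint (b y) ω)⟫_ℂ ∂μ₂ ∂μ₁

/-- the pairing for products -/
theorem th_prod (h : RegRep ρ ω) (hc : Gd ι₁ ρ ω μ₁ c) (hc' : Gd ι₁ ρ ω μ₁ c')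
    (hb : Gd ι₂ ρ ω μ₂ b) (ha : Gd ι₁ ρ ω μ₁ a) (ha' : Gd ι₁ ρ ω μ₁ a') :
    Th ω μ₁ μ₂ (fun x => a x * adjoint (a' x)) b (fun x => adjoint (c x) * c' x) b =
      ip ω (μ₁.prod μ₂) (zf c b a) (zf c' b a') := by
  rw [← key_tr h hc hc' hb ha ha']
  obtain ⟨h1, h2⟩ := key_l2 h hc.fd hc' hb ha.fd ha'
  rw [integral_prod _ (integrable_inner_of_memLp h1 h2)]
  rfl

/-- the integrand of the average -/
noncomputable def FF (κ₁ : Λ →* H₁) (κ₂ : Λ →* H₂) (V : Λ →* (K →L[ℂ] K)) (ω : K)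
    (μ₁ : Measure G₁) (μ₂ : Measure G₂) (b : G₂ → K →L[ℂ] K)
    (a' a : G₁ → K →L[ℂ] K) (h : H₁ × H₂) : ℂ :=
  Th ω μ₁ μ₂ (al κ₁ V h.1 a) (al κ₂ V h.2 b) (al κ₁ V h.1 a') (al κ₂ V h.2 b)

/-- the average -/
noncomputable def qq (κ₁ : Λ →* H₁) (κ₂ : Λ →* H₂) (V : Λ →* (K →L[ℂ] K)) (ω : K)
    (μ₁ : Measure G₁) (μ₂ : Measure G₂) [MeasurableSpace H₁] [MeasurableSpace H₂]
    (m : Measure (H₁ × H₂)) (b : G₂ → K →L[ℂ] K)
    (a' a : G₁ → K →L[ℂ] K) : ℂ :=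
  ∫ h : H₁ × H₂, Th ω μ₁ μ₂ (al κ₁ V h.1 a) (al κ₂ V h.2 b) (al κ₁ V h.1 a') (al κ₂ V h.2 b) ∂m

/-- what is needed about the integrand -/
structure Avg (ι₁ : Γ →* G₁) (κ₁ : Λ →* H₁) (κ₂ : Λ →* H₂) (ρ : Γ →* (K →L[ℂ] K))
    (V : Λ →* (K →L[ℂ] K)) (ω : K) (μ₁ : Measure G₁) (μ₂ : Measure G₂)
    (b : G₂ → K →L[ℂ] K) : Prop where
  cont : ∀ a' a, Smo ι₁ κ₁ ρ V ω μ₁ a' → Smo ι₁ κ₁ ρ V ω μ₁ a →
    Continuous (FF κ₁ κ₂ V ω μ₁ μ₂ b a' a)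
  bdd : ∀ a' a, Smo ι₁ κ₁ ρ V ω μ₁ a' → Smo ι₁ κ₁ ρ V ω μ₁ a →
    ∃ C : ℝ, ∀ h, ‖FF κ₁ κ₂ V ω μ₁ μ₂ b a' a h‖ ≤ C
  inv : ∀ a' a, Smo ι₁ κ₁ ρ V ω μ₁ a' → Smo ι₁ κ₁ ρ V ω μ₁ a → ∀ v h,
    FF κ₁ κ₂ V ω μ₁ μ₂ b a' a ((κ₁.prod κ₂) v * h) = FF κ₁ κ₂ V ω μ₁ μ₂ b a' a h

theorem al_cj (h : Frm ρ V ω) (hd : DenseRange κ₁) (ha : Smo ι₁ κ₁ ρ V ω μ₁ a) (s : Λ) (g : H₁) :
    al κ₁ V g (cj V s a) = al κ₁ V (g * κ₁ s) a := by
  have e : cj V s a = al κ₁ V (κ₁ s) a := by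
    funext x
    rw [al_coe h hd ha.acont]
  funext x
  rw [e, al_al h hd ha.acont]

variable [MeasurableSpace H₁] [BorelSpace H₁] [SecondCountableTopology H₁]
  [MeasurableSpace H₂] [BorelSpace H₂] [SecondCountableTopology H₂] {m : Measure (H₁ × H₂)}

theorem integrable_ff (hA : Avg ι₁ κ₁ κ₂ ρ V ω μ₁ μ₂ b) [IsFiniteMeasure m]
    (ha' : Smo ι₁ κ₁ ρ V ω μ₁ a') (ha : Smo ι₁ κ₁ ρ V ω μ₁ a) :
    Integrable (FF κ₁ κ₂ V ω μ₁ μ₂ b a' a) m := by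
  obtain ⟨C, hC⟩ := hA.bdd a' a ha' ha
  exact Integrable.of_bound (hA.cont a' a ha' ha).aestronglyMeasurable C (Eventually.of_forall hC)

theorem qq_cj (h : Frm ρ V ω) (hd : DenseRange κ₁) (hA : Avg ι₁ κ₁ κ₂ ρ V ω μ₁ μ₂ b)
    (hm : PA.Lat (κ₁.prod κ₂) m)
    (ha' : Smo ι₁ κ₁ ρ V ω μ₁ a') (ha : Smo ι₁ κ₁ ρ V ω μ₁ a) (s : Λ) :
    qq κ₁ κ₂ V ω μ₁ μ₂ m b (cj V s a') (cj V s a) = qq κ₁ κ₂ V ω μ₁ μ₂ m b a' a := by
  have h1 := hm.inv (FF κ₁ κ₂ V ω μ₁ μ₂ b a' a) (hA.cont a' a ha' ha) (hA.bdd a' a ha' ha)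
    (hA.inv a' a ha' ha) (κ₁ s, 1)
  refine Eq.trans ?_ h1
  unfold qq FF
  refine integral_congr_ae (Eventually.of_forall fun g => ?_)
  simp only [al_cj h hd ha, al_cj h hd ha', Prod.fst_mul, Prod.snd_mul, mul_one]

/-- the vector of `(c b a)*` -/
noncomputable def zv (h : RegRep ρ ω) (hc : Smo ι₁ κ₁ ρ V ω μ₁ c) (hb : Gd ι₂ ρ ω μ₂ b)
    (ha : Gd ι₁ ρ ω μ₁ a) : Lp K 2 (μ₁.prod μ₂) := (l2_zf h hc.toFd hb ha).toLp _

theorem ff_prod (h : TFrm ρ V ω) (hd : DenseRange κ₁) (hd₂ : DenseRange κ₂)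
    (hO : ∀ a b, Smo ι₁ κ₁ ρ V ω μ₁ a → Smo ι₁ κ₁ ρ V ω μ₁ b → Ort V ω μ₁ a b)
    (hO₂ : ∀ a b, Smo ι₂ κ₂ ρ V ω μ₂ a → Smo ι₂ κ₂ ρ V ω μ₂ b → Ort V ω μ₂ a b)
    (hb : Smo ι₂ κ₂ ρ V ω μ₂ b)
    (hc : Smo ι₁ κ₁ ρ V ω μ₁ c) (hc' : Smo ι₁ κ₁ ρ V ω μ₁ c')
    (ha : Smo ι₁ κ₁ ρ V ω μ₁ a) (ha' : Smo ι₁ κ₁ ρ V ω μ₁ a') (g : H₁ × H₂) :
    FF κ₁ κ₂ V ω μ₁ μ₂ b (fun x => adjoint (c x) * c' x) (fun x => a x * adjoint (a' x)) g =
      ⟪zv h.reg (smo_al h.toFrm hd hc g.1) (gd_of_smo h hO₂ (smo_al h.toFrm hd₂ hb g.2))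
        (gd_of_smo h hO (smo_al h.toFrm hd ha g.1)),
      zv h.reg (smo_al h.toFrm hd hc' g.1) (gd_of_smo h hO₂ (smo_al h.toFrm hd₂ hb g.2))
        (gd_of_smo h hO (smo_al h.toFrm hd ha' g.1))⟫_ℂ := by
  have gc := gd_of_smo h hO (smo_al h.toFrm hd hc g.1)
  have gc' := gd_of_smo h hO (smo_al h.toFrm hd hc' g.1)
  have ga := gd_of_smo h hO (smo_al h.toFrm hd ha g.1)
  have ga' := gd_of_smo h hO (smo_al h.toFrm hd ha' g.1)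
  have gb := gd_of_smo h hO₂ (smo_al h.toFrm hd₂ hb g.2)
  have e1 : al κ₁ V g.1 (fun x => a x * adjoint (a' x)) =
      fun x => al κ₁ V g.1 a x * adjoint (al κ₁ V g.1 a' x) := by
    funext x
    have h1 := Smo.adj h.toFrm ha'
    rw [al_mul h.toFrm hd ha.acont h1.acont ha.bdd h1.bdd, al_adj h.toFrm hd ha'.acont]
  have e2 : al κ₁ V g.1 (fun x => adjoint (c x) * c' x) =
      fun x => adjoint (al κ₁ V g.1 c x) * al κ₁ V g.1 c' x := by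
    funext x
    have h1 := Smo.adj h.toFrm hc
    rw [al_mul h.toFrm hd h1.acont hc'.acont h1.bdd hc'.bdd, al_adj h.toFrm hd hc.acont]
  unfold FF zv
  rw [e1, e2, th_prod h.reg gc gc' gb ga ga', ← integral_inner_toLp]
  rfl

/-- the field `cj V s (c* c')` -/
theorem cj_cc (h : Frm ρ V ω) (s : Λ) (c c' : G₁ → K →L[ℂ] K) :
    cj V s (fun x => adjoint (c x) * c' x) = fun x => adjoint (cj V s c x) * cj V s c' x := by
  funext x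
  rw [cj_mul h, cj_adj h]

theorem cj_aa (h : Frm ρ V ω) (s : Λ) (a a' : G₁ → K →L[ℂ] K) :
    cj V s (fun x => a x * adjoint (a' x)) = fun x => cj V s a x * adjoint (cj V s a' x) := by
  funext x
  rw [cj_mul h, cj_adj h]

theorem cj_cj (s t : Λ) (a : G₁ → K →L[ℂ] K) : cj V s (cj V t a) = cj V (s * t) a := by
  funext x
  rw [cj_mul_left]

/-- **Sum of squares.** -/
theorem sos (h : TFrm ρ V ω) (hd : DenseRange κ₁) (hd₂ : DenseRange κ₂)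
    (hO : ∀ a b, Smo ι₁ κ₁ ρ V ω μ₁ a → Smo ι₁ κ₁ ρ V ω μ₁ b → Ort V ω μ₁ a b)
    (hO₂ : ∀ a b, Smo ι₂ κ₂ ρ V ω μ₂ a → Smo ι₂ κ₂ ρ V ω μ₂ b → Ort V ω μ₂ a b)
    (hA : Avg ι₁ κ₁ κ₂ ρ V ω μ₁ μ₂ b) (hm : PA.Lat (κ₁.prod κ₂) m)
    (hb : Smo ι₂ κ₂ ρ V ω μ₂ b) {I J : Type} [Fintype I] [Fintype J]
    {a : I → G₁ → K →L[ℂ] K} {c : J → G₁ → K →L[ℂ] K} (v : I → Λ) (w : J → Λ)
    (ha : ∀ i, Smo ι₁ κ₁ ρ V ω μ₁ (a i)) (hc : ∀ j, Smo ι₁ κ₁ ρ V ω μ₁ (c j)) :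
    Pos (∑ p : J × I, ∑ p' : J × I,
      qq κ₁ κ₂ V ω μ₁ μ₂ m b (cj V (w p.1)⁻¹ fun x => adjoint (c p.1 x) * c p'.1 x)
        (fun x => a p.2 x * adjoint (cj V (v p.2 * (v p'.2)⁻¹) (a p'.2) x)) *
        ⟪V ((w p.1)⁻¹ * w p'.1) ω, V (v p.2 * (v p'.2)⁻¹) ω⟫_ℂ) := by
  classical
  have := hm.prob
  have sC : ∀ p : J × I, Smo ι₁ κ₁ ρ V ω μ₁ (cj V (w p.1 * v p.2)⁻¹ (c p.1)) := fun p =>
    smo_cj h.toFrm (hc _) _
  have sA : ∀ p : J × I, Smo ι₁ κ₁ ρ V ω μ₁ (cj V (v p.2)⁻¹ (a p.2)) := fun p =>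
    smo_cj h.toFrm (ha _) _
  let f : J × I → H₁ × H₂ → Lp K 2 (μ₁.prod μ₂) := fun p g =>
    zv h.reg (smo_al h.toFrm hd (sC p) g.1) (gd_of_smo h hO₂ (smo_al h.toFrm hd₂ hb g.2))
        (gd_of_smo h hO (smo_al h.toFrm hd (sA p) g.1))
  let t : J × I → Λ := fun p => w p.1 * v p.2
  have hf : ∀ p p' : J × I, (fun g => ⟪f p g, f p' g⟫_ℂ) =
      FF κ₁ κ₂ V ω μ₁ μ₂ b (fun x => adjoint (cj V (w p.1 * v p.2)⁻¹ (c p.1) x) *
        cj V (w p'.1 * v p'.2)⁻¹ (c p'.1) x)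
        (fun x => cj V (v p.2)⁻¹ (a p.2) x * adjoint (cj V (v p'.2)⁻¹ (a p'.2) x)) := by
    intro p p'
    funext g
    exact (ff_prod h hd hd₂ hO hO₂ hb (sC p) (sC p') (sA p) (sA p') g).symm
  have hint : ∀ p p' : J × I, Integrable (fun g => ⟪f p g, f p' g⟫_ℂ) m := by
    intro p p'
    rw [hf p p']
    exact integrable_ff hA (Smo.mul h.toFrm (Smo.adj h.toFrm (sC p)) (sC p'))
      (Smo.mul h.toFrm (sA p) (Smo.adj h.toFrm (sA p')))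
  have hterm : ∀ p p' : J × I,
      qq κ₁ κ₂ V ω μ₁ μ₂ m b (cj V (w p.1)⁻¹ fun x => adjoint (c p.1 x) * c p'.1 x)
        (fun x => a p.2 x * adjoint (cj V (v p.2 * (v p'.2)⁻¹) (a p'.2) x)) *
        ⟪V ((w p.1)⁻¹ * w p'.1) ω, V (v p.2 * (v p'.2)⁻¹) ω⟫_ℂ =
      ∫ g, (if t p = t p' then ⟪f p g, f p' g⟫_ℂ else 0) ∂m := by
    intro p p'
    by_cases htt : t p = t p'
    · have h1 : (w p.1)⁻¹ * w p'.1 = v p.2 * (v p'.2)⁻¹ := by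
        have h2 : w p.1 * v p.2 = w p'.1 * v p'.2 := htt
        rw [inv_mul_eq_iff_eq_mul, ← mul_assoc, h2, mul_assoc, mul_inv_cancel, mul_one]
      have h9 : ⟪V (v p.2 * (v p'.2)⁻¹) ω, V (v p.2 * (v p'.2)⁻¹) ω⟫_ℂ = 1 := by
        rw [inner_self_eq_norm_sq_to_K, h.toFrm.norm_map, h.toFrm.norm_omega]
        simp
      rw [h1, h9, mul_one]
      simp only [if_pos htt]
      rw [hf p p']
      have s1 : Smo ι₁ κ₁ ρ V ω μ₁ (cj V (w p.1)⁻¹ fun x => adjoint (c p.1 x) * c p'.1 x) :=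
        smo_cj h.toFrm (Smo.mul h.toFrm (Smo.adj h.toFrm (hc p.1)) (hc p'.1)) _
      have s2 : Smo ι₁ κ₁ ρ V ω μ₁
          (fun x => a p.2 x * adjoint (cj V (v p.2 * (v p'.2)⁻¹) (a p'.2) x)) :=
        Smo.mul h.toFrm (ha p.2) (Smo.adj h.toFrm (smo_cj h.toFrm (ha p'.2) _))
      rw [← qq_cj h.toFrm hd hA hm s1 s2 (v p.2)⁻¹, cj_cj, cj_cc h.toFrm, cj_aa h.toFrm, cj_cj]
      have e1 : (v p.2)⁻¹ * (w p.1)⁻¹ = (w p.1 * v p.2)⁻¹ := by rw [mul_inv_rev]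
      have e2 : (w p.1 * v p.2)⁻¹ = (w p'.1 * v p'.2)⁻¹ := congrArg _ htt
      have e3 : (v p.2)⁻¹ * (v p.2 * (v p'.2)⁻¹) = (v p'.2)⁻¹ := by rw [inv_mul_cancel_left]
      rw [e1, e3]
      conv_lhs => rw [show (fun x => adjoint (cj V (w p.1 * v p.2)⁻¹ (c p.1) x) *
        cj V (w p.1 * v p.2)⁻¹ (c p'.1) x) = (fun x => adjoint (cj V (w p.1 * v p.2)⁻¹ (c p.1) x) *
        cj V (w p'.1 * v p'.2)⁻¹ (c p'.1) x) from by rw [← e2]]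
      rfl
    · have h1 : (w p.1)⁻¹ * w p'.1 ≠ v p.2 * (v p'.2)⁻¹ := by
        intro h2
        apply htt
        change w p.1 * v p.2 = w p'.1 * v p'.2
        rw [inv_mul_eq_iff_eq_mul, ← mul_assoc] at h2
        rw [h2, inv_mul_cancel_right]
      rw [h.toFrm.orthonormal.2 h1, mul_zero]
      simp only [if_neg htt, integral_zero]
  simp only [hterm]
  have e : (∑ p : J × I, ∑ p' : J × I, ∫ g, (if t p = t p' then ⟪f p g, f p' g⟫_ℂ else 0) ∂m) =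
      ∫ g, (∑ p : J × I, ∑ p' : J × I, (if t p = t p' then ⟪f p g, f p' g⟫_ℂ else 0)) ∂m := by
    have hint' : ∀ p p' : J × I, Integrable (fun g => if t p = t p' then ⟪f p g, f p' g⟫_ℂ else 0)
        m := by
      intro p p'
      by_cases htt : t p = t p'
      · simp only [if_pos htt]; exact hint p p'
      · simp only [if_neg htt]; exact integrable_zero _ _ _
    rw [integral_finset_sum _ fun p _ => integrable_finset_sum _ fun p' _ => hint' p p']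
    refine Finset.sum_congr rfl fun p _ => ?_
    rw [integral_finset_sum _ fun p' _ => hint' p p']
  rw [e]
  exact pos_integral fun g => pos_gram t fun p => f p g

end tt

end Vale.Agent.P092.H796
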