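import Vale.Agent.P092.H796.PosT

/-!
P092 (helper796), block A-POS: the Tonelli identity.
-/

set_option linter.all false

open scoped InnerProductSpace Topology ENNReal
open Filter ContinuousLinearMap MeasureTheory
open Vale.Agent.P092.H160
open Vale.Agent.P092.H156.Sm
open Vale.Agent.P092.H650
open Vale.Agent.P092.H325 (Pos iv PosOp kp iv_ae)
open Vale.Agent.P092.H734 (SF OrIn TrIn)

namespace Vale.Agent.P092.H796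

section two

variable {Γ Λ G₁ G₂ H₁ H₂ K : Type} [Group Γ] [Countable Γ] [Group Λ]
  [NormedAddCommGroup K] [InnerProductSpace ℂ K] [CompleteSpace K]
  [Group G₁] [TopologicalSpace G₁] [IsTopologicalGroup G₁] [SecondCountableTopology G₁]
  [MeasurableSpace G₁] [BorelSpace G₁]
  [Group G₂] [TopologicalSpace G₂] [IsTopologicalGroup G₂] [SecondCountableTopology G₂]
  [MeasurableSpace G₂] [BorelSpace G₂]
  [Group H₁] [TopologicalSpace H₁] [IsTopologicalGroup H₁]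
  [MeasurableSpace H₁] [BorelSpace H₁] [SecondCountableTopology H₁]
  [Group H₂] [TopologicalSpace H₂] [IsTopologicalGroup H₂]
  [MeasurableSpace H₂] [BorelSpace H₂] [SecondCountableTopology H₂]
  {ρ : Γ →* (K →L[ℂ] K)} {V : Λ →* (K →L[ℂ] K)} {ω : K} {ι₁ : Γ →* G₁} {ι₂ : Γ →* G₂}
  {κ₁ : Λ →* H₁} {κ₂ : Λ →* H₂} {μ₁ : Measure G₁} {μ₂ : Measure G₂}
  [μ₁.IsMulLeftInvariant] [μ₂.IsMulLeftInvariant] [SFinite μ₁] [SFinite μ₂]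
  {a c : G₁ → K →L[ℂ] K}
  {b : G₂ → K →L[ℂ] K} {m : Measure (H₁ × H₂)}

/-- the integrand -/
noncomputable def Phi (κ₁ : Λ →* H₁) (κ₂ : Λ →* H₂) (V : Λ →* (K →L[ℂ] K)) (ω : K)
    (c : G₁ → K →L[ℂ] K) (b : G₂ → K →L[ℂ] K) (a : G₁ → K →L[ℂ] K)
    (q : (G₁ × (H₁ × H₂)) × (G₁ × G₂)) : ℝ≥0∞ :=
  ‖al κ₁ V q.1.2.1 c (q.2.1 * q.1.1)
    (al κ₂ V q.1.2.2 b q.2.2 (al κ₁ V q.1.2.1 a q.2.1 ω))‖ₑ ^ 2

theorem measurable_phi (h : Frm ρ V ω) (hd : DenseRange κ₁) (hd₂ : DenseRange κ₂)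
    (hc : Smo ι₁ κ₁ ρ V ω μ₁ c) (hb : Smo ι₂ κ₂ ρ V ω μ₂ b) (ha : Smo ι₁ κ₁ ρ V ω μ₁ a) :
    Measurable (Phi κ₁ κ₂ V ω c b a) := by
  have cc := continuous_al_uncurry h hd hc.toFd hc.acont
  have cb := continuous_al_uncurry h hd₂ hb.toFd hb.acont
  have ca := continuous_al_uncurry h hd ha.toFd ha.acont
  have c1 : Continuous fun q : (G₁ × (H₁ × H₂)) × (G₁ × G₂) =>
      al κ₁ V q.1.2.1 c (q.2.1 * q.1.1) :=
    cc.comp (f := fun q : (G₁ × (H₁ × H₂)) × (G₁ × G₂) => (q.1.2.1, q.2.1 * q.1.1)) (by fun_prop)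
  have c2 : Continuous fun q : (G₁ × (H₁ × H₂)) × (G₁ × G₂) => al κ₂ V q.1.2.2 b q.2.2 :=
    cb.comp (f := fun q : (G₁ × (H₁ × H₂)) × (G₁ × G₂) => (q.1.2.2, q.2.2)) (by fun_prop)
  have c3 : Continuous fun q : (G₁ × (H₁ × H₂)) × (G₁ × G₂) => al κ₁ V q.1.2.1 a q.2.1 :=
    ca.comp (f := fun q : (G₁ × (H₁ × H₂)) × (G₁ × G₂) => (q.1.2.1, q.2.1)) (by fun_prop)
  exact ((c1.clm_apply (c2.clm_apply (c3.clm_apply continuous_const))).enorm.measurable).pow_const 2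

/-- the form on squares as a double integral -/
theorem enorm_qq (h : TFrm ρ V ω) (hd : DenseRange κ₁) (hd₂ : DenseRange κ₂)
    (hO : ∀ a b, Smo ι₁ κ₁ ρ V ω μ₁ a → Smo ι₁ κ₁ ρ V ω μ₁ b → Ort V ω μ₁ a b)
    (hO₂ : ∀ a b, Smo ι₂ κ₂ ρ V ω μ₂ a → Smo ι₂ κ₂ ρ V ω μ₂ b → Ort V ω μ₂ a b)
    [μ₁.IsMulRightInvariant] [IsFiniteMeasure m]
    (hA : Avg ι₁ κ₁ κ₂ ρ V ω μ₁ μ₂ b)
    (hc : Smo ι₁ κ₁ ρ V ω μ₁ c) (hb : Smo ι₂ κ₂ ρ V ω μ₂ b) (ha : Smo ι₁ κ₁ ρ V ω μ₁ a) (z : G₁) :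
    ‖qq κ₁ κ₂ V ω μ₁ μ₂ m b (fun x => adjoint (c (x * z)) * c (x * z))
      (fun x => a x * adjoint (a x))‖ₑ =
    ∫⁻ g, ∫⁻ p, Phi κ₁ κ₂ V ω c b a ((z, g), p) ∂(μ₁.prod μ₂) ∂m := by
  have hcz : Smo ι₁ κ₁ ρ V ω μ₁ (fun x => c (x * z)) := hc.rt z
  have gd : ∀ g : H₁ × H₂, _ := fun g => gd_of_smo h hO₂ (smo_al h.toFrm hd₂ hb g.2)
  let zz : H₁ × H₂ → Lp K 2 (μ₁.prod μ₂) := fun g =>
    zv h.reg (smo_al h.toFrm hd hcz g.1) (gd_of_smo h hO₂ (smo_al h.toFrm hd₂ hb g.2))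
        (gd_of_smo h hO (smo_al h.toFrm hd ha g.1))
  have e1 : ∀ g, FF κ₁ κ₂ V ω μ₁ μ₂ b (fun x => adjoint (c (x * z)) * c (x * z))
      (fun x => a x * adjoint (a x)) g = ((‖zz g‖ ^ 2 : ℝ) : ℂ) := by
    intro g
    rw [ff_prod h hd hd₂ hO hO₂ hb hcz hcz ha ha g, inner_self_eq_norm_sq_to_K]
    norm_cast
  have hint := integrable_ff hA (m := m) (Smo.mul h.toFrm (Smo.adj h.toFrm hcz) hcz)
    (Smo.mul h.toFrm ha (Smo.adj h.toFrm ha))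
  have hint2 : Integrable (fun g => ‖zz g‖ ^ 2) m := by
    have h1 := hint.re
    refine h1.congr (Eventually.of_forall fun g => ?_)
    change RCLike.re (FF κ₁ κ₂ V ω μ₁ μ₂ b (fun x => adjoint (c (x * z)) * c (x * z))
      (fun x => a x * adjoint (a x)) g) = _
    rw [e1 g]
    exact Complex.ofReal_re _
  have e2 : qq κ₁ κ₂ V ω μ₁ μ₂ m b (fun x => adjoint (c (x * z)) * c (x * z))
      (fun x => a x * adjoint (a x)) = ((∫ g, ‖zz g‖ ^ 2 ∂m : ℝ) : ℂ) := by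
    rw [← integral_complex_ofReal]
    exact integral_congr_ae (Eventually.of_forall e1)
  have e3 : ‖((∫ g, ‖zz g‖ ^ 2 ∂m : ℝ) : ℂ)‖ₑ = ENNReal.ofReal (∫ g, ‖zz g‖ ^ 2 ∂m) := by
    rw [← ofReal_norm_eq_enorm, Complex.norm_real, Real.norm_of_nonneg
      (integral_nonneg fun g => by positivity)]
  rw [e2, e3, ofReal_integral_eq_lintegral_ofReal hint2
    (Eventually.of_forall fun g => by positivity)]
  refine lintegral_congr fun g => ?_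
  have hl2 := l2_zf h.reg (smo_al h.toFrm hd hcz g.1).toFd
    (gd_of_smo h hO₂ (smo_al h.toFrm hd₂ hb g.2)) (gd_of_smo h hO (smo_al h.toFrm hd ha g.1))
  have e4 : ‖zz g‖ ^ 2 = (nsq ω (μ₁.prod μ₂) (zf (al κ₁ V g.1 fun x => c (x * z))
      (al κ₂ V g.2 b) (al κ₁ V g.1 a))).toReal := norm_toLp_sq hl2
  rw [e4, ENNReal.ofReal_toReal (nsq_lt_top hl2).ne]
  have fcba := fd_cba (smo_al h.toFrm hd hcz g.1).toFd (smo_al h.toFrm hd₂ hb g.2).toFd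
    (smo_al h.toFrm hd ha g.1).toFd
  have e5 := nsq_adj (μ := μ₁.prod μ₂) h.reg fcba.continuous fcba.equiv
  exact e5

theorem measurable_qq (h : TFrm ρ V ω) (hd : DenseRange κ₁) (hd₂ : DenseRange κ₂)
    (hO : ∀ a b, Smo ι₁ κ₁ ρ V ω μ₁ a → Smo ι₁ κ₁ ρ V ω μ₁ b → Ort V ω μ₁ a b)
    (hO₂ : ∀ a b, Smo ι₂ κ₂ ρ V ω μ₂ a → Smo ι₂ κ₂ ρ V ω μ₂ b → Ort V ω μ₂ a b)
    [μ₁.IsMulRightInvariant] [IsFiniteMeasure m]
    (hA : Avg ι₁ κ₁ κ₂ ρ V ω μ₁ μ₂ b)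
    (hc : Smo ι₁ κ₁ ρ V ω μ₁ c) (hb : Smo ι₂ κ₂ ρ V ω μ₂ b) (ha : Smo ι₁ κ₁ ρ V ω μ₁ a) :
    Measurable fun z => ‖qq κ₁ κ₂ V ω μ₁ μ₂ m b (fun x => adjoint (c (x * z)) * c (x * z))
      (fun x => a x * adjoint (a x))‖ₑ := by
  simp only [enorm_qq h hd hd₂ hO hO₂ hA hc hb ha]
  have h1 := (measurable_phi h.toFrm hd hd₂ hc hb ha).lintegral_prod_right' (ν := μ₁.prod μ₂)
  exact h1.lintegral_prod_right' (ν := m)

/-- **The Tonelli identity.** -/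
theorem ton (h : TFrm ρ V ω) (hd : DenseRange κ₁) (hd₂ : DenseRange κ₂)
    (hO : ∀ a b, Smo ι₁ κ₁ ρ V ω μ₁ a → Smo ι₁ κ₁ ρ V ω μ₁ b → Ort V ω μ₁ a b)
    (hO₂ : ∀ a b, Smo ι₂ κ₂ ρ V ω μ₂ a → Smo ι₂ κ₂ ρ V ω μ₂ b → Ort V ω μ₂ a b)
    [μ₁.IsMulRightInvariant] [IsProbabilityMeasure m]
    (hA : Avg ι₁ κ₁ κ₂ ρ V ω μ₁ μ₂ b)
    (hc : Smo ι₁ κ₁ ρ V ω μ₁ c) (hb : Smo ι₂ κ₂ ρ V ω μ₂ b) (ha : Smo ι₁ κ₁ ρ V ω μ₁ a) :
    ∫⁻ z, ‖qq κ₁ κ₂ V ω μ₁ μ₂ m b (fun x => adjoint (c (x * z)) * c (x * z))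
      (fun x => a x * adjoint (a x))‖ₑ ∂μ₁ = nsq ω μ₂ b * (nsq ω μ₁ c * nsq ω μ₁ a) := by
  simp only [enorm_qq h hd hd₂ hO hO₂ hA hc hb ha]
  have hm := measurable_phi h.toFrm hd hd₂ hc hb ha
  have h1 := hm.lintegral_prod_right' (ν := μ₁.prod μ₂)
  rw [lintegral_lintegral_swap h1.aemeasurable]
  have key : ∀ g : H₁ × H₂, ∫⁻ z, ∫⁻ p, Phi κ₁ κ₂ V ω c b a ((z, g), p) ∂(μ₁.prod μ₂) ∂μ₁ =
      nsq ω μ₂ b * (nsq ω μ₁ c * nsq ω μ₁ a) := by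
    intro g
    have hmg : Measurable fun q : G₁ × (G₁ × G₂) => Phi κ₁ κ₂ V ω c b a ((q.1, g), q.2) :=
      hm.comp (by fun_prop)
    rw [lintegral_lintegral_swap hmg.aemeasurable]
    have gc := smo_al h.toFrm hd hc g.1
    have gb := smo_al h.toFrm hd₂ hb g.2
    have ga := smo_al h.toFrm hd ha g.1
    have nc : nsq ω μ₁ (al κ₁ V g.1 c) = nsq ω μ₁ c := lintegral_al h.toFrm hd hc.toFd hc.acont g.1
    have nb : nsq ω μ₂ (al κ₂ V g.2 b) = nsq ω μ₂ b := lintegral_al h.toFrm hd₂ hb.toFd hb.acont g.2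
    have na : nsq ω μ₁ (al κ₁ V g.1 a) = nsq ω μ₁ a := lintegral_al h.toFrm hd ha.toFd ha.acont g.1
    have k1 : ∀ p : G₁ × G₂, ∫⁻ z, Phi κ₁ κ₂ V ω c b a ((z, g), p) ∂μ₁ =
        nsq ω μ₁ c * ‖(al κ₂ V g.2 b p.2 * al κ₁ V g.1 a p.1) ω‖ₑ ^ 2 := by
      intro p
      have k2 := lintegral_mul_left_eq_self (μ := μ₁) (fun z => ‖al κ₁ V g.1 c z
        (al κ₂ V g.2 b p.2 (al κ₁ V g.1 a p.1 ω))‖ₑ ^ 2) p.1
      refine Eq.trans ?_ ((k2.trans ((gd_of_smo h hO gc).iso _)).trans ?_)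
      · rfl
      · rw [nc]
        rfl
    simp only [k1]
    have cba : Continuous fun p : G₁ × G₂ => (al κ₂ V g.2 b p.2 * al κ₁ V g.1 a p.1) ω :=
      ((gb.toFd.continuous.comp continuous_snd).mul
        (ga.toFd.continuous.comp continuous_fst)).clm_apply continuous_const
    rw [lintegral_const_mul _ (cba.enorm.measurable.pow_const 2)]
    have k3 := nsq_ba (ω := ω) (μ₁ := μ₁) (μ₂ := μ₂) gb.toFd.continuous ga.toFd.continuous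
      (gd_of_smo h hO₂ gb).iso
    unfold nsq at k3 ⊢
    rw [k3]
    unfold nsq at nb na
    rw [nb, na]
    ring
  simp only [key, lintegral_const, measure_univ, mul_one]

end two

end Vale.Agent.P092.H796
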