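import Vale.Agent.P092.H796.Res2

/-!
P092 (helper796), Team P: words in several calculi.

`indM`: a multilinear map on tuples of continuous functions which vanishes on small supports
around every tuple of points is zero. `wd p f` = the word `p 0 (f 0) * p 1 (f 1) * ...`.
`zo_wd`: zero-one law for words. `kill_wd`: words in the commutant of two calculi.
-/

set_option linter.all false

open Set Topology Filter

namespace Vale.Agent.P092.H796

open Vale.Agent.P092.H218 (mul_ap)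
open Vale.Agent.P092.H232 (Nin split_fun)
open Vale.Agent.P092.H677 (sm ev_sm ev_sub)
open Vale.Agent.P092.H831 (ts_star comm_of_inv)
open Vale.Agent.P092.RC (Cm Moore)

/-! ### Localisation in several variables -/

section ind

variable {X : Type} [TopologicalSpace X] [CompactSpace X] [T2Space X]

theorem indA {ι : Type} {A : Type*} [AddCommGroup A] (L : Filter ι) (M : ι → C(X, ℂ) → A)
    (hadd : ∀ i u u', M i (u + u') = M i u + M i u')
    (h : ∀ x, ∀ᶠ p in sm {x} ×ˢ L, M p.2 p.1 = 0) : ∀ᶠ i in L, ∀ u, M i u = 0 := by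
  have key : ∃ O, IsOpen O ∧ (univ : Set X) ⊆ O ∧
      ∀ᶠ i in L, ∀ u : C(X, ℂ), tsupport ⇑u ⊆ O → M i u = 0 := by
    refine isCompact_univ.induction_on (p := fun S => ∃ O, IsOpen O ∧ S ⊆ O ∧
      ∀ᶠ i in L, ∀ u : C(X, ℂ), tsupport ⇑u ⊆ O → M i u = 0) ?_ ?_ ?_ ?_
    · refine ⟨∅, isOpen_empty, subset_rfl, Eventually.of_forall fun i u hu => ?_⟩
      have h0 : u = 0 := by
        ext x
        by_contra hx
        exact (hu (subset_tsupport _ hx)).elim
      have := hadd i 0 0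
      rw [add_zero] at this
      rw [h0]; exact left_eq_add.1 this
    · rintro S T hST ⟨O, hO, hT, h⟩
      exact ⟨O, hO, hST.trans hT, h⟩
    · rintro S T ⟨O, hO, hS, h⟩ ⟨O', hO', hT, h'⟩
      refine ⟨O ∪ O', hO.union hO', union_subset_union hS hT, ?_⟩
      filter_upwards [h, h'] with i hi hi' u hu
      obtain ⟨u₁, u₂, rfl, h1, h2, -, -⟩ := split_fun u hO hO' hu
      rw [hadd, hi _ h1, hi' _ h2, add_zero]
    · intro x hx
      obtain ⟨pa, ha, pb, hb, hab⟩ := eventually_prod_iff.1 (h x)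
      obtain ⟨O, hO, hxO, ha⟩ := ev_sm.1 ha
      exact ⟨O, mem_nhdsWithin_of_mem_nhds (hO.mem_nhds (hxO rfl)), O, hO, subset_rfl,
        hb.mono fun i hi u hu => hab (ha u hu) hi⟩
  obtain ⟨O, hO, hSO, h⟩ := key
  exact h.mono fun i hi u => hi u ((subset_univ _).trans hSO)

theorem indM {V : Type*} [AddCommGroup V] [Module ℂ V] : ∀ (m : ℕ) {ι : Type} (L : Filter ι)
    (Φ : ι → MultilinearMap ℂ (fun _ : Fin m => C(X, ℂ)) V)
    (h : ∀ z : Fin m → X, ∀ᶠ q in L ×ˢ (Filter.pi fun i => sm {z i}), Φ q.1 q.2 = 0),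
    ∀ᶠ i in L, Φ i = 0 := by
  intro m
  induction m with
  | zero =>
    intro ι L Φ h
    have h1 := (h Fin.elim0).curry
    refine h1.mono fun i hi => ?_
    haveI : (Filter.pi fun i : Fin 0 => sm {(Fin.elim0 i : X)}).NeBot :=
      Filter.pi_neBot.2 fun i => i.elim0
    obtain ⟨f, hf⟩ := hi.exists
    ext g
    rw [Subsingleton.elim g f]
    exact hf
  | succ m ih =>
    intro ι L Φ h
    have h2 : ∀ x, ∀ᶠ p in sm {x} ×ˢ L, (Φ p.2).curryLeft p.1 = 0 := by
      intro x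
      refine ih (sm {x} ×ˢ L) (fun p => (Φ p.2).curryLeft p.1) fun z => ?_
      have ht : Tendsto (fun q : (C(X, ℂ) × ι) × (Fin m → C(X, ℂ)) =>
          (q.1.2, (Fin.cons q.1.1 q.2 : Fin (m + 1) → C(X, ℂ))))
          ((sm {x} ×ˢ L) ×ˢ (Filter.pi fun i => sm {z i}))
          (L ×ˢ (Filter.pi fun i => sm {(Fin.cons x z : Fin (m + 1) → X) i})) := by
        refine (tendsto_snd.comp tendsto_fst).prodMk ?_
        refine tendsto_pi.2 fun i => ?_
        refine Fin.cases ?_ (fun i => ?_) i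
        · exact tendsto_fst.comp tendsto_fst
        · exact (tendsto_eval_pi (fun i => sm {z i}) i).comp tendsto_snd
      exact ht.eventually (h (Fin.cons x z))
    have h3 := indA L (fun i u => (Φ i).curryLeft u) (fun i u u' => map_add _ _ _) h2
    refine h3.mono fun i hi => ?_
    ext f
    have h4 := congrArg (fun M => M (Fin.tail f)) (hi (f 0))
    simpa using h4

/-- Localisation with supports. -/
theorem indS {V : Type*} [AddCommGroup V] [Module ℂ V] {m : ℕ} {ι : Type} (L : Filter ι)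
    (Φ : ι → MultilinearMap ℂ (fun _ : Fin m => C(X, ℂ)) V) (f : Fin m → C(X, ℂ))
    (h : ∀ z : Fin m → X, (∀ i, z i ∈ tsupport ⇑(f i)) →
      ∀ᶠ q in L ×ˢ (Filter.pi fun i => sm {z i}), Φ q.1 q.2 = 0) :
    ∀ᶠ i in L, Φ i f = 0 := by
  let Ψ : ι → MultilinearMap ℂ (fun _ : Fin m => C(X, ℂ)) V := fun i =>
    (Φ i).compLinearMap fun l => LinearMap.mulLeft ℂ (f l)
  have hΨ : ∀ i g, Ψ i g = Φ i fun l => f l * g l := fun i g => rfl
  have h1 : ∀ᶠ i in L, Ψ i = 0 := by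
    refine indM m L Ψ fun z => ?_
    by_cases hz : ∀ i, z i ∈ tsupport ⇑(f i)
    · have ht : Tendsto (fun q : ι × (Fin m → C(X, ℂ)) => (q.1, fun l => f l * q.2 l))
          (L ×ˢ (Filter.pi fun i => sm {z i})) (L ×ˢ (Filter.pi fun i => sm {z i})) := by
        refine tendsto_fst.prodMk (tendsto_pi.2 fun i => ?_)
        have h2 : Tendsto (fun g : C(X, ℂ) => f i * g) (sm {z i}) (sm {z i}) := by
          intro s hs
          obtain ⟨O, hO, hSO, h⟩ := ev_sm.1 (show ∀ᶠ u in sm {z i}, u ∈ s from hs)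
          refine ev_sm.2 ⟨O, hO, hSO, fun u hu => h _ ?_⟩
          exact (H232.tsupport_mul_r _ _).trans hu
        exact h2.comp ((tendsto_eval_pi (fun i => sm {z i}) i).comp tendsto_snd)
      exact ht.eventually (h z hz)
    · push Not at hz
      obtain ⟨i, hi⟩ := hz
      have h2 : ∀ᶠ g : C(X, ℂ) in sm {z i}, tsupport ⇑g ⊆ (tsupport ⇑(f i))ᶜ :=
        ev_sub (isClosed_tsupport _).isOpen_compl (by simpa using hi)
      have h3 := ((tendsto_eval_pi (fun i => sm {z i}) i).comp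
        (tendsto_snd (f := L))).eventually h2
      refine h3.mono fun q hq => ?_
      rw [hΨ]
      refine MultilinearMap.map_coord_zero _ i ?_
      ext x
      by_contra hx
      have h4 : x ∈ tsupport ⇑(f i) := subset_tsupport _ (left_ne_zero_of_mul hx)
      have h5 : x ∈ tsupport ⇑(q.2 i) := subset_tsupport _ (right_ne_zero_of_mul hx)
      exact hq h5 h4
  refine h1.mono fun i hi => ?_
  have h2 := congrArg (fun M => M fun _ => (1 : C(X, ℂ))) hi
  have h3 : Ψ i (fun _ => (1 : C(X, ℂ))) = Φ i f := by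
    rw [hΨ]
    simp
  rw [← h3]
  exact h2

end ind

/-! ### Words -/

section words

variable {X K : Type*} [TopologicalSpace X] [NormedAddCommGroup K] [InnerProductSpace ℂ K]
  [CompleteSpace K] {m : ℕ}

/-- the word -/
noncomputable def wd (p : Fin m → (C(X, ℂ) →⋆ₐ[ℂ] (K →L[ℂ] K))) :
    MultilinearMap ℂ (fun _ : Fin m => C(X, ℂ)) (K →L[ℂ] K) :=
  (MultilinearMap.mkPiAlgebraFin ℂ m (K →L[ℂ] K)).compLinearMap fun i => (p i).toLinearMap

theorem wd_apply (p : Fin m → (C(X, ℂ) →⋆ₐ[ℂ] (K →L[ℂ] K))) (f : Fin m → C(X, ℂ)) :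
    wd p f = (List.ofFn fun i => p i (f i)).prod := rfl

theorem wd_zero (p : Fin 0 → (C(X, ℂ) →⋆ₐ[ℂ] (K →L[ℂ] K))) (f : Fin 0 → C(X, ℂ)) :
    wd p f = 1 := by
  rw [wd_apply, List.ofFn_zero, List.prod_nil]

theorem wd_succ (p : Fin (m + 1) → (C(X, ℂ) →⋆ₐ[ℂ] (K →L[ℂ] K))) (f : Fin (m + 1) → C(X, ℂ)) :
    wd p f = p 0 (f 0) * wd (fun i => p i.succ) (fun i => f i.succ) := by
  rw [wd_apply, wd_apply, List.ofFn_succ, List.prod_cons]

theorem wd_comm {p : Fin m → (C(X, ℂ) →⋆ₐ[ℂ] (K →L[ℂ] K))} {T : K →L[ℂ] K}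
    {f : Fin m → C(X, ℂ)} (h : ∀ i, Commute T (p i (f i))) : Commute T (wd p f) := by
  induction m with
  | zero => rw [wd_zero]; exact Commute.one_right _
  | succ m ih =>
    rw [wd_succ]
    exact (h 0).mul_right (ih fun i => h i.succ)

/-- an operator which commutes with the letters and kills one of them kills the word -/
theorem wd_kill {p : Fin m → (C(X, ℂ) →⋆ₐ[ℂ] (K →L[ℂ] K))} {T : K →L[ℂ] K}
    {f : Fin m → C(X, ℂ)} (h : ∀ i, Commute T (p i (f i))) (i : Fin m)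
    (hi : T * p i (f i) = 0) : T * wd p f = 0 := by
  induction m with
  | zero => exact i.elim0
  | succ m ih =>
    rw [wd_succ]
    refine Fin.cases (motive := fun i => T * p i (f i) = 0 →
      T * (p 0 (f 0) * wd (fun i => p i.succ) (fun i => f i.succ)) = 0) (fun h0 => ?_)
      (fun i h0 => ?_) i hi
    · rw [← mul_assoc, h0, zero_mul]
    · rw [← mul_assoc, (h 0).eq, mul_assoc, ih (p := fun i => p i.succ)
        (f := fun i => f i.succ) (fun i => h i.succ) i h0, mul_zero]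

/-- a word splits at a letter -/
theorem wd_split (p : Fin m → (C(X, ℂ) →⋆ₐ[ℂ] (K →L[ℂ] K))) (f : Fin m → C(X, ℂ)) (i : Fin m)
    (U : Set (K →L[ℂ] K)) (h1 : (1 : K →L[ℂ] K) ∈ U) (hm : ∀ A ∈ U, ∀ B ∈ U, A * B ∈ U)
    (hU : ∀ i f, p i f ∈ U) :
    ∃ A ∈ U, ∃ B ∈ U, wd p f = A * p i (f i) * B := by
  have hall : ∀ {m : ℕ} (p : Fin m → (C(X, ℂ) →⋆ₐ[ℂ] (K →L[ℂ] K))) (f : Fin m → C(X, ℂ)),
      (∀ i f, p i f ∈ U) → wd p f ∈ U := by
    intro m
    induction m with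
    | zero => intro p f _; rw [wd_zero]; exact h1
    | succ m ih =>
      intro p f hU
      rw [wd_succ]
      exact hm _ (hU 0 _) _ (ih _ _ fun i f => hU i.succ f)
  induction m with
  | zero => exact i.elim0
  | succ m ih =>
    refine Fin.cases (motive := fun i => ∃ A ∈ U, ∃ B ∈ U, wd p f = A * p i (f i) * B) ?_
      (fun i => ?_) i
    · exact ⟨1, h1, _, hall _ _ fun i f => hU i.succ f, by rw [wd_succ, one_mul]⟩
    · obtain ⟨A, hA, B, hB, h⟩ := ih (fun i => p i.succ) (fun i => f i.succ) i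
        (fun i f => hU i.succ f)
      refine ⟨p 0 (f 0) * A, hm _ (hU 0 _) _ hA, B, hB, ?_⟩
      rw [wd_succ, h]
      simp only [mul_assoc]

theorem wd_inter {p p' : Fin m → (C(X, ℂ) →⋆ₐ[ℂ] (K →L[ℂ] K))} {T : K →L[ℂ] K}
    {f f' : Fin m → C(X, ℂ)} (h : ∀ i, T * p i (f i) = p' i (f' i) * T) :
    T * wd p f = wd p' f' * T := by
  induction m with
  | zero => rw [wd_zero, wd_zero, mul_one, one_mul]
  | succ m ih =>
    rw [wd_succ, wd_succ, ← mul_assoc, h 0, mul_assoc, ih fun i => h i.succ, mul_assoc]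

end words

/-! ### The zero-one law -/

section zo

variable {G Γ K : Type} [Group G] [TopologicalSpace G] [Group Γ] [NormedAddCommGroup K]
  [InnerProductSpace ℂ K] [CompleteSpace K] {π : G →* (K →L[ℂ] K)} {lam : Γ →* (K →L[ℂ] K)}
  {W : Set (K →L[ℂ] K)}

/-- the common kernel -/
def KS (A : Set (K →L[ℂ] K)) : Submodule ℂ K where
  carrier := {ζ | ∀ T ∈ A, T ζ = 0}
  add_mem' {x y} hx hy T h := by rw [map_add, hx T h, hy T h, add_zero]
  zero_mem' T _ := map_zero _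
  smul_mem' c x hx T h := by rw [map_smul, hx T h, smul_zero]

theorem KS_closed (A : Set (K →L[ℂ] K)) : IsClosed (KS A : Set K) := by
  have e : (KS A : Set K) = ⋂ (T : K →L[ℂ] K) (_ : T ∈ A), {ζ | T ζ = 0} := by
    ext ζ
    simp only [Set.mem_iInter, Set.mem_setOf_eq]
    rfl
  rw [e]
  exact isClosed_iInter fun T => isClosed_iInter fun _ =>
    isClosed_eq T.continuous continuous_const

theorem zo_set (hp : H631.P0.Bas π lam W) {S : Set G} (hS : Moore S) (hinv : ∀ g ∈ S, g⁻¹ ∈ S)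
    {A : Set (K →L[ℂ] K)} (h1 : ∀ T ∈ A, Cm W T)
    (h2 : ∀ T ∈ A, ∀ γ, ∃ T' ∈ A, T * lam γ = lam γ * T')
    (h3 : ∀ T ∈ A, ∀ g ∈ S, T * π g = π g * T) : KS A = ⊥ ∨ KS A = ⊤ := by
  have swap : ∀ {A B C D : K →L[ℂ] K}, A * B = C * D → ∀ ζ, A (B ζ) = C (D ζ) := fun h ζ =>
    congrArg (fun S : K →L[ℂ] K => S ζ) h
  refine hp.zo hS (KS_closed A) (fun w hw ζ hζ T hT => ?_) (fun γ ζ hζ T hT => ?_)
    (fun g hg ζ hζ => ⟨fun T hT => ?_, fun T hT => ?_⟩)
  · rw [swap (h1 T hT w hw), hζ T hT, map_zero]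
  · obtain ⟨T', hT', e⟩ := h2 T hT γ
    rw [swap e, hζ T' hT', map_zero]
  · rw [swap (h3 T hT g hg), hζ T hT, map_zero]
  · rw [swap (h3 T hT g⁻¹ (hinv g hg)), hζ T hT, map_zero]

theorem zo_star (hp : H631.P0.Bas π lam W) {S : Set G} (hS : Moore S) (hinv : ∀ g ∈ S, g⁻¹ ∈ S)
    {A : Set (K →L[ℂ] K)} (h1 : ∀ T ∈ A, Cm W T)
    (h2 : ∀ T ∈ A, ∀ γ, ∃ T' ∈ A, T * lam γ = lam γ * T')
    (h2' : ∀ T ∈ A, ∀ γ, ∃ T' ∈ A, lam γ * T = T' * lam γ)
    (h3 : ∀ T ∈ A, ∀ g ∈ S, T * π g = π g * T) (hne : ∃ T ∈ A, T ≠ 0) :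
    (∀ ζ, (∀ T ∈ A, T ζ = 0) → ζ = 0) ∧ ∀ V : K →L[ℂ] K, (∀ T ∈ A, V * T = 0) → V = 0 := by
  obtain ⟨T₀, hT₀, hne⟩ := hne
  have sL : ∀ γ, star (lam γ) = lam γ⁻¹ := hp.adjL
  have sP : ∀ g, star (π g) = π g⁻¹ := hp.adjP
  constructor
  · intro ζ hζ
    rcases zo_set hp hS hinv h1 h2 h3 with h | h
    · have h4 : ζ ∈ KS A := hζ
      rw [h] at h4
      exact (Submodule.mem_bot ℂ).1 h4
    · refine (hne ?_).elim
      ext ξ
      have h4 : ξ ∈ KS A := by rw [h]; trivial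
      exact h4 T₀ hT₀
  · intro V hV
    have key := zo_set (A := {T | star T ∈ A}) hp hS hinv (fun T hT w hw => ?_)
      (fun T hT γ => ?_) (fun T hT g hg => ?_)
    · rcases key with h | h
      · have h5 : star V = 0 := by
          ext ξ
          have h4 : star V ξ ∈ KS {T : K →L[ℂ] K | star T ∈ A} := by
            intro T hT
            have h6 := congrArg star (hV (star T) hT)
            rw [star_mul, star_star, star_zero] at h6
            exact congrArg (fun S : K →L[ℂ] K => S ξ) h6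
          rw [h] at h4
          exact (Submodule.mem_bot ℂ).1 h4
        rw [← star_star V, h5, star_zero]
      · refine (hne ?_).elim
        have h5 : star T₀ = 0 := by
          ext ξ
          have h4 : ξ ∈ KS {T : K →L[ℂ] K | star T ∈ A} := by rw [h]; trivial
          exact h4 (star T₀) (by rw [Set.mem_setOf_eq, star_star]; exact hT₀)
        rw [← star_star T₀, h5, star_zero]
    · have h4 := congrArg star (h1 _ hT _ (hp.Wadj w hw))
      rw [star_mul, star_mul, star_star] at h4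
      have h5 : star (ContinuousLinearMap.adjoint w) = w := ContinuousLinearMap.adjoint_adjoint w
      rw [h5] at h4
      exact h4.symm
    · obtain ⟨T', hT', e⟩ := h2' _ hT γ⁻¹
      have h4 := congrArg star e
      rw [star_mul, star_mul, star_star, sL, inv_inv] at h4
      exact ⟨star T', by rw [Set.mem_setOf_eq, star_star]; exact hT', h4⟩
    · have h4 := congrArg star (h3 _ hT _ (hinv g hg))
      rw [star_mul, star_mul, star_star, sP, inv_inv] at h4
      exact h4.symm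

variable {X : Type} [TopologicalSpace X] {m : ℕ}

/-- **zero-one law for words** -/
theorem zo_wd (hp : H631.P0.Bas π lam W) {S : Set G} (hS : Moore S) (hinv : ∀ g ∈ S, g⁻¹ ∈ S)
    {p : Fin m → (C(X, ℂ) →⋆ₐ[ℂ] (K →L[ℂ] K))} (cm : ∀ i f, Cm W (p i f))
    (t : Γ → C(X, ℂ) → C(X, ℂ)) (cov : ∀ γ i f, lam γ * p i f * lam γ⁻¹ = p i (t γ f))
    {Q : (Fin m → C(X, ℂ)) → Prop} (hQ : ∀ γ f, Q f → Q fun i => t γ (f i))
    (hπ : ∀ g ∈ S, ∀ i f, p i f * π g = π g * p i f) (hne : ∃ f, Q f ∧ wd p f ≠ 0) :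
    (∀ ζ, (∀ f, Q f → wd p f ζ = 0) → ζ = 0) ∧
      ∀ V : K →L[ℂ] K, (∀ f, Q f → V * wd p f = 0) → V = 0 := by
  have l1 : ∀ γ, lam γ * lam γ⁻¹ = 1 := fun γ => by rw [← map_mul, mul_inv_cancel, map_one]
  have l2 : ∀ γ, lam γ⁻¹ * lam γ = 1 := fun γ => by rw [← map_mul, inv_mul_cancel, map_one]
  have c1 : ∀ γ i f, lam γ * p i f = p i (t γ f) * lam γ := fun γ i f => by
    rw [← cov, mul_assoc, l2, mul_one]
  have c2 : ∀ γ i f, lam γ * p i (t γ⁻¹ f) = p i f * lam γ := fun γ i f => by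
    have h := cov γ⁻¹ i f
    rw [inv_inv] at h
    rw [← h, mul_assoc (lam γ⁻¹), ← mul_assoc (lam γ), l1, one_mul]
  have key := zo_star (A := {T | ∃ f, Q f ∧ T = wd p f}) hp hS hinv ?_ ?_ ?_ ?_ ?_
  · refine ⟨fun ζ hζ => key.1 ζ ?_, fun V hV => key.2 V ?_⟩
    · rintro T ⟨f, hf, rfl⟩; exact hζ f hf
    · rintro T ⟨f, hf, rfl⟩; exact hV f hf
  · rintro T ⟨f, hf, rfl⟩ w hw
    exact (wd_comm (T := w) (p := p) (f := f) fun i => (cm i (f i) w hw).symm).eq.symm
  · rintro T ⟨f, hf, rfl⟩ γ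
    exact ⟨_, ⟨_, hQ γ⁻¹ f hf, rfl⟩, (wd_inter fun i => c2 γ i (f i)).symm⟩
  · rintro T ⟨f, hf, rfl⟩ γ
    exact ⟨_, ⟨_, hQ γ f hf, rfl⟩, wd_inter fun i => c1 γ i (f i)⟩
  · rintro T ⟨f, hf, rfl⟩ g hg
    exact (wd_comm (T := π g) (p := p) (f := f) fun i => (hπ g hg i (f i)).symm).eq.symm
  · obtain ⟨f, hf, h⟩ := hne
    exact ⟨_, ⟨f, hf, rfl⟩, h⟩

end zo

/-! ### Words in the commutant of two calculi -/

section kill

variable {X Y Z K : Type} [TopologicalSpace X] [TopologicalSpace Y] [TopologicalSpace Z]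
  [NormedAddCommGroup K] [InnerProductSpace ℂ K] [CompleteSpace K]
  {β βt : C(X, ℂ) →⋆ₐ[ℂ] (K →L[ℂ] K)} {δ : C(Y, ℂ) →⋆ₐ[ℂ] (K →L[ℂ] K)}
  {μ : C(Z, ℂ) →⋆ₐ[ℂ] (K →L[ℂ] K)}

/-- the commutant of two calculi -/
def C2 (β βt : C(X, ℂ) →⋆ₐ[ℂ] (K →L[ℂ] K)) (T : K →L[ℂ] K) : Prop :=
  (∀ u, Commute T (β u)) ∧ ∀ u, Commute T (βt u)

theorem C2.mul {A B : K →L[ℂ] K} (hA : C2 β βt A) (hB : C2 β βt B) : C2 β βt (A * B) :=
  ⟨fun u => (hA.1 u).mul_left (hB.1 u), fun u => (hA.2 u).mul_left (hB.2 u)⟩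

theorem C2.one : C2 β βt (1 : K →L[ℂ] K) :=
  ⟨fun u => Commute.one_left _, fun u => Commute.one_left _⟩

theorem C2.star {A : K →L[ℂ] K} (hA : C2 β βt A) : C2 β βt (Star.star A) := by
  refine ⟨fun u => ?_, fun u => ?_⟩
  · have := (hA.1 (Star.star u)).star_star
    rwa [map_star, star_star] at this
  · have := (hA.2 (Star.star u)).star_star
    rwa [map_star, star_star] at this

/-- The letters `δ` near points which are not related to the support of `f₁`. -/
theorem kill_wd (hδ : ∀ g, C2 β βt (δ g))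
    (join : ∀ W : K →L[ℂ] K, (∀ u, Commute W (βt u)) → (∀ T, C2 β βt T → Commute W T) →
      ∀ g, Commute W (μ g)) {f₁ : C(X, ℂ)} (f₂ : C(X, ℂ)) (h : C(Z, ℂ)) {S : Set C(Y, ℂ)}
    (hS : ∀ g ∈ S, star g ∈ S) (iβδ : ∀ g ∈ S, β f₁ * δ g = 0) {T : K →L[ℂ] K}
    (hT : C2 β βt T) {g' : C(Y, ℂ)} (hg' : g' ∈ S) : β f₁ * μ h * β f₂ * T * δ g' = 0 := by
  set N : Submodule ℂ K := KS {A | ∃ T g, C2 β βt T ∧ g ∈ S ∧ A = δ g * T} with hN
  have mem : ∀ ζ, ζ ∈ N ↔ ∀ T g, C2 β βt T → g ∈ S → δ g (T ζ) = 0 := fun ζ =>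
    ⟨fun h T g hT hg => h _ ⟨T, g, hT, hg, rfl⟩, by rintro h _ ⟨T, g, hT, hg, rfl⟩
                                                    exact h T g hT hg⟩
  have hcl : IsClosed (N : Set K) := KS_closed _
  haveI : CompleteSpace N := hcl.completeSpace_coe
  set p := N.starProjection with hp
  have swap : ∀ A B : K →L[ℂ] K, Commute A B → ∀ ζ, A (B ζ) = B (A ζ) := fun A B h ζ =>
    congrArg (fun S : K →L[ℂ] K => S ζ) h.eq
  have hβ : ∀ u, Commute (β u) p := by
    have key : ∀ u, ∀ ζ ∈ N, β u ζ ∈ N := by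
      intro u ζ hζ
      rw [mem] at hζ ⊢
      intro T g hT hg
      rw [swap _ _ (hT.1 u), swap _ _ ((hδ g).1 u), hζ T g hT hg, map_zero]
    intro u
    exact comm_of_inv N (β u) (key u) (by rw [← map_star]; exact key (star u))
  have ht : ∀ u, Commute (βt u) p := by
    have key : ∀ u, ∀ ζ ∈ N, βt u ζ ∈ N := by
      intro u ζ hζ
      rw [mem] at hζ ⊢
      intro T g hT hg
      rw [swap _ _ (hT.2 u), swap _ _ ((hδ g).2 u), hζ T g hT hg, map_zero]
    intro u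
    exact comm_of_inv N (βt u) (key u) (by rw [← map_star]; exact key (star u))
  have hC : ∀ V, C2 β βt V → Commute V p := by
    have key : ∀ V, C2 β βt V → ∀ ζ ∈ N, V ζ ∈ N := by
      intro V hV ζ hζ
      rw [mem] at hζ ⊢
      intro T g hT hg
      exact hζ (T * V) g (hT.mul hV) hg
    intro V hV
    exact comm_of_inv N V (key V hV) (key _ hV.star)
  have hμ : Commute p (μ h) := join p (fun u => (ht u).symm) (fun T hT => (hC T hT).symm) h
  have e1 : p * β f₁ = β f₁ := by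
    ext ξ
    refine Submodule.starProjection_eq_self_iff.2 ?_
    rw [mem]
    intro T g hT hg
    change δ g (T (β f₁ ξ)) = 0
    rw [swap _ _ (hT.1 f₁), swap _ _ ((hδ g).1 f₁)]
    exact congrArg (fun S : K →L[ℂ] K => S (T ξ)) (iβδ g hg)
  have e2 : p * (T * δ g') = 0 := by
    have h1 : star (T * δ g') * p = 0 := by
      ext ξ
      have h2 : p ξ ∈ N := N.starProjection_apply_mem ξ
      have h3 := (mem _).1 h2 (star T) (star g') hT.star (hS g' hg')
      rw [star_mul, ← map_star]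
      exact h3
    have h2 := congrArg star h1
    rw [star_mul, star_star, star_zero] at h2
    have h3 : star p = p := by
      have := (N.starProjection_isSymmetric)
      exact ContinuousLinearMap.isSelfAdjoint_iff_isSymmetric.2 this
    rwa [h3] at h2
  have e3 : β f₁ * μ h * β f₂ = β f₁ * μ h * β f₂ * p := by
    calc β f₁ * μ h * β f₂ = p * β f₁ * μ h * β f₂ := by rw [e1]
      _ = β f₁ * (p * μ h) * β f₂ := by rw [← (hβ f₁).eq]; simp only [mul_assoc]
      _ = β f₁ * μ h * (p * β f₂) := by rw [hμ.eq]; simp only [mul_assoc]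
      _ = _ := by rw [← (hβ f₂).eq]; simp only [mul_assoc]
  rw [e3, mul_assoc _ T, mul_assoc _ p, e2, mul_zero]

end kill

end Vale.Agent.P092.H796
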