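import Vale.Agent.P092.H796.Wd2

/-!
P092 (helper796), Team P: polar spaces of rank `r ≥ 2`, any form. `PolH`: the input of
`H831.PolF` without commutation of the maximal spaces.

* `ep_col`: orthogonal singular spaces have orthogonal values;
* `np_of`: opposite points are nowhere orthogonal (from a zero-one law);
* `of_pts_loc`, `join_opp`: generation.
-/

set_option linter.all false

open TopologicalSpace Topology Module Set Filter
open scoped Matrix

namespace Vale.Agent.P092.H796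

open Vale.Agent.P092.H303 (FormGroup)
open Vale.Agent.P092.H370.Po
open Vale.Agent.P092.H714.Cl
open Vale.Agent.P092.H218 (mul_ap)
open Vale.Agent.P092.H232 (Nin split_inc two_ind)
open Vale.Agent.P092.H702.PG (sup_eq ort_join eq_of_col_max)
open Vale.Agent.P092.H702.Pol (Adj exists_two)
open Vale.Agent.P092.H100.Gr (Gr)
open Vale.Agent.P092.H677 (sm ev_sm ev_sub ind2 nin_ev)
open Vale.Agent.P092.H831 (ts_star tot_vec join_comm comm_self')

variable {n n' : Type} [Fintype n] [DecidableEq n] [Fintype n'] [DecidableEq n']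
  {k : Type} [Field k] {σ : k →+* k} {ε : k} {J : Matrix n n k}
  {k' : Type} [NontriviallyNormedField k'] [ProperSpace k'] {σ' : k' →+* k'}
  [Fact (Continuous σ')] {ε' : k'} {J' : Matrix n' n' k'}
  {K : Type} [NormedAddCommGroup K] [InnerProductSpace ℂ K] [CompleteSpace K] {i j l r : ℕ}

/-- the values are orthogonal -/
def EP (φ : C(SGr σ' J' i, ℂ) →⋆ₐ[ℂ] (K →L[ℂ] K)) (τ : C(SGr σ' J' j, ℂ) →⋆ₐ[ℂ] (K →L[ℂ] K)) :
    Prop := ∀ a t, Nin (fun x y => Col x y) a t → φ a * τ t = 0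

theorem EP.symm (hF' : Frm σ' ε' J') {φ : C(SGr σ' J' i, ℂ) →⋆ₐ[ℂ] (K →L[ℂ] K)}
    {τ : C(SGr σ' J' j, ℂ) →⋆ₐ[ℂ] (K →L[ℂ] K)} (h : EP φ τ) : EP τ φ := by
  intro a t hn
  have h1 := congrArg star (h (star t) (star a) fun x hx y hy hxy => by
    rw [ts_star] at hx hy
    exact hn y hy x hx (Ort.symm hF' hxy))
  simpa only [star_mul, map_star, star_star, star_zero] using h1

theorem ep_self (φ : C(SGr σ' J' i, ℂ) →⋆ₐ[ℂ] (K →L[ℂ] K)) : EP φ φ := by
  intro a t hn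
  have h1 : a * t = 0 := by
    ext x
    by_contra hx
    exact hn x (subset_tsupport _ (left_ne_zero_of_mul hx)) x
      (subset_tsupport _ (right_ne_zero_of_mul hx)) x.sing
  rw [← map_mul, h1, map_zero]

theorem ep_mono (hσ : Continuous σ') {φ : C(SGr σ' J' i, ℂ) →⋆ₐ[ℂ] (K →L[ℂ] K)}
    {ψ : C(SGr σ' J' l, ℂ) →⋆ₐ[ℂ] (K →L[ℂ] K)} {τ : C(SGr σ' J' j, ℂ) →⋆ₐ[ℂ] (K →L[ℂ] K)}
    (h : ∀ a g, Nin (fun x y => Inc x y) a g → φ a * ψ g = 0) (hψ : EP ψ τ) : EP φ τ := by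
  intro a t hn
  refine two_ind (A := K →L[ℂ] K) (S₁ := tsupport ⇑a) (S₂ := tsupport ⇑t)
    (fun a t => φ a * τ t)
    (fun u' u'' a' => by simp only [map_add, add_mul])
    (fun u' a' a'' => by simp only [map_add, mul_add])
    (isClosed_tsupport _).isCompact (isClosed_tsupport _).isCompact
    (fun x hx z hz => ?_) a t subset_rfl subset_rfl
  have hc : IsClosed {q : SGr σ' J' j × SGr σ' J' l | (fun y w => Col w y) q.1 q.2} :=
    (col_closed (J := J') hσ (i := l) (j := j)).preimage continuous_swap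
  obtain ⟨h₁, h₂, hh, O, V, hO, hxO, hV, hzV, e1, e2⟩ :=
    split_inc (I₁ := fun (x : SGr σ' J' i) (y : SGr σ' J' l) => Inc x y)
      (I₂ := fun (y : SGr σ' J' j) (w : SGr σ' J' l) => Col w y) inc_closed hc (x := x) (y := z)
      (1 : C(SGr σ' J' l, ℂ)) fun w _ h3 h4 => hn x hx z hz (Ort.mono h4 h3 le_rfl)
  refine ⟨O, V, hO, hxO, hV, hzV, fun u' t' hu' ht' => ?_⟩
  have f1 : φ u' * ψ h₁ = 0 := h _ _ (e1 _ hu')
  have f2 : ψ h₂ * τ t' = 0 := hψ _ _ fun x hx y hy hxy => e2 _ ht' y hy x hx hxy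
  calc φ u' * τ t' = φ u' * ψ 1 * τ t' := by rw [map_one, mul_one]
    _ = φ u' * ψ h₁ * τ t' + φ u' * (ψ h₂ * τ t') := by
        rw [hh, map_add, mul_add, add_mul]; simp only [mul_assoc]
    _ = 0 := by rw [f1, f2, zero_mul, mul_zero, add_zero]

theorem ep_join (hσ : Continuous σ') {φ₁ φ₂ : C(SGr σ' J' i, ℂ) →⋆ₐ[ℂ] (K →L[ℂ] K)}
    {ψ : C(SGr σ' J' (i + 1), ℂ) →⋆ₐ[ℂ] (K →L[ℂ] K)}
    {τ : C(SGr σ' J' j, ℂ) →⋆ₐ[ℂ] (K →L[ℂ] K)} (c : H831.Col φ₁ φ₂)
    (f₁ : H831.Flg (fun x y => Inc x y) φ₁ ψ) (f₂ : H831.Flg (fun x y => Inc x y) φ₂ ψ)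
    (h₁ : EP φ₁ τ) (h₂ : EP φ₂ τ) : EP ψ τ := by
  intro g t hn
  ext η
  exact H831.perp_join (I := fun (x : SGr σ' J' i) (y : SGr σ' J' (i + 1)) => Inc x y)
    (P₁ := fun (x : SGr σ' J' i) (y : SGr σ' J' j) => Col x y)
    (P₂ := fun (x : SGr σ' J' (i + 1)) (y : SGr σ' J' j) => Col x y) inc_closed
    (col_closed hσ) (fun x x' m w hne h1 h2 h3 h4 => ort_join hne h1 h2 h3 h4) c f₁ f₂ (η := η)
    (fun a t h => congrArg (fun S : K →L[ℂ] K => S η) (h₁ a t h))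
    (fun a t h => congrArg (fun S : K →L[ℂ] K => S η) (h₂ a t h)) g t hn

/-- The input: `H831.PolF` without the commutation of the maximal spaces. -/
structure PolH (r : ℕ) (G : ∀ j, SGr σ J j → (C(SGr σ' J' j, ℂ) →⋆ₐ[ℂ] (K →L[ℂ] K))) :
    Prop where
  flg : ∀ j, 1 ≤ j → j < r → ∀ (B : SGr σ J j) (N : SGr σ J (j + 1)), Inc B N →
    H831.Flg (fun x y => Inc x y) (G j B) (G (j + 1) N)
  col : ∀ j, 1 ≤ j → j < r → ∀ (B B' : SGr σ J j) (N : SGr σ J (j + 1)), B ≠ B' → Inc B N →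
    Inc B' N → H831.Col (G j B) (G j B')
  top : ∀ B B' : SGr σ J r, B ≠ B' → Adj r B B' → ∀ ξ, (∀ f, G r B f ξ = G r B' f ξ) → ξ = 0

variable {G : ∀ j, SGr σ J j → (C(SGr σ' J' j, ℂ) →⋆ₐ[ℂ] (K →L[ℂ] K))}

theorem ep_down (hσ : Continuous σ') (hH : PolH r G)
    {τ : C(SGr σ' J' l, ℂ) →⋆ₐ[ℂ] (K →L[ℂ] K)} :
    ∀ d i j, i + d = j → 1 ≤ i → j ≤ r → ∀ (X : SGr σ J i) (Z : SGr σ J j), Inc X Z →
      EP (G j Z) τ → EP (G i X) τ := by
  intro d
  induction d with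
  | zero =>
    rintro i j rfl h1 h2 X Z hX h
    rw [inc_iff_eq.1 hX]
    exact h
  | succ d ih =>
    intro i j hij h1 h2 X Z hX h
    obtain ⟨X', hX', hXZ⟩ := exists_inc_between (l := i + 1) (by omega) (by omega) hX
    exact ep_mono hσ (hH.flg i h1 (by omega) X X' hX').inc
      (ih (i + 1) j (by omega) (by omega) h2 X' Z hXZ h)

theorem ep_inc (hσ : Continuous σ') (hH : PolH r G) (h1 : 1 ≤ i) (h2 : j ≤ r) {X : SGr σ J i}
    {Z : SGr σ J j} (h : Inc X Z) : EP (G i X) (G j Z) :=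
  ep_down hσ hH (j - i) i j (by have := h.le; omega) h1 h2 X Z h (ep_self _)

/-- orthogonal singular spaces have orthogonal values -/
theorem ep_col (hσ : Continuous σ') (hF : Frm σ ε J) (hW : WI σ J r) (hF' : Frm σ' ε' J')
    (hH : PolH r G) (h1 : 1 ≤ i) (h2 : 1 ≤ j) {X : SGr σ J i} {Z : SGr σ J j} (h : Col X Z) :
    EP (G i X) (G j Z) := by
  obtain ⟨N, hX, hZ⟩ := exists_max hF hW h
  exact ep_down hσ hH (r - i) i r (by have := hX.le; omega) h1 le_rfl X N hX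
    ((ep_inc hσ hH h2 le_rfl hZ).symm hF')

/-- collinear points commute -/
theorem comm_pts (hF : Frm σ ε J) (hr : 2 ≤ r) (hH : PolH r G) {x y : SGr σ J 1} (h : Col x y)
    (f g) : Commute (G 1 x f) (G 1 y g) := by
  by_cases hxy : x = y
  · rw [hxy]
    exact comm_self' _ _ _
  · obtain ⟨z, h1, h2⟩ := H702.PG.join_of_col (j := 0)
      (a := SGr.mk' (σ := σ) (J := J) ⊥ sing_bot (finrank_bot k (n → k))) hF hxy bot_le bot_le h
    exact (hH.col 1 le_rfl (by omega) x y z hxy h1 h2).com f g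

/-- an operator which commutes with the points of `X` commutes with `X` -/
theorem of_pts_loc (hH : PolH r G) {W : K →L[ℂ] K} :
    ∀ j, 1 ≤ j → j ≤ r → ∀ X : SGr σ J j,
      (∀ p : SGr σ J 1, Inc p X → ∀ f, Commute W (G 1 p f)) → ∀ f, Commute W (G j X f) := by
  intro j h1
  induction j, h1 using Nat.le_induction with
  | base => exact fun _ X h => h X le_rfl
  | succ j h1 ih =>
    intro h2 X h f
    obtain ⟨C, C', hCC, hC, hC'⟩ := exists_two h1 X
    have c := hH.col j h1 (by omega) C C' X hCC hC hC'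
    have f₁ := hH.flg j h1 (by omega) C X hC
    have f₂ := hH.flg j h1 (by omega) C' X hC'
    exact join_comm inc_closed (fun x x' y y' hne a1 a2 a3 a4 => H702.PG.uniq hne a1 a2 a3 a4)
      _ _ _ c.com f₁.com f₂.com f₁.inc f₂.inc c.agr W
      (fun u => ih (by omega) C (fun p hp => h p (hp.trans hC)) u)
      (fun u => ih (by omega) C' (fun p hp => h p (hp.trans hC')) u) f

/-- generation by a point `bt` and the subspaces orthogonal to `b` -/
theorem join_opp (hF : Frm σ ε J) (hH : PolH r G) {b bt : SGr σ J 1} (hb : ¬ Col bt b)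
    {W : K →L[ℂ] K} (ht : ∀ u, Commute W (G 1 bt u)) :
    ∀ j, 1 ≤ j → j ≤ r → ∀ X : SGr σ J j, Inc bt X →
      (∀ p : SGr σ J 1, Inc p X → Col p b → ∀ f, Commute W (G 1 p f)) →
      ∀ f, Commute W (G j X f) := by
  intro j h1
  induction j, h1 using Nat.le_induction with
  | base =>
    intro _ X hX _ f
    rw [← inc_iff_eq.1 hX]
    exact ht f
  | succ j h1 ih =>
    intro h2 X hX h f
    obtain ⟨X₀, hX₀, hX₀b⟩ := exists_hyper hF X b
    obtain ⟨X₁, hbX₁, hX₁⟩ := exists_inc_between (l := j) h1 (Nat.le_succ j) hX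
    have hne : X₀ ≠ X₁ := by
      rintro rfl
      exact hb (Ort.mono hX₀b hbX₁ le_rfl)
    have c := hH.col j h1 (by omega) X₀ X₁ X hne hX₀ hX₁
    have f₁ := hH.flg j h1 (by omega) X₀ X hX₀
    have f₂ := hH.flg j h1 (by omega) X₁ X hX₁
    exact join_comm inc_closed (fun x x' y y' hne a1 a2 a3 a4 => H702.PG.uniq hne a1 a2 a3 a4)
      _ _ _ c.com f₁.com f₂.com f₁.inc f₂.inc c.agr W
      (fun u => of_pts_loc hH j h1 (by omega) X₀
        (fun p hp => h p (hp.trans hX₀) (Ort.mono hX₀b hp le_rfl)) u)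
      (fun u => ih (by omega) X₁ hbX₁ (fun p hp => h p (hp.trans hX₁)) u) f

/-- `np`: nowhere orthogonal values -/
def NP (φ τ : C(SGr σ' J' 1, ℂ) →⋆ₐ[ℂ] (K →L[ℂ] K)) : Prop :=
  ∀ ζ, (∀ f f', Nin (fun x y => Col x y) f f' → φ f (τ f' ζ) = 0) → ζ = 0

/-- **opposite points are nowhere orthogonal** -/
theorem np_of (hσ : Continuous σ') (hF : Frm σ ε J) (hW : WI σ J r) (hF' : Frm σ' ε' J')
    (hW' : WI σ' J' r) (hr : 2 ≤ r) (hH : PolH r G) {b b' : SGr σ J 1} (hbb : ¬ Col b b')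
    (zo : EP (G 1 b) (G 1 b') ∨ NP (G 1 b) (G 1 b')) : NP (G 1 b) (G 1 b') := by
  rcases zo with hE | hN
  swap
  · exact hN
  obtain ⟨M, hM, -⟩ := exists_max hF hW (X := b') (Y := b') b'.sing
  have hbM : ¬ Inc b M := fun h => hbb fun x hx y hy => M.sing x (h hx) y (hM hy)
  have s1 : ∀ j, 1 ≤ j → j ≤ r → ∀ X : SGr σ J j, Inc b' X → EP (G j X) (G 1 b) := by
    intro j h1
    induction j, h1 using Nat.le_induction with
    | base =>
      intro _ X hX
      rw [← inc_iff_eq.1 hX]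
      exact hE.symm hF'
    | succ j h1 ih =>
      intro h2 X hX
      obtain ⟨X₀, hX₀, hX₀b⟩ := exists_hyper hF X b
      obtain ⟨X₁, hbX₁, hX₁⟩ := exists_inc_between (l := j) h1 (Nat.le_succ j) hX
      have hne : X₀ ≠ X₁ := by
        rintro rfl
        exact hbb (Ort.symm hF (Ort.mono hX₀b hbX₁ le_rfl))
      exact ep_join hσ (hH.col j h1 (by omega) X₀ X₁ X hne hX₀ hX₁)
        (hH.flg j h1 (by omega) X₀ X hX₀) (hH.flg j h1 (by omega) X₁ X hX₁)
        (ep_col hσ hF hW hF' hH h1 le_rfl hX₀b) (ih (by omega) X₁ hbX₁)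
  have s2 : EP (G 1 b) (G r M) := (s1 r (by omega) le_rfl M hM).symm hF'
  obtain ⟨s, rfl⟩ : ∃ s, r = s + 1 := ⟨r - 1, by omega⟩
  obtain ⟨H, hH₁, hHb⟩ := exists_hyper hF M b
  obtain ⟨N, hHN, hbN⟩ := exists_max hF hW hHb
  have s3 : ∀ j, 1 ≤ j → j ≤ s + 1 → ∀ X : SGr σ J j, Inc b X → Inc X N →
      EP (G j X) (G (s + 1) M) := by
    intro j h1
    induction j, h1 using Nat.le_induction with
    | base =>
      intro _ X hX _
      rw [← inc_iff_eq.1 hX]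
      exact s2
    | succ j h1 ih =>
      intro h2 X hX hXN
      obtain ⟨X₀, hX₀, hX₀H⟩ := exists_inf hXN hHN
      obtain ⟨X₁, hbX₁, hX₁⟩ := exists_inc_between (l := j) h1 (Nat.le_succ j) hX
      have hne : X₀ ≠ X₁ := by
        rintro rfl
        exact hbM (hbX₁.trans (hX₀H.trans hH₁))
      exact ep_join hσ (hH.col j h1 (by omega) X₀ X₁ X hne hX₀ hX₁)
        (hH.flg j h1 (by omega) X₀ X hX₀) (hH.flg j h1 (by omega) X₁ X hX₁)
        (ep_inc hσ hH h1 le_rfl (hX₀H.trans hH₁)) (ih (by omega) X₁ hbX₁ (hX₁.trans hXN))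
  have s4 : EP (G (s + 1) M) (G (s + 1) N) := (s3 (s + 1) (by omega) le_rfl N hbN le_rfl).symm hF'
  have hne : N ≠ M := fun h => hbM (h ▸ hbN)
  intro ζ _
  refine tot_vec (G (s + 1) N) (G (s + 1) M) (hH.top N M hne ⟨H, hHN, hH₁⟩) ζ fun a c hac => ?_
  exact congrArg (fun S : K →L[ℂ] K => S ζ) (s4 c a fun x hx y hy hxy =>
    disjoint_left.1 hac hy ((eq_of_col_max hF' hW' hxy).symm ▸ hx))

end Vale.Agent.P092.H796
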