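import Vale.Agent.P092.H796.Wd5

/-!
P092 (helper796), Team P: the zero-one laws `ZP`, `ZT` from the picture.

`MoP`: every opposite pair of points, together with all points orthogonal to both, is fixed by a
symmetric Moore set.
-/

set_option linter.all false

open TopologicalSpace Topology Module Set Filter
open scoped Matrix

namespace Vale.Agent.P092.H796

open Vale.Agent.P092.H303 (FormGroup)
open Vale.Agent.P092.H370.Po
open Vale.Agent.P092.H714.Cl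
open Vale.Agent.P092.H232 (Nin)
open Vale.Agent.P092.RC (Cm Moore)

section pic

variable {n n' : Type} [Fintype n] [DecidableEq n] [Fintype n'] [DecidableEq n']
  {k : Type} [Field k] {σ : k →+* k} {ε : k} {J : Matrix n n k}
  {k' : Type} [NontriviallyNormedField k'] [ProperSpace k'] {σ' : k' →+* k'}
  [Fact (Continuous σ')] {ε' : k'} {J' : Matrix n' n' k'}
  {G₀ Γ K : Type} [Group G₀] [TopologicalSpace G₀] [Group Γ] [NormedAddCommGroup K]
  [InnerProductSpace ℂ K] [CompleteSpace K] {π : G₀ →* (K →L[ℂ] K)} {lam : Γ →* (K →L[ℂ] K)}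
  {W : Set (K →L[ℂ] K)} {E : SGr σ J 1 → (C(SGr σ' J' 1, ℂ) →⋆ₐ[ℂ] (K →L[ℂ] K))}

/-- opposite pairs and their common orthogonal are fixed by a Moore set -/
def MoP (π : G₀ →* (K →L[ℂ] K)) (E : SGr σ J 1 → (C(SGr σ' J' 1, ℂ) →⋆ₐ[ℂ] (K →L[ℂ] K))) :
    Prop := ∀ a a' : SGr σ J 1, ¬ Col a a' → ∃ S : Set G₀, Moore S ∧ (∀ g ∈ S, g⁻¹ ∈ S) ∧
      (∀ g ∈ S, ∀ f, E a f * π g = π g * E a f) ∧
      (∀ g ∈ S, ∀ f, E a' f * π g = π g * E a' f) ∧
      ∀ p, Col p a → Col p a' → ∀ g ∈ S, ∀ f, E p f * π g = π g * E p f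

theorem zp_of (hp : H631.P0.Bas π lam W) (cm : ∀ v f, Cm W (E v f))
    (t : Γ → C(SGr σ' J' 1, ℂ) → C(SGr σ' J' 1, ℂ))
    (cov : ∀ γ v f, lam γ * E v f * lam γ⁻¹ = E v (t γ f)) (g : Γ → SGr σ' J' 1 → SGr σ' J' 1)
    (hg : ∀ γ f x, x ∈ tsupport ⇑(t γ f) → g γ x ∈ tsupport ⇑f)
    (hcol : ∀ γ x y, Col x y → Col (g γ x) (g γ y)) (hmo : MoP π E) : ZP E := by
  intro b b' hbb
  obtain ⟨S, hS, hinv, h1, h2, -⟩ := hmo b b' hbb
  have e2 : ∀ f : Fin 2 → C(SGr σ' J' 1, ℂ), wd ![E b, E b'] f = E b (f 0) * E b' (f 1) := by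
    intro f
    rw [wd_succ, wd_succ, wd_zero, mul_one]
    rfl
  by_cases hne : ∃ f : Fin 2 → C(SGr σ' J' 1, ℂ),
      Nin (fun x y => Col x y) (f 0) (f 1) ∧ wd ![E b, E b'] f ≠ 0
  · right
    have key := (zo_wd hp hS hinv (p := ![E b, E b'])
      (fun i f => by fin_cases i <;> exact cm _ f) t
      (fun γ i f => by fin_cases i <;> exact cov γ _ f)
      (Q := fun f => Nin (fun x y => Col x y) (f 0) (f 1))
      (fun γ f hf x hx y hy hxy => hf _ (hg γ _ x hx) _ (hg γ _ y hy) (hcol γ x y hxy))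
      (fun g hg i f => by
        fin_cases i
        · exact h1 g hg f
        · exact h2 g hg f) hne).1
    intro ζ hζ
    refine key ζ fun f hf => ?_
    rw [e2]
    exact hζ _ _ hf
  · left
    push Not at hne
    intro f f' hff
    have := hne ![f, f'] hff
    rw [e2] at this
    exact this

theorem zt_of (hp : H631.P0.Bas π lam W) (cm : ∀ v f, Cm W (E v f))
    (t : Γ → C(SGr σ' J' 1, ℂ) → C(SGr σ' J' 1, ℂ))
    (cov : ∀ γ v f, lam γ * E v f * lam γ⁻¹ = E v (t γ f)) (g : Γ → SGr σ' J' 1 → SGr σ' J' 1)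
    (hg : ∀ γ f x, x ∈ tsupport ⇑(t γ f) → g γ x ∈ tsupport ⇑f)
    (hind : ∀ γ (m : ℕ) (z : Fin m → SGr σ' J' 1), Ind (fun i => g γ (z i)) → Ind z)
    (hmo : MoP π E) : ZT E := by
  intro a a' haa m p h1 h2 hne
  obtain ⟨S, hS, hinv, -, -, h3⟩ := hmo a a' haa
  exact zo_wd hp hS hinv (p := fun i => E (p i)) (fun i f => cm _ f) t
    (fun γ i f => cov γ _ f) (Q := QI)
    (fun γ f hf z hz => hind γ m z (hf _ fun i => hg γ _ _ (hz i)))
    (fun g hg i f => h3 (p i) (h1 i) (h2 i) g hg f) hne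

/-- `MoP` from covariance under a group `S₀` which contains, for every opposite pair, elements of
every size which fix the pair and its orthogonal. -/
theorem moP_of {S₀ : Type} [Group S₀] [MulAction S₀ (SGr σ J 1)] {ι : S₀ →* G₀} {nm : S₀ → ℝ}
    (moore : ∀ T : Set S₀, (∀ C : ℝ, ∃ g ∈ T, C ≤ nm g) → Moore (ι '' T))
    (unb : ∀ a a' : SGr σ J 1, ¬ Col a a' → ∀ C : ℝ, ∃ g : S₀, g • a = a ∧ g • a' = a' ∧
      (∀ p : SGr σ J 1, Col p a → Col p a' → g • p = p) ∧ C ≤ nm g)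
    (pcov : ∀ (g : S₀) v f, π (ι g) * E v f * π (ι g)⁻¹ = E (g • v) f) : MoP π E := by
  intro a a' haa
  have key : ∀ (g : S₀) (v : SGr σ J 1) f, g • v = v → E v f * π (ι g) = π (ι g) * E v f := by
    intro g v f hv
    have h1 := pcov g v f
    rw [hv] at h1
    have h2 : π (ι g)⁻¹ * π (ι g) = 1 := by rw [← map_mul, inv_mul_cancel, map_one]
    rw [← h1, mul_assoc, h2, mul_one, h1]
  refine ⟨ι '' {g : S₀ | g • a = a ∧ g • a' = a' ∧ ∀ p : SGr σ J 1, Col p a → Col p a' →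
    g • p = p}, moore _ fun C => ?_, ?_, ?_, ?_, ?_⟩
  · obtain ⟨g, h1, h2, h3, h4⟩ := unb a a' haa C
    exact ⟨g, ⟨h1, h2, h3⟩, h4⟩
  · rintro _ ⟨g, ⟨h1, h2, h3⟩, rfl⟩
    refine ⟨g⁻¹, ⟨?_, ?_, fun p h4 h5 => ?_⟩, map_inv ι g⟩
    · rw [inv_smul_eq_iff, h1]
    · rw [inv_smul_eq_iff, h2]
    · rw [inv_smul_eq_iff, h3 p h4 h5]
  · rintro _ ⟨g, ⟨h1, h2, h3⟩, rfl⟩ f
    exact key g a f h1
  · rintro _ ⟨g, ⟨h1, h2, h3⟩, rfl⟩ f
    exact key g a' f h2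
  · rintro p h4 h5 _ ⟨g, ⟨h1, h2, h3⟩, rfl⟩ f
    exact key g p f (h3 p h4 h5)

end pic

section ind

variable {n : Type} [Fintype n] [DecidableEq n] {k : Type} [Field k] {σ : k →+* k}
  {J : Matrix n n k} {m : ℕ}

theorem ind_smul (g : FormGroup σ J) {z : Fin m → SGr σ J 1} :
    Ind (fun i => g • z i) ↔ Ind z := by
  have e : (⨆ i, (g • z i).S) = act g.1⁻¹ (⨆ i, (z i).S) := by
    unfold act
    rw [Submodule.map_iSup]
    rfl
  unfold Ind
  rw [e, finrank_act]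

end ind

end Vale.Agent.P092.H796
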