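import Vale.Agent.P092.H796.Wd6
import Vale.Agent.P092.H370.Cg4

/-!
P092 (helper796), Team P: elements of every size which fix an opposite pair of points and all the
points orthogonal to it, in the letters `CL.lt` and `CL.ltO`.
-/

set_option linter.all false

open Matrix Module Set Topology Filter

namespace Vale.Agent.P092.H796

open Vale.Agent.P092.H303 (FormGroup Idx hyp torF torF_mem dgF)
open Vale.Agent.P092.H714.Cl
open Vale.Agent.P092.H370.Po (SGr Inc Col Ort smul_S smul_eq_of_fix col_smul)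
open Vale.Agent.P092.H370.Fo (EU Fo EU_le)
open Vale.Agent.P092.H370.Cg
open Vale.Agent.P092.H631.P2 (hf_eR hf_eL)

variable {k : Type} [NontriviallyNormedField k] {ι : Type} [Fintype ι] [DecidableEq ι]
  {s : ℕ} {σ : k →+* k} {ε : k} {J₀ : Matrix ι ι k} {w : k}

theorem not_col_p0 : ¬ Col (CL.p0 : SGr σ (hyp (s + 2) ε J₀) 1) (pn σ ε J₀ (s + 1)) := by
  intro h
  have h5 := h (Pi.single (.inl (.inl 0)) 1) (by rw [p0_eq]; exact single_mem_cs (0 : Fin 1))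
    (Pi.single (.inl (.inr 0)) 1) (single_mem_cs (0 : Fin 1))
  rw [hf_eR, Pi.single_eq_same] at h5
  exact one_ne_zero h5

/-- the wall element of the points fixes the points orthogonal to both ends -/
theorem b1_fix (hε : ε ≠ 0) (hw : w ≠ 0) (hσw : σ w = w) (N : ℕ)
    {x : SGr σ (hyp (s + 2) ε J₀) 1} (h1 : Col x CL.p0) (h2 : Col x (pn σ ε J₀ (s + 1))) :
    ((CL.b1 hw hσw : FormGroup σ (hyp (s + 2) ε J₀)) ^ N) • x = x := by
  refine smul_eq_of_fix fun v hv => ?_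
  have e1 : v (.inl (.inr 0)) = 0 := by
    have := h1 v hv (Pi.single (.inl (.inl 0)) 1)
      (by rw [p0_eq]; exact single_mem_cs (0 : Fin 1))
    rw [hf_eL] at this
    exact (mul_eq_zero.1 this).resolve_right hε
  have e2 : v (.inl (.inl 0)) = 0 := by
    have := h2 v hv (Pi.single (.inl (.inr 0)) 1) (single_mem_cs (0 : Fin 1))
    rwa [hf_eR] at this
  have e3 : ((CL.b1 hw hσw : FormGroup σ (hyp (s + 2) ε J₀)) ^ N).1.1 =
      diagonal fun i => dgF (s + 2) ι w (Pi.single 0 1) i ^ N :=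
    pow_diag (d := dgF (s + 2) ι w (Pi.single 0 1)) rfl N
  rw [e3]
  funext i
  rw [vecMul_diagonal]
  rcases i with (i | i) | i
  · by_cases hi : i = 0
    · rw [hi, e2, zero_mul]
    · have : dgF (s + 2) ι w (Pi.single 0 1) (.inl (.inl i)) = 1 := by
        change w ^ (Pi.single 0 1 : Fin (s + 2) → ℤ) i = 1
        rw [Pi.single_eq_of_ne hi, zpow_zero]
      rw [this, one_pow, mul_one]
  · by_cases hi : i = 0
    · rw [hi, e1, zero_mul]
    · have : dgF (s + 2) ι w (Pi.single 0 1) (.inl (.inr i)) = 1 := by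
        change w ^ (-(Pi.single 0 1 : Fin (s + 2) → ℤ) i) = 1
        rw [Pi.single_eq_of_ne hi, neg_zero, zpow_zero]
      rw [this, one_pow, mul_one]
  · have : dgF (s + 2) ι w (Pi.single 0 1) (.inr i) = 1 := rfl
    rw [this, one_pow, mul_one]

theorem b1_p0 (hw : w ≠ 0) (hσw : σ w = w) (N : ℕ) :
    ((CL.b1 hw hσw : FormGroup σ (hyp (s + 2) ε J₀)) ^ N) •
      (CL.p0 : SGr σ (hyp (s + 2) ε J₀) 1) = CL.p0 := by
  rw [p0_eq]
  exact smul_cs_diag (pow_diag (d := dgF (s + 2) ι w (Pi.single 0 1)) rfl N)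

theorem b1_pn (hw : w ≠ 0) (hσw : σ w = w) (N : ℕ) :
    ((CL.b1 hw hσw : FormGroup σ (hyp (s + 2) ε J₀)) ^ N) • pn σ ε J₀ (s + 1) =
      pn σ ε J₀ (s + 1) :=
  smul_cs_diag (pow_diag (d := dgF (s + 2) ι w (Pi.single 0 1)) rfl N)

theorem unb_conj' {G : Type} [Group G] {nm : G → ℝ} (h1 : ∀ g, 0 < nm g)
    (h2 : ∃ C : ℝ, 0 < C ∧ ∀ g h, nm (g * h) ≤ C * (nm g * nm h)) {A : Type} {ψ : A → G}
    (h : ∀ C : ℝ, ∃ s, C ≤ nm (ψ s)) (g : G) (C : ℝ) : ∃ s, C ≤ nm (g * ψ s * g⁻¹) := by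
  obtain ⟨c, hc, h2⟩ := h2
  have hD : 0 < c * c * (nm g⁻¹ * nm g) := by
    have := h1 g⁻¹
    have := h1 g
    positivity
  obtain ⟨s, hs⟩ := h (c * c * (nm g⁻¹ * nm g) * C)
  refine ⟨s, le_of_mul_le_mul_left (hs.trans ?_) hD⟩
  have e : ψ s = g⁻¹ * ((g * ψ s * g⁻¹) * g) := by group
  have h3 : nm (g⁻¹ * ((g * ψ s * g⁻¹) * g)) ≤ c * (nm g⁻¹ * (c * (nm (g * ψ s * g⁻¹) * nm g))) :=
    (h2 _ _).trans (mul_le_mul_of_nonneg_left
      (mul_le_mul_of_nonneg_left (h2 _ _) (h1 _).le) hc.le)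
  calc nm (ψ s) = nm (g⁻¹ * ((g * ψ s * g⁻¹) * g)) := congrArg nm e
    _ ≤ _ := h3
    _ = c * c * (nm g⁻¹ * nm g) * nm (g * ψ s * g⁻¹) := by ring

/-- any group `S₀` over the isometry group which contains the Eichler elements and `b1` -/
theorem unb_gen {S₀ : Type} [Group S₀] [MulAction S₀ (SGr σ (hyp (s + 2) ε J₀) 1)]
    (φ : S₀ →* FormGroup σ (hyp (s + 2) ε J₀))
    (hφ : ∀ g : FormGroup σ (hyp (s + 2) ε J₀), g.1 ∈ EU σ ε (hyp (s + 2) ε J₀) → ∃ t, φ t = g)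
    (hact : ∀ (g : S₀) (x : SGr σ (hyp (s + 2) ε J₀) 1), g • x = φ g • x)
    (hF : Fo σ ε (hyp (s + 2) ε J₀)) (hε : ε ≠ 0) (hw : w ≠ 0) (hσw : σ w = w) {nm : S₀ → ℝ}
    (h1 : ∀ g, 0 < nm g) (h2 : ∃ C : ℝ, 0 < C ∧ ∀ g h, nm (g * h) ≤ C * (nm g * nm h)) {b : S₀}
    (hb : φ b = CL.b1 hw hσw) (h3 : Tendsto (fun N : ℕ => nm (b ^ N)) atTop atTop)
    (a a' : SGr σ (hyp (s + 2) ε J₀) 1) (haa : ¬ Col a a') (C : ℝ) :
    ∃ g : S₀, g • a = a ∧ g • a' = a' ∧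
      (∀ p : SGr σ (hyp (s + 2) ε J₀) 1, Col p a → Col p a' → g • p = p) ∧ C ≤ nm g := by
  obtain ⟨g, hg, h5, h6⟩ := trans_not_col hF not_col_p0 haa
  obtain ⟨t, rfl⟩ := hφ g hg
  obtain ⟨N, hN⟩ := unb_conj' h1 h2 (ψ := fun N : ℕ => b ^ N)
    (fun C => (h3.eventually_ge_atTop C).exists) t C
  have hbN : ∀ x : SGr σ (hyp (s + 2) ε J₀) 1, (b ^ N) • x =
      ((CL.b1 hw hσw : FormGroup σ (hyp (s + 2) ε J₀)) ^ N) • x := fun x => by
    rw [hact, map_pow, hb]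
  refine ⟨t * b ^ N * t⁻¹, conj_fix ((hact _ _).trans h5) ?_, conj_fix ((hact _ _).trans h6) ?_,
    fun p hp hp' => ?_, hN⟩
  · rw [hbN, b1_p0]
  · rw [hbN, b1_pn]
  · refine conj_fix (m := t⁻¹ • p) (smul_inv_smul t p) ?_
    rw [hbN]
    have e : t⁻¹ • p = (φ t)⁻¹ • p := by rw [hact, map_inv]
    refine b1_fix hε hw hσw N ?_ ?_
    · rw [e, ← col_smul (φ t), smul_inv_smul, h5]
      exact hp
    · rw [e, ← col_smul (φ t), smul_inv_smul, h6]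
      exact hp'

end Vale.Agent.P092.H796
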