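import Vale.Agent.P092.H796.Wd7
import Vale.Agent.P092.H766.Z6

/-!
P092 (helper796), Team P, stages 2 and 3, block [II] (every form, Witt index `r ≥ 2`): **in a
straight leg in which collinear points commute all calculi commute** (`legComm_of_str`).
-/

set_option linter.all false

open Matrix Module Set Topology Filter MeasureTheory

namespace Vale.Agent.P092.H796

open Vale.Agent.P092.H303 (FormGroup Idx hyp)
open Vale.Agent.P092.H714.Cl
open Vale.Agent.P092.H370.Po (SGr Inc Col WI Ort smul_S col_smul)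
open Vale.Agent.P092.H370.Fo (EU Fo EU_le)
open Vale.Agent.P092.RC (Cm Moore PicX)
open Vale.Agent.P092.H766.Z (Bs Cals Str)
open Vale.Agent.P092.CL (Lt Geo Adm PB HFam LegS LegComm Com lt act)

section zpt

variable {n : Type} [Fintype n] [DecidableEq n] {k : Type} [NontriviallyNormedField k]
  [ProperSpace k] {σ : k →+* k} [Fact (Continuous σ)] {ε : k} {J : Matrix n n k}
  {S₀ E Γ K : Type} [Group S₀] [TopologicalSpace S₀] [MulAction S₀ (SGr σ J 1)]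
  [ContinuousConstSMul S₀ (SGr σ J 1)] [Group E] [TopologicalSpace E] [Group Γ]
  [NormedAddCommGroup K] [InnerProductSpace ℂ K] [CompleteSpace K] {ι : S₀ →* E}
  {π : E →* (K →L[ℂ] K)} {lam : Γ →* (K →L[ℂ] K)} {W : Set (K →L[ℂ] K)} {Ω : K}

/-- **the zero-one laws of a leg** -/
theorem zpt_of (φ : S₀ →* FormGroup σ J) (hact : ∀ (g : S₀) (x : SGr σ J 1), g • x = φ g • x)
    (hp : PicX π lam W Ω) {nm : S₀ → ℝ}
    (moore : ∀ T : Set S₀, (∀ C : ℝ, ∃ g ∈ T, C ≤ nm g) → Moore (ι '' T))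
    (unb : ∀ a a' : SGr σ J 1, ¬ Col a a' → ∀ C : ℝ, ∃ g : S₀, g • a = a ∧ g • a' = a' ∧
      (∀ p : SGr σ J 1, Col p a → Col p a' → g • p = p) ∧ C ≤ nm g)
    {U : SGr σ J 1 → (C(SGr σ J 1, ℂ) →⋆ₐ[ℂ] (K →L[ℂ] K))} (cm : ∀ v f, Cm W (U v f))
    (q : Γ → S₀) (cov : ∀ γ v f, lam γ * U v f * lam γ⁻¹ = U v (act (q γ) f))
    (pcov : ∀ (g : S₀) v f, π (ι g) * U v f * π (ι g)⁻¹ = U (g • v) f) : ZP U ∧ ZT U := by
  have hb : H631.P0.Bas π lam W :=
    ⟨hp.adjP, hp.adjL, hp.Wadj, hp.erg, hp.inv⟩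
  have hg : ∀ γ (f : C(SGr σ J 1, ℂ)) x, x ∈ tsupport ⇑(act (q γ) f) →
      (q γ)⁻¹ • x ∈ tsupport ⇑f := fun γ f x hx =>
    tsupport_comp_subset_preimage (⇑f) (continuous_const_smul (q γ)⁻¹) hx
  have e : ∀ γ (x : SGr σ J 1), (q γ)⁻¹ • x = φ (q γ)⁻¹ • x := fun γ x => hact _ _
  exact ⟨zp_of hb cm (fun γ => act (q γ)) cov (fun γ x => (q γ)⁻¹ • x) hg
      (fun γ x y h => by
        change Col ((q γ)⁻¹ • x) ((q γ)⁻¹ • y)
        rw [e, e]
        exact (col_smul _).2 h) (moP_of moore unb pcov),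
    zt_of hb cm (fun γ => act (q γ)) cov (fun γ x => (q γ)⁻¹ • x) hg
      (fun γ m z h => by
        have h2 : Ind (fun i => φ (q γ)⁻¹ • z i) := by
          have e2 : (fun i => φ (q γ)⁻¹ • z i) = fun i => (q γ)⁻¹ • z i := by
            funext i
            rw [e]
          rw [e2]
          exact h
        exact (ind_smul _).1 h2) (moP_of moore unb pcov)⟩

end zpt

section cals

variable {n : Type} [Fintype n] [DecidableEq n] {k : Type} [NontriviallyNormedField k]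
  [ProperSpace k] {σ : k →+* k} [Fact (Continuous σ)] {ε : k} {J : Matrix n n k} {r : ℕ}
  {E Γ K : Type} [Group E] [TopologicalSpace E] [Group Γ] [NormedAddCommGroup K]
  [InnerProductSpace ℂ K] [CompleteSpace K] {ι : FormGroup σ J →* E}
  {π : E →* (K →L[ℂ] K)} {lam : Γ →* (K →L[ℂ] K)} {W : Set (K →L[ℂ] K)} {Ω : K}
  {q : Γ → FormGroup σ J} {π' : FormGroup σ J →* (K →L[ℂ] K)}
  {G : ∀ j, SGr σ J j → (C(SGr σ J j, ℂ) →⋆ₐ[ℂ] (K →L[ℂ] K))}

/-- orthogonal singular spaces have commuting calculi as soon as orthogonal points have -/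
theorem cals_cc (hC : Cals 1 r π' lam W q G)
    (hpts : ∀ a b : SGr σ J 1, Col a b → ∀ f g, Commute (G 1 a f) (G 1 b g)) {i j : ℕ}
    (hi : 1 ≤ i) (hir : i ≤ r) (hj : 1 ≤ j) (hjr : j ≤ r) {X : SGr σ J i} {X' : SGr σ J j}
    (h : Col X X') (f f') : Commute (G i X f) (G j X' f') := by
  have h1 : ∀ (x : SGr σ J 1) u, Inc x X → ∀ f', G 1 x u * G j X' f' = G j X' f' * G 1 x u :=
    fun x u hx f' => hC.cen j hj hjr X' (G 1 x u)
      (fun x' f hx' => (hpts x x' (Ort.mono h hx hx') u f).eq) f'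
  exact (hC.cen i hi hir X (G j X' f') (fun x u hx => (h1 x u hx f').symm) f).symm

/-- the input `PolH` -/
theorem polH_of_cals [IsUltrametricDist k] (hb : Bs ι π lam W Ω q) (hF : Frm σ ε J) (hW : WI σ J r) (hr : 2 ≤ r)
    (hC : Cals 1 r (π.comp ι) lam W q G)
    (hpts : ∀ a b : SGr σ J 1, Col a b → ∀ f g, Commute (G 1 a f) (G 1 b g)) : PolH r G where
  flg j h1 h2 B N hBN := ⟨fun u g => hC.com j (j + 1) h1 (by omega) h2 B N hBN u g,
    fun u g hn => hC.inc j (j + 1) h1 (by omega) h2 B N hBN u g hn⟩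
  col j h1 h2 B B' N hne hB hB' := ⟨fun u v => cals_cc hC hpts h1 h2.le h1 h2.le
    (fun x hx y hy => N.sing x (hB hx) y (hB' hy)) u v,
    hC.agr_in hb hF hW h1 h2 hne ⟨N, hB, hB'⟩⟩
  top := by
    intro B B' hne hA
    obtain ⟨j, rfl⟩ : ∃ j, r = j + 1 := ⟨r - 1, by omega⟩
    exact hC.agr_adj hb hF hW (by omega) le_rfl hne hA

end cals

section lt_

variable {k : Type} [NontriviallyNormedField k] [ProperSpace k] [MeasurableSpace k] {ι₀ : Type}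
  [Fintype ι₀] [DecidableEq ι₀] {s : ℕ} {σ : k →+* k} [Fact (Continuous σ)] {ε : k}
  {J₀ : Matrix ι₀ ι₀ k} {E Γ K : Type} [Group E] [TopologicalSpace E] [Group Γ]
  [NormedAddCommGroup K] [InnerProductSpace ℂ K] [CompleteSpace K] {𝒰 : Ultrafilter ℕ}
  {ι : FormGroup σ (hyp (s + 2) ε J₀) →* E} {π : E →* (K →L[ℂ] K)} {lam : Γ →* (K →L[ℂ] K)}
  {W : Set (K →L[ℂ] K)} {Ω : K} {m : Set Γ → (K →L[ℂ] K)}
  {q : Γ → FormGroup σ (hyp (s + 2) ε J₀)}
  {G : ∀ j, SGr σ (hyp (s + 2) ε J₀) j →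
    (C(SGr σ (hyp (s + 2) ε J₀) j, ℂ) →⋆ₐ[ℂ] (K →L[ℂ] K))}

/-- the pair stabilisers in the letters `lt` -/
theorem unb_lt (hF : Frm σ ε (hyp (s + 2) ε J₀)) {w : k} {hw : w ≠ 0} {hσw : σ w = w}
    {μ₁ : Measure k} {μ₂ : Measure (CL.V2 σ ε)} (hG : Geo (lt hF hw hσw μ₁ μ₂))
    (a a' : SGr σ (hyp (s + 2) ε J₀) 1) (haa : ¬ Col a a') (C : ℝ) :
    ∃ g : FormGroup σ (hyp (s + 2) ε J₀), g • a = a ∧ g • a' = a' ∧
      (∀ p : SGr σ (hyp (s + 2) ε J₀) 1, Col p a → Col p a' → g • p = p) ∧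
        C ≤ (lt hF hw hσw μ₁ μ₂).nm g :=
  unb_gen (MonoidHom.id _) (fun g _ => ⟨g, rfl⟩) (fun g x => rfl) hF.fo
    (fun h0 => by
      have := hF.eps
      rw [h0, zero_mul] at this
      exact zero_ne_one this) hw hσw hG.nm_pos hG.nm_mul rfl hG.nm_b1 a a' haa C

/-- the zero-one laws of the points -/
theorem zpt_lt (hF : Frm σ ε (hyp (s + 2) ε J₀)) {w : k} {hw : w ≠ 0} {hσw : σ w = w}
    {μ₁ : Measure k} {μ₂ : Measure (CL.V2 σ ε)} (hG : Geo (lt hF hw hσw μ₁ μ₂))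
    (hB : PB (lt hF hw hσw μ₁ μ₂) 𝒰 ι π lam W Ω m q)
    {U : SGr σ (hyp (s + 2) ε J₀) 1 →
      (C(SGr σ (hyp (s + 2) ε J₀) 1, ℂ) →⋆ₐ[ℂ] (K →L[ℂ] K))}
    (cm : ∀ v f, Cm W (U v f)) (cov : ∀ γ v f, lam γ * U v f * lam γ⁻¹ = U v (act (q γ) f))
    (pcov : ∀ g v f, π (ι g) * U v f * π (ι g)⁻¹ = U (g • v) f) : ZP U ∧ ZT U :=
  zpt_of (MonoidHom.id _) (fun g x => rfl) hB.pic hB.adm.moore
    (unb_lt hF hG) cm q cov pcov

/-- **block [II]**: in a straight leg in which collinear points commute all calculi commute -/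
theorem legComm_of_str [IsUltrametricDist k] (hF : Frm σ ε (hyp (s + 2) ε J₀))
    (hW : WI σ (hyp (s + 2) ε J₀) (s + 2))
    {w : k} {hw : w ≠ 0} {hσw : σ w = w} {μ₁ : Measure k} {μ₂ : Measure (CL.V2 σ ε)}
    (hG : Geo (lt hF hw hσw μ₁ μ₂)) (h : Str (lt hF hw hσw μ₁ μ₂) 𝒰 ι π lam W Ω m q G)
    (hpts : ∀ a b : SGr σ (hyp (s + 2) ε J₀) 1, Col a b → ∀ f g,
      Commute (G 1 a f) (G 1 b g)) :
    LegComm (lt hF hw hσw μ₁ μ₂) 𝒰 ι π lam W Ω m q (G 1) (G (s + 2)) := by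
  obtain ⟨zp, zt⟩ := zpt_lt hF hG h.leg.base h.leg.e.cm h.leg.e.cov h.leg.e.pcov
  have key := all_comm hF hW hF hW (by omega) le_rfl
    (polH_of_cals h.bs hF hW (by omega) h.cals hpts) zp zt
  exact ⟨h.leg, fun c c' f g => key 1 1 le_rfl (by omega) le_rfl (by omega) c c' f g,
    fun l l' f g => key (s + 2) (s + 2) (by omega) le_rfl (by omega) le_rfl l l' f g,
    fun c l f g => key 1 (s + 2) le_rfl (by omega) (by omega) le_rfl c l f g⟩

end lt_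

end Vale.Agent.P092.H796
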